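import Vale.Agent.VdW.Defs

/-!
# P053 (full answer): definitions

Everything here is auxiliary (the final statement does not use it).
-/

namespace Vale.Agent.VdWF

open Finset Vale.Agent.VdW

/-- `⌊Z Λ n / B^l⌋` -/
def zc (B Λ Z l n : ℕ) : ℤ := ((Z * Λ * n / B ^ l : ℕ) : ℤ)

/-- zone vector of `n` -/
def zone (m B Λ Z n : ℕ) : Fin m → ZMod Z := fun l => ((zc B Λ Z l n : ℤ) : ZMod Z)

/-- digit `l` of `n`, as seen by the level `i` (cut at `(i+1)/Z`) -/
def dig (B Λ Z i l n : ℕ) : ℤ := (zc B Λ Z l n - ((i : ℤ) + 1)) / (Z : ℤ)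

/-- the phase: sum over the levels of the forms of the digit vectors, divided by the primes -/
noncomputable def QQ (m n0 : ℕ) (p : ℕ → ℕ) (F : (i : ℕ) → (Fin m → ZMod (p i)) → ZMod (p i))
    (B Λ Z n : ℕ) : ℝ :=
  ∑ i ∈ range n0, ((F i (fun l => ((dig B Λ Z i l n : ℤ) : ZMod (p i)))).val : ℝ) / (p i : ℝ)

/-- `F` is anisotropic, and a form of degree `e` along lines -/
def IsForm (p m e : ℕ) (F : (Fin m → ZMod p) → ZMod p) : Prop :=
  (∀ v, F v = 0 → v = 0) ∧
  ∀ u v : Fin m → ZMod p, ∃ P : Polynomial (ZMod p), P.natDegree ≤ e ∧ P.coeff e = F v ∧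
    ∀ t : ZMod p, P.eval t = F (u + t • v)

/-- slow differences (with respect to progressions of length `k`) -/
def Slow (m B Λ Z k d : ℕ) : Prop :=
  ∀ l < m, ∃ V : ℤ, |((Λ * d : ℕ) : ℝ) / (B : ℝ) ^ l - V| ≤ 1 / (4 * (Z : ℝ) * k)

/-- cells used by the balanced function -/
noncomputable def gcell (m B Λ H n : ℕ) : Fin m → ZMod H × ZMod H :=
  fun l => (cell H ((n : ℝ) / (B : ℝ) ^ (l : ℕ)), cell H (((Λ * n : ℕ) : ℝ) / (B : ℝ) ^ (l : ℕ)))

/-- the set of the points `j < k` whose key occurred before -/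
noncomputable def old {κ : Type} (k : ℕ) (key : ℕ → κ) : Finset ℕ :=
  open Classical in (range k).filter (fun j => ∃ i < j, key i = key j)

/-- polynomial factor (Cramer bound) -/
def CC (D k : ℕ) : ℕ := D ^ (2 * D + 1) * k ^ (2 * D ^ 2)

end Vale.Agent.VdWF
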