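import Vale.Agent.VdWF.Defs

/-!
# P053 (full answer), part A: rational approximation dichotomy
-/

namespace Vale.Agent.VdWF

open Finset Vale.Agent.VdW

theorem dich (x : ℝ) (L H k : ℕ) (hL : 1 ≤ L) (hH : 4 * L ≤ H) (hk : 100 * L ≤ k) :
    (∃ r : ℚ, r.den < L ∧ |x - r| < 200 * (L : ℝ) / (H * k)) ∨
    (∃ T : ℕ, 1 ≤ T ∧ 100 * L * T ≤ k ∧ ∀ i : ℕ, 1 ≤ i → i < L → ∀ z : ℤ,
      1 / (H : ℝ) ≤ |(i : ℝ) * T * x - z|) := by
  have hLr : (1 : ℝ) ≤ L := by exact_mod_cast hL
  have hHr : 4 * (L : ℝ) ≤ H := by exact_mod_cast hH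
  have hkr : 100 * (L : ℝ) ≤ k := by exact_mod_cast hk
  have hH0 : (0 : ℝ) < H := by linarith
  have hk0 : (0 : ℝ) < k := by linarith
  by_cases hP : ∃ P : ℕ, 1 ≤ P ∧ P < L ∧ ∃ A : ℤ, |(P : ℝ) * x - A| < 1 / H
  · obtain ⟨P, hP1, hPL, A, hA⟩ := hP
    have hPr : (1 : ℝ) ≤ P := by exact_mod_cast hP1
    set δ : ℝ := x - A / P with hδ
    have hPδ : (P : ℝ) * x - A = P * δ := by
      rw [hδ]; field_simp
    rw [hPδ, abs_mul, abs_of_pos (by linarith : (0 : ℝ) < P)] at hA
    by_cases hs : |δ| < 200 * (L : ℝ) / (H * k)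
    · left
      refine ⟨(A : ℚ) / (P : ℚ), ?_, ?_⟩
      · have h1 : ((A : ℚ) / (P : ℚ)).den ∣ P := by
          have := Rat.den_dvd A P
          have h2 : ((A : ℚ) / ((P : ℤ) : ℚ)) = (A : ℚ) / (P : ℚ) := by push_cast; rfl
          have h3 : Rat.divInt A (P : ℤ) = (A : ℚ) / (P : ℚ) := by
            rw [Rat.divInt_eq_div]; push_cast; rfl
          rw [h3] at this
          exact_mod_cast this
        exact lt_of_le_of_lt (Nat.le_of_dvd (by omega) h1) hPL
      · push_cast
        exact hs
    · right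
      push Not at hs
      have hδ0 : 0 < |δ| := lt_of_lt_of_le (by positivity) hs
      set s : ℕ := ⌈1 / (H * (P * |δ|))⌉₊ with hsdef
      have hq0 : (0 : ℝ) < 1 / (H * (P * |δ|)) := by positivity
      have hs1 : 1 / (H * (P * |δ|)) ≤ (s : ℝ) := Nat.le_ceil _
      have hs2 : (s : ℝ) < 1 / (H * (P * |δ|)) + 1 := Nat.ceil_lt_add_one hq0.le
      have hspos : 1 ≤ s := Nat.ceil_pos.2 hq0
      have hsr : (1 : ℝ) ≤ s := by exact_mod_cast hspos
      have hlow : 1 / (H : ℝ) ≤ P * s * |δ| := by
        rw [div_le_iff₀ (by positivity)] at hs1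
        rw [div_le_iff₀ hH0]
        nlinarith
      have hup : P * s * |δ| < 2 / H := by
        have h1 : P * |δ| * s < P * |δ| * (1 / (H * (P * |δ|)) + 1) :=
          mul_lt_mul_of_pos_left hs2 (by positivity)
        have h2 : P * |δ| * (1 / (H * (P * |δ|)) + 1) = 1 / H + P * |δ| := by
          field_simp
        rw [h2] at h1
        have h3 : 2 / (H : ℝ) = 1 / H + 1 / H := by ring
        rw [h3]
        nlinarith
      refine ⟨P * s, by nlinarith [Nat.mul_le_mul hP1 hspos], ?_, ?_⟩
      · have h1 : (P : ℝ) * s * (200 * L / (H * k)) < 2 / H :=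
          lt_of_le_of_lt (mul_le_mul_of_nonneg_left hs (by positivity)) hup
        have h2 : 100 * (L : ℝ) * (P * s) < k := by
          have h3 : (P : ℝ) * s * (200 * L / (H * k)) * (H * k) < 2 / H * (H * k) :=
            mul_lt_mul_of_pos_right h1 (by positivity)
          have h4 : (P : ℝ) * s * (200 * L / (H * k)) * (H * k) = P * s * 200 * L := by
            field_simp
          have h5 : 2 / (H : ℝ) * (H * k) = 2 * k := by field_simp
          rw [h4, h5] at h3
          nlinarith
        have : ((100 * L * (P * s) : ℕ) : ℝ) < k := by push_cast; linarith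
        exact le_of_lt (by exact_mod_cast this)
      · intro i hi1 hiL z
        have hir : (1 : ℝ) ≤ i := by exact_mod_cast hi1
        have hiLr : (i : ℝ) ≤ L := by exact_mod_cast hiL.le
        have hx : x = A / P + δ := by rw [hδ]; ring
        have e1 : (i : ℝ) * ((P * s : ℕ) : ℝ) * x - z = i * (P * s) * δ + ((i * s * A - z : ℤ) : ℝ) := by
          rw [hx]; push_cast; field_simp; ring
        rw [e1]
        have hb1 : 1 / (H : ℝ) ≤ |(i : ℝ) * (P * s) * δ| := by
          rw [abs_mul, abs_of_pos (by positivity : (0:ℝ) < (i : ℝ) * (P * s))]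
          have : P * s * |δ| ≤ (i : ℝ) * (P * s) * |δ| := by
            have h0 : 0 ≤ P * s * |δ| := by positivity
            nlinarith
          linarith
        have hb2 : |(i : ℝ) * (P * s) * δ| ≤ 1 / 2 := by
          rw [abs_mul, abs_of_pos (by positivity : (0:ℝ) < (i : ℝ) * (P * s))]
          have h1 : (i : ℝ) * (P * s) * |δ| ≤ L * (2 / H) := by
            have h0 : 0 ≤ P * s * |δ| := by positivity
            calc (i : ℝ) * (P * s) * |δ| = i * (P * s * |δ|) := by ring
              _ ≤ L * (2 / H) := mul_le_mul hiLr hup.le h0 (by linarith)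
          have h2 : (L : ℝ) * (2 / H) ≤ 1 / 2 := by
            rw [mul_div_assoc', div_le_iff₀ hH0]
            linarith
          linarith
        rcases eq_or_ne (i * s * A - z : ℤ) 0 with h0 | h0
        · rw [h0]; simpa using hb1
        · have h1 : (1 : ℝ) ≤ |((i * s * A - z : ℤ) : ℝ)| := by
            have := Int.one_le_abs h0
            have h2 : ((1 : ℤ) : ℝ) ≤ ((|i * s * A - z| : ℤ) : ℝ) := by exact_mod_cast this
            rw [Int.cast_abs] at h2
            simpa using h2
          have h2 : 1 / (H : ℝ) ≤ 1 / 2 := by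
            apply one_div_le_one_div_of_le (by norm_num); linarith
          have h3 := abs_sub_abs_le_abs_sub (((i * s * A - z : ℤ) : ℝ)) (-((i : ℝ) * (P * s) * δ))
          rw [abs_neg, sub_neg_eq_add, add_comm (((i * s * A - z : ℤ) : ℝ))] at h3
          linarith
  · right
    push Not at hP
    refine ⟨1, le_rfl, by omega, ?_⟩
    intro i hi1 hiL z
    have := hP i hi1 hiL z
    simpa using this

end Vale.Agent.VdWF
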