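import Vale.Agent.VdWF.Defs

/-!
# P053 (full answer), part B: non-degeneracy of the direction vector
-/

namespace Vale.Agent.VdWF

open Finset Vale.Agent.VdW

theorem nondeg (m n0 : ℕ) (p : ℕ → ℕ) (hp : ∀ i < n0, (p i).Prime)
    (hinj : ∀ i < n0, ∀ j < n0, p i = p j → i = j) (B : ℕ) (hB : B = ∏ i ∈ range n0, p i)
    (Y : ℕ) (hY : 1 ≤ Y) (hYB : Y < B ^ m) (V : ℕ → ℤ)
    (hV : ∀ l < m, |(Y : ℝ) / (B : ℝ) ^ l - V l| < 1) :
    ∃ i < n0, ∃ l < m, ¬ ((p i : ℤ) ∣ V l) := by
  by_contra hcon
  push Not at hcon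
  have hBpos : 0 < B := by
    rw [hB]
    exact Finset.prod_pos fun i hi => (hp i (mem_range.1 hi)).pos
  have hdvd : ∀ l < m, (B : ℤ) ∣ V l := by
    intro l hl
    rw [hB]
    push_cast
    apply Finset.prod_dvd_of_coprime
    · intro i hi j hj hij
      have hi' := mem_range.1 (Finset.mem_coe.1 hi)
      have hj' := mem_range.1 (Finset.mem_coe.1 hj)
      have hne : p i ≠ p j := fun h => hij (hinj i hi' j hj' h)
      have := (Nat.coprime_primes (hp i hi') (hp j hj')).2 hne
      exact Nat.isCoprime_iff_coprime.2 this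
    · intro i hi
      exact hcon i (mem_range.1 hi) l hl
  have hind : ∀ l ≤ m, B ^ l ∣ Y := by
    intro l
    induction l with
    | zero => intro _; simp
    | succ l ih =>
      intro hl
      obtain ⟨X, hX⟩ := ih (by omega)
      have h1 := hV l (by omega)
      have hBl : (B : ℝ) ^ l ≠ 0 := by positivity
      have h2 : (Y : ℝ) / (B : ℝ) ^ l = X := by
        rw [hX]; push_cast; field_simp
      rw [h2] at h1
      have h3 : |(X : ℤ) - V l| < 1 := by
        have : ((|(X : ℤ) - V l| : ℤ) : ℝ) < 1 := by push_cast; exact h1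
        exact_mod_cast this
      have h4 : (X : ℤ) = V l := by
        have := Int.abs_lt_one_iff.1 h3
        omega
      have h5 : (B : ℤ) ∣ X := h4 ▸ hdvd l (by omega)
      have h6 : B ∣ X := by exact_mod_cast h5
      obtain ⟨X', hX'⟩ := h6
      exact ⟨X', by rw [hX, hX', pow_succ, mul_assoc]⟩
  have := Nat.le_of_dvd (by omega) (hind m le_rfl)
  omega

end Vale.Agent.VdWF
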