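import Mathlib
import Vale.Agent.VdWF.Defs

/-!
# P053 (full answer), Part C: norm forms
-/

namespace Vale.Agent.VdWF

open Finset Vale.Agent.VdW Polynomial

theorem exists_form (p m e : ℕ) (hp : p.Prime) (hm : m ≤ e) (he : 1 ≤ e) :
    ∃ F : (Fin m → ZMod p) → ZMod p, IsForm p m e F := by
  have : Fact p.Prime := ⟨hp⟩
  have hfr : Module.finrank (ZMod p) (GaloisField p e) = e := GaloisField.finrank p (by omega)
  have : Module.Finite (ZMod p) (GaloisField p e) :=
    Module.finite_of_finrank_pos (by omega)
  let b : Module.Basis (Fin e) (ZMod p) (GaloisField p e) := Module.finBasisOfFinrankEq _ _ hfr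
  let ι : (Fin m → ZMod p) →ₗ[ZMod p] GaloisField p e :=
    { toFun := fun v => ∑ i, v i • b (Fin.castLE hm i)
      map_add' := by
        intro x y
        simp only [Pi.add_apply, add_smul, Finset.sum_add_distrib]
      map_smul' := by
        intro c x
        simp only [Pi.smul_apply, smul_eq_mul, mul_smul, Finset.smul_sum, RingHom.id_apply] }
  have hι : ∀ v, ι v = ∑ i, v i • b (Fin.castLE hm i) := fun _ => rfl
  have hli : LinearIndependent (ZMod p) (fun i : Fin m => b (Fin.castLE hm i)) :=
    b.linearIndependent.comp _ (Fin.castLE_injective hm)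
  have hinj : ∀ v, ι v = 0 → v = 0 := by
    intro v hv
    rw [hι] at hv
    funext i
    exact (Fintype.linearIndependent_iff.mp hli) v hv i
  refine ⟨fun v => Algebra.norm (ZMod p) (ι v), ?_, ?_⟩
  · intro v hv
    exact hinj v (Algebra.norm_eq_zero_iff.mp hv)
  · intro u v
    let Mu := Algebra.leftMulMatrix b (ι u)
    let Mv := Algebra.leftMulMatrix b (ι v)
    refine ⟨Matrix.det ((X : (ZMod p)[X]) • Mv.map C + Mu.map C), ?_, ?_, ?_⟩
    · have := Polynomial.natDegree_det_X_add_C_le Mv Mu
      simpa using this
    · have := Polynomial.coeff_det_X_add_C_card Mv Mu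
      rw [Fintype.card_fin] at this
      rw [this]
      show Matrix.det Mv = Algebra.norm (ZMod p) (ι v)
      rw [Algebra.norm_eq_matrix_det b]
    · intro t
      show _ = Algebra.norm (ZMod p) (ι (u + t • v))
      rw [map_add, map_smul, Algebra.norm_eq_matrix_det b, map_add, map_smul]
      have h := RingHom.map_det (Polynomial.evalRingHom t) ((X : (ZMod p)[X]) • Mv.map C + Mu.map C)
      rw [Polynomial.coe_evalRingHom] at h
      rw [h]
      congr 1
      ext i j
      simp [Mu, Mv]
      ring

end Vale.Agent.VdWF
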