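import Vale.Agent.VdWF.Defs

/-!
# P053 (full answer), part D: Cramer with the Gram matrix
-/

namespace Vale.Agent.VdWF

open Finset Matrix

/-- unit vector in the span of the rows -/
lemma cr_span (h n : ℕ) (A : Fin n → Fin h → ℤ) (e : Fin h)
    (hno : ¬ ∃ v : Fin h → ℚ, v e ≠ 0 ∧ ∀ q, ∑ s, (A q s : ℚ) * v s = 0) :
    (Pi.single e 1 : Fin h → ℚ) ∈ Submodule.span ℚ (Set.range (fun q s => (A q s : ℚ))) := by
  by_contra hmem
  obtain ⟨f, hf1, hf2⟩ := Submodule.exists_le_ker_of_notMem hmem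
  apply hno
  refine ⟨fun s => f (Pi.single s 1), ?_, ?_⟩
  · exact hf1
  · intro q
    have h1 : (fun s => (A q s : ℚ)) ∈ LinearMap.ker f :=
      hf2 (Submodule.subset_span ⟨q, rfl⟩)
    rw [LinearMap.mem_ker] at h1
    rw [← h1]
    conv_rhs => rw [show (fun s => (A q s : ℚ)) = ∑ s, (A q s : ℚ) • (Pi.single s 1 : Fin h → ℚ) by
      ext t
      rw [Finset.sum_apply]
      simp [Pi.single_apply]]
    rw [map_sum]
    refine Finset.sum_congr rfl fun s _ => ?_
    rw [map_smul, smul_eq_mul]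

theorem cramer (h n M : ℕ) (hM : 1 ≤ M) (A : Fin n → Fin h → ℤ) (hA : ∀ q s, |A q s| ≤ M)
    (e : Fin h) (hno : ¬ ∃ v : Fin h → ℚ, v e ≠ 0 ∧ ∀ q, ∑ s, (A q s : ℚ) * v s = 0) :
    ∃ L : ℕ, ∃ lam : Fin n → ℤ, 1 ≤ L ∧ L ≤ h.factorial * (h * M ^ 2) ^ h ∧
      ∑ q, |lam q| ≤ ((h * (h.factorial * (h * M ^ 2) ^ h) : ℕ) : ℤ) ∧
      ∀ s, ∑ q, lam q * A q s = if s = e then (L : ℤ) else 0 := by
  have hh : 1 ≤ h := by
    have := e.2
    omega
  have hmem := cr_span h n A e hno
  obtain ⟨κ, f, hf, hspan, hli⟩ := exists_linearIndependent' ℚ (fun q s => (A q s : ℚ) : Fin n → Fin h → ℚ)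
  have : Fintype κ := Fintype.ofInjective f hf
  classical
  have hcard : Fintype.card κ ≤ h := by
    have := hli.fintype_card_le_finrank
    simpa using this
  rw [← hspan] at hmem
  obtain ⟨c, hc⟩ := (Submodule.mem_span_range_iff_exists_fun ℚ).1 hmem
  have hc' : ∀ s, ∑ a, c a * (A (f a) s : ℚ) = if s = e then 1 else 0 := by
    intro s
    have := congrFun hc s
    rw [Finset.sum_apply] at this
    simpa [Pi.single_apply] using this
  -- Gram matrix
  set Γ : Matrix κ κ ℤ := Matrix.of fun a b => ∑ s, A (f a) s * A (f b) s with hΓ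
  set v : κ → ℤ := fun a => A (f a) e with hv
  have hMΓ : ∀ a b, |Γ a b| ≤ ((h * M ^ 2 : ℕ) : ℤ) := by
    intro a b
    rw [hΓ, Matrix.of_apply]
    refine (Finset.abs_sum_le_sum_abs _ _).trans ?_
    refine (Finset.sum_le_sum (fun s _ => ?_)).trans (b := ∑ _s : Fin h, ((M ^ 2 : ℕ) : ℤ)) ?_
    · rw [abs_mul]
      push_cast
      rw [pow_two]
      exact mul_le_mul (hA _ _) (hA _ _) (abs_nonneg _) (by positivity)
    · simp
  have hMv : ∀ a, |v a| ≤ ((h * M ^ 2 : ℕ) : ℤ) := by
    intro a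
    refine (hA _ _).trans ?_
    have : M ≤ h * M ^ 2 := by nlinarith
    exact_mod_cast this
  -- over the rationals
  have hΓinj : ∀ x : κ → ℚ, (∀ a, ∑ b, (Γ a b : ℚ) * x b = 0) → x = 0 := by
    intro x hx
    have h1 : ∑ s, (∑ a, x a * (A (f a) s : ℚ)) * (∑ a, x a * (A (f a) s : ℚ)) = 0 := by
      have h2 : ∑ s, (∑ a, x a * (A (f a) s : ℚ)) * (∑ a, x a * (A (f a) s : ℚ)) =
          ∑ a, x a * ∑ b, (Γ a b : ℚ) * x b := by
        simp only [Finset.mul_sum, Finset.sum_mul, hΓ, Matrix.of_apply]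
        rw [Finset.sum_comm]
        refine Finset.sum_congr rfl fun a _ => ?_
        rw [Finset.sum_comm]
        refine Finset.sum_congr rfl fun b _ => ?_
        push_cast
        rw [Finset.sum_mul, Finset.mul_sum]
        refine Finset.sum_congr rfl fun s _ => ?_
        ring
      rw [h2]
      exact Finset.sum_eq_zero fun a _ => by rw [hx a, mul_zero]
    have h3 : ∀ s, ∑ a, x a * (A (f a) s : ℚ) = 0 := by
      intro s
      have h4 := (Finset.sum_eq_zero_iff_of_nonneg (fun s _ => mul_self_nonneg _)).1 h1 s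
        (Finset.mem_univ s)
      exact mul_self_eq_zero.1 h4
    have h5 := Fintype.linearIndependent_iff.1 hli x (by
      ext s
      rw [Finset.sum_apply]
      simpa using h3 s)
    funext a
    exact h5 a
  have hdet : Γ.det ≠ 0 := by
    intro h0
    have h1 : (Γ.map (Int.cast : ℤ → ℚ)).det = 0 := by
      rw [← Int.cast_det, h0, Int.cast_zero]
    obtain ⟨x, hx0, hx⟩ := Matrix.exists_mulVec_eq_zero_iff.2 h1
    apply hx0
    apply hΓinj
    intro a
    have := congrFun hx a
    simpa [Matrix.mulVec, dotProduct] using this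
  have hcr : Γ.mulVec (Matrix.cramer Γ v) = Γ.det • v := Matrix.mulVec_cramer Γ v
  set l : κ → ℤ := Matrix.cramer Γ v with hl
  have hlc : ∀ a, (l a : ℚ) = (Γ.det : ℚ) * c a := by
    have h1 := hΓinj (fun a => (l a : ℚ) - (Γ.det : ℚ) * c a) (by
      intro a
      have h2 := congrFun hcr a
      have h3 : ∑ b, (Γ a b : ℚ) * (l b : ℚ) = (Γ.det : ℚ) * (v a : ℚ) := by
        have h4 := congrArg (Int.cast : ℤ → ℚ) h2
        simpa [Matrix.mulVec, dotProduct] using h4
      have h5 : ∑ b, (Γ a b : ℚ) * c b = (v a : ℚ) := by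
        simp only [hΓ, Matrix.of_apply]
        push_cast
        have h6 : ∑ b, (∑ s, (A (f a) s : ℚ) * (A (f b) s : ℚ)) * c b =
            ∑ s, (A (f a) s : ℚ) * ∑ b, c b * (A (f b) s : ℚ) := by
          simp only [Finset.sum_mul, Finset.mul_sum]
          rw [Finset.sum_comm]
          refine Finset.sum_congr rfl fun s _ => ?_
          refine Finset.sum_congr rfl fun b _ => ?_
          ring
        rw [h6]
        simp [hc', hv]
      simp only [mul_sub]
      rw [Finset.sum_sub_distrib, h3]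
      have h7 : ∑ b, (Γ a b : ℚ) * ((Γ.det : ℚ) * c b) = (Γ.det : ℚ) * (v a : ℚ) := by
        rw [← h5, Finset.mul_sum]
        refine Finset.sum_congr rfl fun b _ => ?_
        ring
      rw [h7, sub_self])
    intro a
    have := congrFun h1 a
    simp only [Pi.zero_apply] at this
    linarith
  have hsum : ∀ s, ∑ a, l a * A (f a) s = if s = e then Γ.det else 0 := by
    intro s
    have h1 : ((∑ a, l a * A (f a) s : ℤ) : ℚ) = ((if s = e then Γ.det else 0 : ℤ) : ℚ) := by
      rw [Int.cast_sum]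
      have h2 : ∀ a ∈ Finset.univ, ((l a * A (f a) s : ℤ) : ℚ) =
          (Γ.det : ℚ) * (c a * (A (f a) s : ℚ)) := by
        intro a _
        rw [Int.cast_mul, hlc a, mul_assoc]
      rw [Finset.sum_congr rfl h2, ← Finset.mul_sum, hc' s]
      split_ifs
      · rw [mul_one]
      · rw [mul_zero, Int.cast_zero]
    exact_mod_cast h1
  -- bounds
  have hx1 : (1 : ℤ) ≤ ((h * M ^ 2 : ℕ) : ℤ) := by
    have : 1 ≤ h * M ^ 2 := Nat.mul_pos hh (by positivity)
    exact_mod_cast this
  have hfac : ∀ N : Matrix κ κ ℤ, (∀ a b, |N a b| ≤ ((h * M ^ 2 : ℕ) : ℤ)) →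
      |N.det| ≤ ((h.factorial * (h * M ^ 2) ^ h : ℕ) : ℤ) := by
    intro N hN
    have h1 := Matrix.det_le (A := N) (abv := AbsoluteValue.abs) (x := ((h * M ^ 2 : ℕ) : ℤ)) hN
    have h2 : |N.det| ≤ (Fintype.card κ).factorial • ((h * M ^ 2 : ℕ) : ℤ) ^ Fintype.card κ := h1
    refine h2.trans ?_
    rw [nsmul_eq_mul]
    push_cast
    apply mul_le_mul
    · exact_mod_cast Nat.factorial_le hcard
    · exact pow_le_pow_right₀ (by exact_mod_cast hx1) hcard
    · positivity
    · positivity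
  have hLb := hfac Γ hMΓ
  have hlb : ∀ a, |l a| ≤ ((h.factorial * (h * M ^ 2) ^ h : ℕ) : ℤ) := by
    intro a
    rw [hl, Matrix.cramer_apply]
    apply hfac
    intro b b'
    rw [Matrix.updateCol_apply]
    split_ifs
    · exact hMv b
    · exact hMΓ b b'
  refine ⟨Γ.det.natAbs, fun q => ∑ a, if f a = q then Γ.det.sign * l a else 0, ?_, ?_, ?_, ?_⟩
  · exact Int.natAbs_pos.2 hdet
  · have : ((Γ.det.natAbs : ℕ) : ℤ) ≤ ((h.factorial * (h * M ^ 2) ^ h : ℕ) : ℤ) := by
      rw [Int.natCast_natAbs]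
      exact hLb
    exact_mod_cast this
  · have hs : |Γ.det.sign| ≤ 1 := by
      rcases Int.sign_trichotomy Γ.det with h | h | h <;> rw [h] <;> simp
    calc ∑ q, |∑ a, if f a = q then Γ.det.sign * l a else 0|
        ≤ ∑ q, ∑ a, |if f a = q then Γ.det.sign * l a else 0| :=
          Finset.sum_le_sum fun q _ => Finset.abs_sum_le_sum_abs _ _
      _ = ∑ a, ∑ q, |if f a = q then Γ.det.sign * l a else 0| := Finset.sum_comm
      _ = ∑ a, |Γ.det.sign * l a| := by
          refine Finset.sum_congr rfl fun a _ => ?_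
          rw [Finset.sum_eq_single (f a)]
          · rw [if_pos rfl]
          · intro q _ hq
            rw [if_neg (Ne.symm hq), abs_zero]
          · intro h
            exact absurd (Finset.mem_univ _) h
      _ ≤ ∑ _a : κ, ((h.factorial * (h * M ^ 2) ^ h : ℕ) : ℤ) := by
          refine Finset.sum_le_sum fun a _ => ?_
          rw [abs_mul]
          calc |Γ.det.sign| * |l a| ≤ 1 * |l a| := mul_le_mul_of_nonneg_right hs (abs_nonneg _)
            _ = |l a| := one_mul _
            _ ≤ _ := hlb a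
      _ ≤ ((h * (h.factorial * (h * M ^ 2) ^ h) : ℕ) : ℤ) := by
          rw [Finset.sum_const, Finset.card_univ, nsmul_eq_mul]
          have : Fintype.card κ * (h.factorial * (h * M ^ 2) ^ h) ≤
              h * (h.factorial * (h * M ^ 2) ^ h) := Nat.mul_le_mul_right _ hcard
          exact_mod_cast this
  · intro s
    have h1 : ∑ q, (∑ a, if f a = q then Γ.det.sign * l a else 0) * A q s =
        Γ.det.sign * ∑ a, l a * A (f a) s := by
      simp only [Finset.sum_mul]
      rw [Finset.sum_comm, Finset.mul_sum]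
      refine Finset.sum_congr rfl fun a _ => ?_
      rw [Finset.sum_eq_single (f a)]
      · rw [if_pos rfl, mul_assoc]
      · intro q _ hq
        rw [if_neg (Ne.symm hq), zero_mul]
      · intro h
        exact absurd (Finset.mem_univ _) h
    rw [h1, hsum s]
    split_ifs
    · rw [Int.sign_mul_self_eq_natAbs]
    · rw [mul_zero]

end Vale.Agent.VdWF
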