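import Mathlib
import Vale.Agent.VdWF.Defs

/-!
# P053 (full answer), Part E: double points of a polynomial curve
-/

namespace Vale.Agent.VdWF

open Finset Vale.Agent.VdW Polynomial

theorem curve (k i : ℕ) (hi : 1 ≤ i) (f g : Polynomial ℚ) (hf : f.natDegree = i)
    (hg : g.natDegree = i + 1) (O : Finset ℕ) (hO : ∀ y ∈ O, y < k) (x : ℕ → ℕ)
    (hx : ∀ y ∈ O, x y < y) (hfx : ∀ y ∈ O, f.eval (y : ℚ) = f.eval (x y : ℚ))
    (hgx : ∀ y ∈ O, g.eval (y : ℚ) = g.eval (x y : ℚ)) : O.card ≤ i ^ 2 := by
  by_contra hcon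
  push Not at hcon
  have hf0 : f ≠ 0 := by
    rintro rfl
    simp at hf
    omega
  have hg0 : g ≠ 0 := by
    rintro rfl
    simp at hg
  set h : ℕ → ℚ[X] := fun e => f ^ (e / i - e % i) * g ^ (e % i) with hh
  have hne : ∀ e, h e ≠ 0 := fun e => mul_ne_zero (pow_ne_zero _ hf0) (pow_ne_zero _ hg0)
  have hdeg : ∀ e, i ^ 2 ≤ e → (h e).natDegree = e := by
    intro e he
    have h1 : e % i < i := Nat.mod_lt _ (by omega)
    have h2 : i ≤ e / i := by
      rw [Nat.le_div_iff_mul_le (by omega)]
      nlinarith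
    have h3 := Nat.div_add_mod e i
    rw [hh]
    simp only
    rw [natDegree_mul (pow_ne_zero _ hf0) (pow_ne_zero _ hg0), natDegree_pow, natDegree_pow, hf, hg]
    obtain ⟨c, hc⟩ : ∃ c, e / i = c + e % i := ⟨e / i - e % i, by omega⟩
    rw [hc] at h3 ⊢
    rw [Nat.add_sub_cancel]
    nlinarith
  -- the linear map
  set T : Finset ℕ := Finset.Ico (i ^ 2) k with hT
  set S : Finset ℕ := Finset.range k \ O with hS
  have hOk : O ⊆ Finset.range k := by
    intro y hy
    exact Finset.mem_range.mpr (hO y hy)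
  have hcardO : O.card ≤ k := by
    simpa using Finset.card_le_card hOk
  have hcardS : S.card = k - O.card := by
    rw [hS, Finset.card_sdiff_of_subset hOk, Finset.card_range]
  have hcardT : T.card = k - i ^ 2 := by
    rw [hT, Nat.card_Ico]
  have hTm : ∀ e ∈ T, i ^ 2 ≤ e ∧ e < k := by
    intro e he
    rw [hT, Finset.mem_Ico] at he
    exact he
  let Φ : (T → ℚ) →ₗ[ℚ] (S → ℚ) :=
    { toFun := fun c s => ∑ e : T, c e * (h e).eval ((s : ℕ) : ℚ)
      map_add' := by
        intro c c'
        funext s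
        simp only [Pi.add_apply, add_mul, Finset.sum_add_distrib]
      map_smul' := by
        intro r c
        funext s
        simp only [Pi.smul_apply, smul_eq_mul, Finset.mul_sum, RingHom.id_apply, mul_assoc] }
  have hker : LinearMap.ker Φ ≠ ⊥ := by
    apply LinearMap.ker_ne_bot_of_finrank_lt
    rw [Module.finrank_fintype_fun_eq_card, Module.finrank_fintype_fun_eq_card,
      Fintype.card_coe, Fintype.card_coe]
    omega
  obtain ⟨c, hc, hc0⟩ := Submodule.exists_mem_ne_zero_of_ne_bot hker
  rw [LinearMap.mem_ker] at hc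
  have hcs : ∀ s ∈ S, ∑ e : T, c e * (h e).eval (s : ℚ) = 0 := by
    intro s hs
    have := congrFun hc ⟨s, hs⟩
    exact this
  -- the polynomial
  set P : ℚ[X] := ∑ e : T, C (c e) * h e with hP
  have hPeval : ∀ y : ℕ, P.eval (y : ℚ) = ∑ e : T, c e * (h e).eval (y : ℚ) := by
    intro y
    rw [hP, eval_finsetSum]
    simp
  have hPy : ∀ y : ℕ, y < k → P.eval (y : ℚ) = 0 := by
    intro y
    induction y using Nat.strong_induction_on with
    | _ y ih =>
      intro hy
      by_cases hyO : y ∈ O
      · have h1 := ih (x y) (hx y hyO) (lt_trans (hx y hyO) hy)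
        rw [hPeval] at h1 ⊢
        rw [← h1]
        refine Finset.sum_congr rfl fun e _ => ?_
        rw [hh]
        simp only [eval_mul, eval_pow, hfx y hyO, hgx y hyO]
      · rw [hPeval]
        exact hcs y (by rw [hS]; simp [hy, hyO])
  have hPdeg : P.natDegree < k := by
    have hk : 0 < k := by
      have : 0 < O.card := by omega
      omega
    have : P.natDegree ≤ k - 1 := by
      rw [hP]
      apply natDegree_sum_le_of_forall_le
      intro e _
      refine le_trans (natDegree_C_mul_le _ _) ?_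
      have he := hTm e e.2
      rw [hdeg e he.1]
      omega
    omega
  have hP0 : P = 0 := by
    apply eq_zero_of_natDegree_lt_card_of_eval_eq_zero' P ((Finset.range k).image (fun n : ℕ => (n : ℚ)))
    · intro z hz
      obtain ⟨y, hy, rfl⟩ := Finset.mem_image.mp hz
      exact hPy y (Finset.mem_range.mp hy)
    · rw [Finset.card_image_of_injective _ Nat.cast_injective, Finset.card_range]
      exact hPdeg
  -- but P is not zero
  obtain ⟨e1, he1⟩ := Function.ne_iff.mp hc0
  obtain ⟨e0, he0m, he0max⟩ := Finset.exists_max_image (Finset.univ.filter fun e : T => c e ≠ 0)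
    (fun e => (e : ℕ)) ⟨e1, by simpa using he1⟩
  have he0c : c e0 ≠ 0 := by simpa using he0m
  have hcoef : P.coeff (e0 : ℕ) = c e0 * (h e0).coeff (e0 : ℕ) := by
    rw [hP, finsetSum_coeff]
    rw [Finset.sum_eq_single e0]
    · rw [coeff_C_mul]
    · intro e _ hne0
      rw [coeff_C_mul]
      by_cases hce : c e = 0
      · rw [hce, zero_mul]
      · have h1 : (e : ℕ) ≤ (e0 : ℕ) := he0max e (by simpa using hce)
        have h2 : (e : ℕ) ≠ (e0 : ℕ) := fun hh' => hne0 (Subtype.ext hh')
        have he := hTm e e.2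
        rw [coeff_eq_zero_of_natDegree_lt (by rw [hdeg e he.1]; omega), mul_zero]
    · intro hmem
      exact absurd (Finset.mem_univ _) hmem
  rw [hP0, coeff_zero] at hcoef
  have he := hTm e0 e0.2
  have h3 : (h e0).coeff (e0 : ℕ) ≠ 0 := by
    have : (h e0).leadingCoeff ≠ 0 := leadingCoeff_ne_zero.mpr (hne e0)
    rwa [leadingCoeff, hdeg e0 he.1] at this
  exact mul_ne_zero he0c h3 hcoef.symm

end Vale.Agent.VdWF
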