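import Vale.Agent.VdWF.PartD
import Vale.Agent.VdWF.PartE

/-!
# P053 (full answer), part F: multiplicity of keys along a polynomial curve
-/

namespace Vale.Agent.VdWF

open Finset

/-- one polynomial: equal values modulo `1` up to `1/R` at the pairs force a rational polynomial
of exact degree `i` with equal values at the pairs -/
lemma mult_one (k i R pp D : ℕ) (hk : 1 ≤ k) (hi : 1 ≤ i) (hiD : i ≤ D) (hp : pp.Prime)
    (hC0 : CC D k < pp) (hC1 : pp * CC D k < R) (f : Polynomial ℝ) (hf : f.natDegree ≤ i)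
    (a : ℤ) (ha : ¬ (pp : ℤ) ∣ a) (hfa : f.coeff i = (a : ℝ) / pp)
    (O : Finset ℕ) (hO : ∀ y ∈ O, y < k) (x : ℕ → ℕ) (hx : ∀ y ∈ O, x y < y)
    (hfx : ∀ y ∈ O, ∃ z : ℤ, |f.eval (y : ℝ) - f.eval (x y : ℝ) - z| < 1 / (R : ℝ)) :
    ∃ g : Polynomial ℚ, g.natDegree = i ∧ ∀ y ∈ O, g.eval (y : ℚ) = g.eval (x y : ℚ) := by
  classical
  -- enumeration of `O`
  set n := O.card with hn
  let eO : Fin n ≃ O := O.equivFin.symm
  let A : Fin n → Fin i → ℤ := fun q s => ((eO q : ℕ) : ℤ) ^ ((s : ℕ) + 1) -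
    ((x (eO q : ℕ) : ℕ) : ℤ) ^ ((s : ℕ) + 1)
  have hA : ∀ q s, |A q s| ≤ ((k ^ i : ℕ) : ℤ) := by
    intro q s
    have h1 : (eO q : ℕ) < k := hO _ (eO q).2
    have h2 : x (eO q : ℕ) < eO q := hx _ (eO q).2
    have h3 : (((x (eO q : ℕ) : ℕ) : ℤ)) ^ ((s : ℕ) + 1) ≤ ((eO q : ℕ) : ℤ) ^ ((s : ℕ) + 1) := by
      apply pow_le_pow_left₀ (by positivity)
      exact_mod_cast h2.le
    have h4 : ((eO q : ℕ) : ℤ) ^ ((s : ℕ) + 1) ≤ ((k ^ i : ℕ) : ℤ) := by
      have h5 : (eO q : ℕ) ^ ((s : ℕ) + 1) ≤ k ^ i :=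
        (Nat.pow_le_pow_left h1.le _).trans (Nat.pow_le_pow_right hk s.2)
      exact_mod_cast h5
    have h6 : (0 : ℤ) ≤ ((x (eO q : ℕ) : ℕ) : ℤ) ^ ((s : ℕ) + 1) := by positivity
    rw [abs_of_nonneg (by simp only [A]; linarith)]
    simp only [A]
    linarith
  have hM : 1 ≤ k ^ i := Nat.one_le_pow _ _ hk
  let e : Fin i := ⟨i - 1, by omega⟩
  by_cases hno : ∃ v : Fin i → ℚ, v e ≠ 0 ∧ ∀ q, ∑ s, (A q s : ℚ) * v s = 0
  · obtain ⟨v, hv, hvq⟩ := hno
    refine ⟨∑ s : Fin i, Polynomial.monomial ((s : ℕ) + 1) (v s), ?_, ?_⟩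
    · apply le_antisymm
      · apply Polynomial.natDegree_sum_le_of_forall_le
        intro s _
        refine (Polynomial.natDegree_monomial_le _).trans ?_
        have := s.2
        omega
      · apply Polynomial.le_natDegree_of_ne_zero
        rw [Polynomial.finsetSum_coeff]
        simp only [Polynomial.coeff_monomial]
        rw [Finset.sum_eq_single e]
        · rw [if_pos (by simp only [e]; omega)]
          exact hv
        · intro s _ hs
          rw [if_neg]
          intro h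
          apply hs
          apply Fin.ext
          simp only [e]
          omega
        · intro h
          exact absurd (Finset.mem_univ _) h
    · intro y hy
      have h1 := hvq (eO.symm ⟨y, hy⟩)
      simp only [A, Equiv.apply_symm_apply] at h1
      push_cast at h1
      rw [Polynomial.eval_finsetSum, Polynomial.eval_finsetSum]
      simp only [Polynomial.eval_monomial]
      rw [← sub_eq_zero, ← Finset.sum_sub_distrib]
      rw [← h1]
      refine Finset.sum_congr rfl fun s _ => ?_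
      ring
  · exfalso
    obtain ⟨L, lam, hL1, hL2, hlam, hsum⟩ := cramer i n (k ^ i) hM A hA e hno
    -- comparison with `CC`
    have hCC : i * (i.factorial * (i * (k ^ i) ^ 2) ^ i) ≤ CC D k := by
      unfold CC
      have h1 : i.factorial ≤ i ^ i := Nat.factorial_le_pow i
      calc i * (i.factorial * (i * (k ^ i) ^ 2) ^ i)
          ≤ i * (i ^ i * (i * (k ^ i) ^ 2) ^ i) :=
            Nat.mul_le_mul_left _ (Nat.mul_le_mul_right _ h1)
        _ = i ^ (2 * i + 1) * k ^ (2 * i ^ 2) := by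
            rw [mul_pow, ← pow_mul, ← pow_mul]
            have e2 : i * (2 * i) = 2 * i ^ 2 := by ring
            simp only [e2]
            ring
        _ ≤ D ^ (2 * D + 1) * k ^ (2 * D ^ 2) := by
            apply Nat.mul_le_mul
            · calc i ^ (2 * i + 1) ≤ D ^ (2 * i + 1) := Nat.pow_le_pow_left hiD _
                _ ≤ D ^ (2 * D + 1) := Nat.pow_le_pow_right (by omega) (by omega)
            · apply Nat.pow_le_pow_right hk
              have := Nat.pow_le_pow_left hiD 2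
              omega
    have hLC : L ≤ CC D k := by
      refine hL2.trans (le_trans ?_ hCC)
      exact Nat.le_mul_of_pos_left _ (by omega)
    have hppos : (0 : ℝ) < pp := by exact_mod_cast hp.pos
    have hRpos : (0 : ℝ) < R := by
      have : 0 < R := by omega
      exact_mod_cast this
    choose! z hz using hfx
    -- the linear combination
    have hcomb : ∑ q, (lam q : ℝ) * (f.eval ((eO q : ℕ) : ℝ) - f.eval ((x (eO q : ℕ) : ℕ) : ℝ)) =
        (L : ℝ) * ((a : ℝ) / pp) := by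
      have h1 : ∀ t : ℝ, f.eval t = f.coeff 0 + ∑ s : Fin i, f.coeff ((s : ℕ) + 1) * t ^ ((s : ℕ) + 1) := by
        intro t
        rw [Polynomial.eval_eq_sum_range' (n := i + 1) (by omega), Finset.sum_range_succ',
          Finset.sum_range]
        simp only [pow_zero, mul_one]
        rw [add_comm]
      have h2 : ∀ q, f.eval ((eO q : ℕ) : ℝ) - f.eval ((x (eO q : ℕ) : ℕ) : ℝ) =
          ∑ s : Fin i, f.coeff ((s : ℕ) + 1) * (A q s : ℝ) := by
        intro q
        rw [h1, h1, add_sub_add_left_eq_sub, ← Finset.sum_sub_distrib]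
        refine Finset.sum_congr rfl fun s _ => ?_
        simp only [A]
        push_cast
        ring
      simp only [h2, Finset.mul_sum]
      rw [Finset.sum_comm]
      have h3 : ∀ s ∈ (Finset.univ : Finset (Fin i)), ∑ q, (lam q : ℝ) * (f.coeff ((s : ℕ) + 1) * (A q s : ℝ)) =
          f.coeff ((s : ℕ) + 1) * (if s = e then (L : ℝ) else 0) := by
        intro s _
        have h4 := congrArg (Int.cast : ℤ → ℝ) (hsum s)
        push_cast at h4
        rw [← h4, Finset.mul_sum]
        refine Finset.sum_congr rfl fun q _ => ?_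
        ring
      rw [Finset.sum_congr rfl h3]
      simp only [mul_ite, mul_zero, Finset.sum_ite_eq', Finset.mem_univ, if_true]
      have h5 : (e : ℕ) + 1 = i := by simp only [e]; omega
      rw [h5, hfa, mul_comm]
    set Z : ℤ := ∑ q, lam q * z (eO q : ℕ) with hZ
    have hclose : |(L : ℝ) * ((a : ℝ) / pp) - Z| < 1 / pp := by
      have h1 : (L : ℝ) * ((a : ℝ) / pp) - Z =
          ∑ q, (lam q : ℝ) * (f.eval ((eO q : ℕ) : ℝ) - f.eval ((x (eO q : ℕ) : ℕ) : ℝ) -
            z (eO q : ℕ)) := by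
        rw [← hcomb, hZ]
        push_cast
        rw [← Finset.sum_sub_distrib]
        refine Finset.sum_congr rfl fun q _ => ?_
        ring
      rw [h1]
      have h2 : ∑ q, |(lam q : ℝ)| ≤ (CC D k : ℝ) := by
        have h3 : ∑ q, |lam q| ≤ ((CC D k : ℕ) : ℤ) := hlam.trans (by exact_mod_cast hCC)
        have h4 : ((∑ q, |lam q| : ℤ) : ℝ) ≤ (((CC D k : ℕ) : ℤ) : ℝ) := by exact_mod_cast h3
        simpa [Int.cast_abs] using h4
      calc |∑ q, (lam q : ℝ) * (f.eval ((eO q : ℕ) : ℝ) - f.eval ((x (eO q : ℕ) : ℕ) : ℝ) -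
            z (eO q : ℕ))|
          ≤ ∑ q, |(lam q : ℝ) * (f.eval ((eO q : ℕ) : ℝ) - f.eval ((x (eO q : ℕ) : ℕ) : ℝ) -
            z (eO q : ℕ))| := Finset.abs_sum_le_sum_abs _ _
        _ ≤ ∑ q, |(lam q : ℝ)| * (1 / (R : ℝ)) := by
            refine Finset.sum_le_sum fun q _ => ?_
            rw [abs_mul]
            exact mul_le_mul_of_nonneg_left (hz _ (eO q).2).le (abs_nonneg _)
        _ = (∑ q, |(lam q : ℝ)|) * (1 / (R : ℝ)) := by rw [Finset.sum_mul]
        _ ≤ (CC D k : ℝ) * (1 / (R : ℝ)) := mul_le_mul_of_nonneg_right h2 (by positivity)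
        _ < 1 / pp := by
            rw [mul_one_div, div_lt_div_iff₀ hRpos hppos, one_mul]
            have : ((pp * CC D k : ℕ) : ℝ) < R := by exact_mod_cast hC1
            push_cast at this
            linarith
    have hint : |((L : ℤ) * a - pp * Z : ℤ)| < 1 := by
      have h1 : |(((L : ℤ) * a - pp * Z : ℤ) : ℝ)| < 1 := by
        push_cast
        have h2 : (L : ℝ) * a - pp * Z = pp * ((L : ℝ) * ((a : ℝ) / pp) - Z) := by
          field_simp
        rw [h2, abs_mul, abs_of_pos hppos]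
        have := mul_lt_mul_of_pos_left hclose hppos
        rwa [mul_one_div_cancel hppos.ne'] at this
      exact_mod_cast h1
    have heq : (L : ℤ) * a = pp * Z := by
      have := Int.abs_lt_one_iff.1 hint
      linarith
    have hdvd : (pp : ℤ) ∣ (L : ℤ) * a := ⟨Z, heq⟩
    rcases (Nat.prime_iff_prime_int.1 hp).dvd_or_dvd hdvd with h | h
    · have h1 : pp ∣ L := by exact_mod_cast h
      have := Nat.le_of_dvd (by omega) h1
      omega
    · exact ha h

theorem mult (k i R pp D : ℕ) (hk : 1 ≤ k) (hi : 1 ≤ i) (hiD : i + 1 ≤ D) (hp : pp.Prime)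
    (hC0 : CC D k < pp) (hC1 : pp * CC D k < R) (f g : Polynomial ℝ) (hf : f.natDegree ≤ i)
    (hg : g.natDegree ≤ i + 1) (a b : ℤ) (ha : ¬ (pp : ℤ) ∣ a) (hb : ¬ (pp : ℤ) ∣ b)
    (hfa : f.coeff i = (a : ℝ) / pp) (hgb : g.coeff (i + 1) = (b : ℝ) / pp)
    (O : Finset ℕ) (hO : ∀ y ∈ O, y < k) (x : ℕ → ℕ) (hx : ∀ y ∈ O, x y < y)
    (hfx : ∀ y ∈ O, ∃ z : ℤ, |f.eval (y : ℝ) - f.eval (x y : ℝ) - z| < 1 / (R : ℝ))
    (hgx : ∀ y ∈ O, ∃ z : ℤ, |g.eval (y : ℝ) - g.eval (x y : ℝ) - z| < 1 / (R : ℝ)) :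
    O.card ≤ i ^ 2 := by
  obtain ⟨f', hf', hf''⟩ := mult_one k i R pp D hk hi (by omega) hp hC0 hC1 f hf a ha hfa O hO x hx
    hfx
  obtain ⟨g', hg', hg''⟩ := mult_one k (i + 1) R pp D hk (by omega) hiD hp hC0 hC1 g hg b hb hgb O
    hO x hx hgx
  exact curve k i hi f' g' hf' hg' O hO x hx hf'' hg''

end Vale.Agent.VdWF
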