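import Mathlib
import Vale.Agent.VdWF.Defs

/-!
# P053 (full answer), Part G: the phase along a linear digit sequence
-/

namespace Vale.Agent.VdWF

open Finset Vale.Agent.VdW

theorem G_lift_poly (p : ℕ) (hp : p.Prime) (P : Polynomial (ZMod p)) :
    ∃ f : Polynomial ℝ, (∀ j, f.coeff j = ((P.coeff j).val : ℝ) / p) ∧
      ∀ s : ℕ, ∃ z : ℤ, ((P.eval (s : ZMod p)).val : ℝ) / p = f.eval (s : ℝ) + z := by
  have : Fact p.Prime := ⟨hp⟩
  have hp0 : (p : ℝ) ≠ 0 := by exact_mod_cast hp.ne_zero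
  let f : Polynomial ℝ :=
    ∑ j ∈ range (P.natDegree + 1), Polynomial.monomial j (((P.coeff j).val : ℝ) / p)
  refine ⟨f, ?_, ?_⟩
  · intro j
    simp only [f, Polynomial.finsetSum_coeff, Polynomial.coeff_monomial]
    rw [Finset.sum_ite_eq' (range (P.natDegree + 1)) j]
    split_ifs with h
    · rfl
    · have : P.coeff j = 0 := by
        apply Polynomial.coeff_eq_zero_of_natDegree_lt
        simp at h
        omega
      rw [this]
      simp
  · intro s
    have h1 : P.eval (s : ZMod p) =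
        ((∑ j ∈ range (P.natDegree + 1), ((P.coeff j).val : ℤ) * (s : ℤ) ^ j : ℤ) : ZMod p) := by
      rw [Polynomial.eval_eq_sum_range]
      push_cast
      refine Finset.sum_congr rfl ?_
      intro j _
      rw [ZMod.natCast_zmod_val]
    have h2 : (((P.eval (s : ZMod p)).val : ℤ) : ZMod p) =
        ((∑ j ∈ range (P.natDegree + 1), ((P.coeff j).val : ℤ) * (s : ℤ) ^ j : ℤ) : ZMod p) := by
      rw [← h1]
      simp
    obtain ⟨z, hz⟩ := (ZMod.intCast_eq_intCast_iff_dvd_sub _ _ p).mp h2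
    refine ⟨-z, ?_⟩
    have h3 : (((P.eval (s : ZMod p)).val : ℤ) : ℝ) =
        ((∑ j ∈ range (P.natDegree + 1), ((P.coeff j).val : ℤ) * (s : ℤ) ^ j : ℤ) : ℝ)
          - (p : ℝ) * (z : ℝ) := by
      have : ((P.eval (s : ZMod p)).val : ℤ) =
        (∑ j ∈ range (P.natDegree + 1), ((P.coeff j).val : ℤ) * (s : ℤ) ^ j : ℤ) - p * z := by
        rw [← hz]; ring
      rw [this]
      push_cast
      ring
    have h4 : f.eval (s : ℝ) =
        ((∑ j ∈ range (P.natDegree + 1), ((P.coeff j).val : ℤ) * (s : ℤ) ^ j : ℤ) : ℝ) / p := by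
      simp only [f, Polynomial.eval_finsetSum, Polynomial.eval_monomial]
      push_cast
      rw [Finset.sum_div]
      refine Finset.sum_congr rfl ?_
      intro j _
      ring
    rw [h4]
    have h5 : ((P.eval (s : ZMod p)).val : ℝ) = (((P.eval (s : ZMod p)).val : ℤ) : ℝ) := by
      push_cast; rfl
    rw [h5, h3]
    push_cast
    field_simp
    ring

theorem phase_poly (m n0 : ℕ) (p : ℕ → ℕ) (hp : ∀ i < n0, (p i).Prime)
    (F : (i : ℕ) → (Fin m → ZMod (p i)) → ZMod (p i)) (e : ℕ → ℕ)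
    (he1 : ∀ i, 1 ≤ e i) (he : ∀ i j, i < j → e i < e j) (hF : ∀ i < n0, IsForm (p i) m (e i) (F i))
    (V : ℕ → ℤ) (u : ℕ → ℕ → ℤ) (i0 : ℕ) (hi0 : i0 < n0) (hV0 : ∃ l < m, ¬ ((p i0 : ℤ) ∣ V l))
    (hV1 : ∀ i, i0 < i → i < n0 → ∀ l < m, (p i : ℤ) ∣ V l) :
    ∃ f : Polynomial ℝ, ∃ a : ℤ, f.natDegree ≤ e i0 ∧ ¬ (p i0 : ℤ) ∣ a ∧
      f.coeff (e i0) = (a : ℝ) / p i0 ∧
      ∀ s : ℕ, ∃ z : ℤ,
        (∑ i ∈ range n0, ((F i (fun l => (((u i l + s * V l : ℤ)) : ZMod (p i)))).val : ℝ) /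
          (p i : ℝ)) = f.eval (s : ℝ) + z := by
  -- for every level a polynomial
  have key : ∀ i, i < n0 → ∃ f : Polynomial ℝ,
      (i < i0 → ∀ j, e i0 ≤ j → f.coeff j = 0) ∧
      (i = i0 → f.coeff (e i0) =
        (((F i (fun l => ((V l : ℤ) : ZMod (p i)))).val : ℤ) : ℝ) / (p i : ℝ)) ∧
      (i = i0 → ∀ j, e i0 < j → f.coeff j = 0) ∧
      (i0 < i → ∀ j, 1 ≤ j → f.coeff j = 0) ∧
      ∀ s : ℕ, ∃ z : ℤ,
        ((F i (fun l => (((u i l + s * V l : ℤ)) : ZMod (p i)))).val : ℝ) / (p i : ℝ)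
          = f.eval (s : ℝ) + z := by
    intro i hi
    have : Fact (p i).Prime := ⟨hp i hi⟩
    obtain ⟨P, hP1, hP2, hP3⟩ := (hF i hi).2 (fun l => ((u i l : ℤ) : ZMod (p i)))
      (fun l => ((V l : ℤ) : ZMod (p i)))
    obtain ⟨f, hf1, hf2⟩ := G_lift_poly (p i) (hp i hi) P
    have hev : ∀ s : ℕ, (fun l : Fin m => (((u i l + s * V l : ℤ)) : ZMod (p i))) =
        (fun l : Fin m => ((u i l : ℤ) : ZMod (p i))) +
          (s : ZMod (p i)) • (fun l : Fin m => ((V l : ℤ) : ZMod (p i))) := by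
      intro s
      funext l
      simp
    by_cases h : i0 < i
    · refine ⟨Polynomial.C (((F i (fun l => ((u i l : ℤ) : ZMod (p i)))).val : ℝ) / (p i : ℝ)),
        ?_, ?_, ?_, ?_, ?_⟩
      · intro h'; omega
      · intro h'; omega
      · intro h'; omega
      · intro _ j hj
        rw [Polynomial.coeff_C]
        rw [if_neg (by omega)]
      · intro s
        refine ⟨0, ?_⟩
        rw [hev s]
        have : (fun l : Fin m => ((V l : ℤ) : ZMod (p i))) = 0 := by
          funext l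
          simp only [Pi.zero_apply]
          rw [ZMod.intCast_zmod_eq_zero_iff_dvd]
          exact hV1 i h hi l l.2
        rw [this]
        simp
    · refine ⟨f, ?_, ?_, ?_, ?_, ?_⟩
      · intro h' j hj
        rw [hf1]
        have h2 : e i < e i0 := he i i0 h'
        rw [Polynomial.coeff_eq_zero_of_natDegree_lt (by omega)]
        simp
      · intro h'
        subst h'
        rw [hf1, hP2]
        push_cast
        rfl
      · intro h' j hj
        subst h'
        rw [hf1]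
        rw [Polynomial.coeff_eq_zero_of_natDegree_lt (by omega)]
        simp
      · intro h'; omega
      · intro s
        rw [hev s, ← hP3]
        exact hf2 s
  choose! f hf1 hf2 hf3 hf4 hf5 using key
  have : Fact (p i0).Prime := ⟨hp i0 hi0⟩
  refine ⟨∑ i ∈ range n0, f i, (((F i0 (fun l => ((V l : ℤ) : ZMod (p i0)))).val : ℤ)), ?_, ?_,
    ?_, ?_⟩
  · rw [Polynomial.natDegree_le_iff_coeff_eq_zero]
    intro j hj
    rw [Polynomial.finsetSum_coeff]
    refine Finset.sum_eq_zero ?_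
    intro i hi
    rw [Finset.mem_range] at hi
    rcases lt_trichotomy i i0 with h | h | h
    · exact hf1 i hi h j (by omega)
    · exact hf3 i hi h j (by omega)
    · exact hf4 i hi h j (by have := he1 i0; omega)
  · intro hdvd
    obtain ⟨l, hl, hl'⟩ := hV0
    have hne : F i0 (fun l => ((V l : ℤ) : ZMod (p i0))) ≠ 0 := by
      intro h0
      have := (hF i0 hi0).1 _ h0
      have h2 := congrFun this ⟨l, hl⟩
      simp only [Pi.zero_apply] at h2
      rw [ZMod.intCast_zmod_eq_zero_iff_dvd] at h2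
      exact hl' h2
    have h3 : ((((F i0 (fun l => ((V l : ℤ) : ZMod (p i0)))).val : ℤ)) : ZMod (p i0)) = 0 := by
      rw [ZMod.intCast_zmod_eq_zero_iff_dvd]
      exact hdvd
    apply hne
    simpa using h3
  · rw [Polynomial.finsetSum_coeff]
    rw [Finset.sum_eq_single i0]
    · exact hf2 i0 hi0 rfl
    · intro i hi hne
      rw [Finset.mem_range] at hi
      rcases lt_trichotomy i i0 with h | h | h
      · exact hf1 i hi h _ le_rfl
      · exact absurd h hne
      · exact hf4 i hi h _ (he1 i0)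
    · intro h
      exact absurd (Finset.mem_range.mpr hi0) h
  · intro s
    choose! z hz using fun i (hi : i < n0) => hf5 i hi s
    refine ⟨∑ i ∈ range n0, z i, ?_⟩
    rw [Polynomial.eval_finsetSum, Int.cast_sum, ← Finset.sum_add_distrib]
    refine Finset.sum_congr rfl ?_
    intro i hi
    exact hz i (Finset.mem_range.mp hi)

end Vale.Agent.VdWF
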