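import Vale.Agent.VdWF.PartQ

/-!
# P053 (full answer), part H: near rational differences
-/

namespace Vale.Agent.VdWF

open Finset Vale.Agent.VdW

/-- PART H (near rational differences: classes and linear digits). -/
theorem near_rational (B Λ Z k l L1 a d : ℕ) (hB : 1 ≤ B) (hZ : 201 * L1 ^ 2 ≤ Z) (hL1 : 1 ≤ L1)
    (r : ℚ)
    (hr : r.den < L1) (hw : |((Λ * d : ℕ) : ℝ) / (B : ℝ) ^ l - r| < 200 * (L1 : ℝ) / (Z * k))
    (i j : ℕ) (hij : i < j) (hj : j < k)
    (hz : ((zc B Λ Z l (a + i * d) : ℤ) : ZMod Z) = ((zc B Λ Z l (a + j * d) : ℤ) : ZMod Z)) :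
    r.den ∣ (j - i) ∧
    ∀ (T s : ℕ) (V : ℤ), j - i = T * s → (V : ℚ) = T * r → ∀ lev : ℕ,
      dig B Λ Z lev l (a + j * d) = dig B Λ Z lev l (a + i * d) + s * V := by
  have hL0 : (0 : ℝ) < L1 := by exact_mod_cast hL1
  have hZr : (201 : ℝ) * (L1 : ℝ) ^ 2 ≤ Z := by exact_mod_cast hZ
  have hZ0 : (0 : ℝ) < Z := lt_of_lt_of_le (by positivity) hZr
  have hZn : 0 < Z := by exact_mod_cast hZ0
  have hZi : (0 : ℤ) < Z := by exact_mod_cast hZn
  have hk0 : (0 : ℝ) < k := by exact_mod_cast (show 0 < k by omega)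
  obtain ⟨n, hn⟩ : ∃ n : ℕ, n = j - i := ⟨_, rfl⟩
  have hjn : j = i + n := by omega
  have hn1 : 1 ≤ n := by omega
  have hnk : (n : ℝ) < k := by exact_mod_cast (show n < k by omega)
  have hn0 : (0 : ℝ) < n := by exact_mod_cast hn1
  -- the common zone
  have hdvd : (Z : ℤ) ∣ zc B Λ Z l (a + j * d) - zc B Λ Z l (a + i * d) :=
    (ZMod.intCast_eq_intCast_iff_dvd_sub _ _ _).mp hz
  obtain ⟨t, ht⟩ := hdvd
  set w : ℝ := ((Λ * d : ℕ) : ℝ) / (B : ℝ) ^ l with hwd
  have hzi := zc_eq_floor B Λ Z l (a + i * d) hB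
  have hzj := zc_eq_floor B Λ Z l (a + j * d) hB
  set x : ℝ := (Z : ℝ) * (((Λ * (a + i * d) : ℕ) : ℝ) / (B : ℝ) ^ l) with hx
  have hxj : (Z : ℝ) * (((Λ * (a + j * d) : ℕ) : ℝ) / (B : ℝ) ^ l) = x + Z * (n * w) := by
    rw [hx, hwd, hjn]
    push_cast
    ring
  rw [hxj] at hzj
  have f1 := Int.floor_le x
  have f2 := Int.lt_floor_add_one x
  have f3 := Int.floor_le (x + Z * (n * w))
  have f4 := Int.lt_floor_add_one (x + Z * (n * w))
  rw [← hzi] at f1 f2
  rw [← hzj] at f3 f4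
  have ht' : (zc B Λ Z l (a + j * d) : ℝ) - (zc B Λ Z l (a + i * d) : ℝ) = Z * t := by
    exact_mod_cast ht
  have g1 : |(Z : ℝ) * (n * w - t)| < 1 := by
    rw [abs_lt]
    constructor <;> nlinarith
  have g2 : |(n : ℝ) * w - t| < 1 / Z := by
    rw [abs_mul, Nat.abs_cast] at g1
    rw [lt_div_iff₀ hZ0]
    linarith
  have g3 : |(n : ℝ) * (w - r)| < 200 * L1 / Z := by
    rw [abs_mul, Nat.abs_cast]
    calc (n : ℝ) * |w - r| < n * (200 * (L1 : ℝ) / (Z * k)) := mul_lt_mul_of_pos_left hw hn0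
      _ ≤ k * (200 * (L1 : ℝ) / (Z * k)) := by gcongr
      _ = 200 * L1 / Z := by field_simp
  have g4 : |(n : ℝ) * r - t| < 1 / L1 := by
    have h1 : (n : ℝ) * r - t = (n * w - t) - n * (w - r) := by ring
    have h2 : |(n : ℝ) * r - t| ≤ |(n : ℝ) * w - t| + |(n : ℝ) * (w - r)| := by
      rw [h1]; exact abs_sub _ _
    have h3 : 1 / (Z : ℝ) + 200 * L1 / Z ≤ 1 / L1 := by
      rw [← add_div, div_le_div_iff₀ hZ0 hL0]
      have : (1 : ℝ) ≤ L1 := by exact_mod_cast hL1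
      nlinarith
    linarith
  have hden0 : (0 : ℝ) < r.den := by exact_mod_cast r.den_pos
  have hdenL : (r.den : ℝ) < L1 := by exact_mod_cast hr
  have hrnd : (r : ℝ) * r.den = r.num := by
    have := Rat.mul_den_eq_num r
    exact_mod_cast this
  have g5 : |((n * r.num - t * r.den : ℤ) : ℝ)| < 1 := by
    have h1 : ((n * r.num - t * r.den : ℤ) : ℝ) = ((n : ℝ) * r - t) * r.den := by
      push_cast
      rw [← hrnd]; ring
    rw [h1, abs_mul, Nat.abs_cast]
    calc |(n : ℝ) * r - t| * r.den < (1 / L1) * r.den := mul_lt_mul_of_pos_right g4 hden0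
      _ ≤ (1 / L1) * L1 := by gcongr
      _ = 1 := by field_simp
  have g6 : (n * r.num - t * r.den : ℤ) = 0 := by
    have h1 : |(n * r.num - t * r.den : ℤ)| < 1 := by exact_mod_cast g5
    exact Int.abs_lt_one_iff.mp h1
  have g7 : (n : ℤ) * r.num = t * r.den := by linarith
  have g8 : (n : ℚ) * r = t := by
    have h1 : (r.den : ℚ) ≠ 0 := by exact_mod_cast r.den_pos.ne'
    have h2 : (n : ℚ) * r.num = t * r.den := by exact_mod_cast g7
    have h3 : r * r.den = r.num := Rat.mul_den_eq_num r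
    have h4 : ((n : ℚ) * r - t) * r.den = 0 := by
      calc ((n : ℚ) * r - t) * r.den = n * (r * r.den) - t * r.den := by ring
        _ = 0 := by rw [h3, h2]; ring
    rcases mul_eq_zero.mp h4 with h5 | h5
    · linarith
    · exact absurd h5 h1
  refine ⟨?_, ?_⟩
  · rw [← hn]
    have h1 : (r.den : ℤ) ∣ (n : ℤ) * r.num := ⟨t, by rw [g7]; ring⟩
    have h2 : IsCoprime (r.den : ℤ) r.num := by
      rw [Int.isCoprime_iff_gcd_eq_one]
      have := r.reduced
      rw [Int.gcd_comm]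
      simpa [Int.gcd] using this
    have h3 := h2.dvd_of_dvd_mul_right h1
    exact_mod_cast h3
  · intro T s V hTs hV lev
    have hsV : t = s * V := by
      have h1 : (t : ℚ) = s * V := by
        rw [← g8, hV, hn, hTs]
        push_cast
        ring
      exact_mod_cast h1
    unfold dig
    have h2 : zc B Λ Z l (a + j * d) - ((lev : ℤ) + 1) =
        (zc B Λ Z l (a + i * d) - ((lev : ℤ) + 1)) + Z * t := by linarith
    rw [h2, Int.add_mul_ediv_left _ _ hZi.ne', hsV]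

end Vale.Agent.VdWF
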