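import Vale.Agent.VdWF.PartB
import Vale.Agent.VdWF.PartF
import Vale.Agent.VdWF.PartG
import Vale.Agent.VdWF.PartH

/-!
# P053 (full answer), part I: few repeated keys, near rational case
-/

namespace Vale.Agent.VdWF

open Finset Vale.Agent.VdW

theorem I_cell_close {R : ℕ} (hR : 1 ≤ R) {x y : ℝ} (h : cell R x = cell R y) :
    ∃ z : ℤ, |x - y - z| < 1 / (R : ℝ) := by
  have hR0 : (0 : ℝ) < R := by exact_mod_cast hR
  unfold cell at h
  rw [ZMod.intCast_eq_intCast_iff_dvd_sub] at h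
  obtain ⟨t, ht⟩ := h
  have h1 := Int.floor_le ((R : ℝ) * x)
  have h2 := Int.lt_floor_add_one ((R : ℝ) * x)
  have h3 := Int.floor_le ((R : ℝ) * y)
  have h4 := Int.lt_floor_add_one ((R : ℝ) * y)
  have ht' : ((⌊(R : ℝ) * y⌋ : ℤ) : ℝ) - ((⌊(R : ℝ) * x⌋ : ℤ) : ℝ) = R * t := by
    exact_mod_cast ht
  refine ⟨-t, ?_⟩
  rw [lt_div_iff₀ hR0]
  have h5 : |x - y - ((-t : ℤ) : ℝ)| * R = |(R : ℝ) * (x - y + t)| := by
    rw [abs_mul, abs_of_pos hR0]
    push_cast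
    rw [sub_neg_eq_add, mul_comm]
  rw [h5, abs_lt]
  constructor <;> nlinarith

theorem I_mem_old {κ : Type} {k : ℕ} {key : ℕ → κ} {j : ℕ} (h : j ∈ old k key) :
    j < k ∧ ∃ i < j, key i = key j := by
  classical
  unfold old at h
  have h' := mem_filter.1 h
  exact ⟨mem_range.1 h'.1, h'.2⟩

/-- one class and one zone -/
theorem I_cluster (m n0 D B Λ Z R k L1 T : ℕ) (p : ℕ → ℕ) (hm : 1 ≤ m)
    (hp : ∀ i < n0, (p i).Prime) (hB1 : 1 ≤ B)
    (hD : m + n0 ≤ D) (hC0 : ∀ i < n0, CC D k < p i) (hC1 : ∀ i < n0, p i * CC D k < R)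
    (F F' : (i : ℕ) → (Fin m → ZMod (p i)) → ZMod (p i))
    (hF : ∀ i < n0, IsForm (p i) m (m + i) (F i)) (hF' : ∀ i < n0, IsForm (p i) m (m + i + 1) (F' i))
    (hZ : 201 * L1 ^ 2 ≤ Z) (hL1 : 1 ≤ L1) (a d : ℕ) (r : ℕ → ℚ)
    (hr : ∀ l < m, (r l).den < L1 ∧
      |((Λ * d : ℕ) : ℝ) / (B : ℝ) ^ l - r l| < 200 * (L1 : ℝ) / (Z * k))
    (V : ℕ → ℤ) (hV : ∀ l < m, (V l : ℚ) = T * r l) (hT1 : 1 ≤ T)
    (hT : ∀ n : ℕ, (∀ l < m, (r l).den ∣ n) → T ∣ n)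
    (i0 : ℕ) (hi0 : i0 < n0) (hV0 : ∃ l < m, ¬ ((p i0 : ℤ) ∣ V l))
    (hV1 : ∀ i, i0 < i → i < n0 → ∀ l < m, (p i : ℤ) ∣ V l)
    (ρ : ℕ) (ζ : Fin m → ZMod Z) (O : Finset ℕ)
    (hO : ∀ j ∈ O, j < k ∧ j % T = ρ ∧ zone m B Λ Z (a + j * d) = ζ ∧ ∃ i < j,
      zone m B Λ Z (a + i * d) = ζ ∧
      cell R (QQ m n0 p F B Λ Z (a + i * d)) = cell R (QQ m n0 p F B Λ Z (a + j * d)) ∧
      cell R (QQ m n0 p F' B Λ Z (a + i * d)) = cell R (QQ m n0 p F' B Λ Z (a + j * d))) :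
    O.card ≤ D ^ 2 := by
  classical
  rcases O.eq_empty_or_nonempty with hemp | hne
  · rw [hemp]; simp
  obtain ⟨jj, hjj⟩ := hne
  have hk1 : 1 ≤ k := by have := (hO jj hjj).1; omega
  -- the base point
  have hex : ∃ j, j < k ∧ j % T = ρ ∧ zone m B Λ Z (a + j * d) = ζ :=
    ⟨jj, (hO jj hjj).1, (hO jj hjj).2.1, (hO jj hjj).2.2.1⟩
  obtain ⟨j0, ⟨hj0k, hj0T, hj0z⟩, hj0min⟩ : ∃ j0, (j0 < k ∧ j0 % T = ρ ∧
      zone m B Λ Z (a + j0 * d) = ζ) ∧ ∀ j, (j < k ∧ j % T = ρ ∧ zone m B Λ Z (a + j * d) = ζ) →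
        j0 ≤ j := ⟨Nat.find hex, Nat.find_spec hex, fun j hj => Nat.find_min' hex hj⟩
  -- equal zones: divisibility by T
  have hzdvd : ∀ i j, i < j → j < k → zone m B Λ Z (a + i * d) = zone m B Λ Z (a + j * d) →
      T ∣ j - i := by
    intro i j hij hj hz
    apply hT
    intro l hl
    have hz' := congrFun hz ⟨l, hl⟩
    exact (near_rational B Λ Z k l L1 a d hB1 hZ hL1 (r l) (hr l hl).1 (hr l hl).2 i j hij hj hz').1
  -- linear digits
  have hdig : ∀ s : ℕ, j0 + T * s < k → zone m B Λ Z (a + (j0 + T * s) * d) = ζ →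
      ∀ lev : ℕ, ∀ l < m, dig B Λ Z lev l (a + (j0 + T * s) * d) =
        dig B Λ Z lev l (a + j0 * d) + s * V l := by
    intro s hs hz lev l hl
    rcases Nat.eq_zero_or_pos s with rfl | hs0
    · simp
    · have hlt : j0 < j0 + T * s := by
        have := Nat.mul_pos hT1 hs0
        omega
      have hz' := congrFun (hj0z.trans hz.symm) ⟨l, hl⟩
      exact (near_rational B Λ Z k l L1 a d hB1 hZ hL1 (r l) (hr l hl).1 (hr l hl).2 j0 (j0 + T * s)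
        hlt hs hz').2 T s (V l) (by omega) (hV l hl) lev
  -- phases
  obtain ⟨f, a1, hf1, ha1, hfa, hfe⟩ := phase_poly m n0 p hp F (fun i => m + i) (fun i => by omega)
    (fun i j hij => by omega) hF V (fun i l => dig B Λ Z i l (a + j0 * d)) i0 hi0 hV0 hV1
  obtain ⟨g, b1, hg1, hb1, hgb, hge⟩ := phase_poly m n0 p hp F' (fun i => m + i + 1)
    (fun i => by omega) (fun i j hij => by omega) hF' V (fun i l => dig B Λ Z i l (a + j0 * d)) i0
    hi0 hV0 hV1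
  have hQ : ∀ (G : (i : ℕ) → (Fin m → ZMod (p i)) → ZMod (p i)) (s : ℕ), j0 + T * s < k →
      zone m B Λ Z (a + (j0 + T * s) * d) = ζ →
      QQ m n0 p G B Λ Z (a + (j0 + T * s) * d) =
        ∑ i ∈ range n0, ((G i (fun l => (((dig B Λ Z i l (a + j0 * d) + s * V l : ℤ)) :
          ZMod (p i)))).val : ℝ) / (p i : ℝ) := by
    intro G s hs hz
    unfold QQ
    refine Finset.sum_congr rfl fun i _ => ?_
    have : (fun l : Fin m => ((dig B Λ Z i l (a + (j0 + T * s) * d) : ℤ) : ZMod (p i))) =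
        (fun l : Fin m => (((dig B Λ Z i l (a + j0 * d) + s * V l : ℤ)) : ZMod (p i))) := by
      funext l
      rw [hdig s hs hz i l l.2]
    rw [this]
  -- coordinates
  have hcoord : ∀ j ∈ O, ∃ s s' : ℕ, s' < s ∧ j = j0 + T * s ∧ j0 + T * s' < k ∧
      zone m B Λ Z (a + (j0 + T * s') * d) = ζ ∧
      cell R (QQ m n0 p F B Λ Z (a + (j0 + T * s') * d)) =
        cell R (QQ m n0 p F B Λ Z (a + (j0 + T * s) * d)) ∧
      cell R (QQ m n0 p F' B Λ Z (a + (j0 + T * s') * d)) =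
        cell R (QQ m n0 p F' B Λ Z (a + (j0 + T * s) * d)) := by
    intro j hj
    obtain ⟨hjk, hjT, hjz, i, hij, hiz, hc, hc'⟩ := hO j hj
    have hTij : T ∣ j - i := hzdvd i j hij hjk (hiz.trans hjz.symm)
    have hiT : i % T = ρ := by
      rw [← hjT]
      obtain ⟨c, hc⟩ := hTij
      have : j = i + T * c := by omega
      rw [this, Nat.add_mul_mod_self_left]
    have hj0i : j0 ≤ i := hj0min i ⟨by omega, hiT, hiz⟩
    have hd1 : T ∣ i - j0 := by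
      rw [← Nat.modEq_iff_dvd' hj0i]
      exact hj0T.trans hiT.symm
    have hd2 : T ∣ j - j0 := by
      rw [← Nat.modEq_iff_dvd' (by omega)]
      exact hj0T.trans hjT.symm
    obtain ⟨s', hs'⟩ := hd1
    obtain ⟨s, hs⟩ := hd2
    have hi' : i = j0 + T * s' := by omega
    have hj' : j = j0 + T * s := by omega
    refine ⟨s, s', ?_, hj', by omega, ?_, ?_, ?_⟩
    · by_contra hcon
      push Not at hcon
      have := Nat.mul_le_mul_left T hcon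
      omega
    · rw [← hi']; exact hiz
    · rw [← hi', ← hj']; exact hc
    · rw [← hi', ← hj']; exact hc'
  choose! sc xc hsx hjs hxk hxz hxc hxc' using hcoord
  -- the set of coordinates
  set O' : Finset ℕ := O.image sc with hO'
  have hcard : O'.card = O.card := by
    apply Finset.card_image_of_injOn
    intro j hj j' hj' h
    have h1 := hjs j hj
    have h2 := hjs j' hj'
    rw [h1, h2, h]
  have hinv : ∀ s ∈ O', ∃ j ∈ O, sc j = s ∧ j = j0 + T * s := by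
    intro s hs
    obtain ⟨j, hj, rfl⟩ := Finset.mem_image.1 hs
    exact ⟨j, hj, rfl, hjs j hj⟩
  have hx' : ∀ s : ℕ, s ∈ O' → ∃ s' : ℕ, s' < s ∧ j0 + T * s < k ∧ j0 + T * s' < k ∧
      zone m B Λ Z (a + (j0 + T * s) * d) = ζ ∧ zone m B Λ Z (a + (j0 + T * s') * d) = ζ ∧
      cell R (QQ m n0 p F B Λ Z (a + (j0 + T * s') * d)) =
        cell R (QQ m n0 p F B Λ Z (a + (j0 + T * s) * d)) ∧
      cell R (QQ m n0 p F' B Λ Z (a + (j0 + T * s') * d)) =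
        cell R (QQ m n0 p F' B Λ Z (a + (j0 + T * s) * d)) := by
    intro s hs
    obtain ⟨j, hj, hsj, hjs'⟩ := hinv s hs
    have h1 := hsx j hj
    have h2 := hxk j hj
    have h3 := hxz j hj
    have h4 := hxc j hj
    have h5 := hxc' j hj
    rw [hsj] at h1 h4 h5
    have h6 := (hO j hj).1
    have h7 := (hO j hj).2.2.1
    rw [hjs'] at h6 h7
    exact ⟨xc j, h1, h6, h2, h7, h3, h4, h5⟩
  choose! x hx1 hx2 hx3 hx4 hx5 hx6 hx7 using hx'
  have hR1 : 1 ≤ R := by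
    have := hC1 i0 hi0
    omega
  have hmain := mult k (m + i0) R (p i0) D hk1 (by omega) (by omega) (hp i0 hi0) (hC0 i0 hi0)
    (hC1 i0 hi0) f g hf1 hg1 a1 b1 ha1 hb1 hfa hgb O'
    (fun s hs => by
      have h1 := hx2 s hs
      have h2 := Nat.mul_le_mul_right s hT1
      omega)
    x hx1
    (fun s hs => by
      obtain ⟨z, hz⟩ := I_cell_close hR1 (hx6 s hs).symm
      obtain ⟨z1, hz1⟩ := hfe s
      obtain ⟨z2, hz2⟩ := hfe (x s)
      rw [hQ F s (hx2 s hs) (hx4 s hs), hQ F (x s) (hx3 s hs) (hx5 s hs), hz1, hz2] at hz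
      refine ⟨z - z1 + z2, ?_⟩
      have : f.eval (s : ℝ) - f.eval (x s : ℝ) - ((z - z1 + z2 : ℤ) : ℝ) =
          f.eval (s : ℝ) + z1 - (f.eval (x s : ℝ) + z2) - z := by push_cast; ring
      rw [this]
      exact hz)
    (fun s hs => by
      obtain ⟨z, hz⟩ := I_cell_close hR1 (hx7 s hs).symm
      obtain ⟨z1, hz1⟩ := hge s
      obtain ⟨z2, hz2⟩ := hge (x s)
      rw [hQ F' s (hx2 s hs) (hx4 s hs), hQ F' (x s) (hx3 s hs) (hx5 s hs), hz1, hz2] at hz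
      refine ⟨z - z1 + z2, ?_⟩
      have : g.eval (s : ℝ) - g.eval (x s : ℝ) - ((z - z1 + z2 : ℤ) : ℝ) =
          g.eval (s : ℝ) + z1 - (g.eval (x s : ℝ) + z2) - z := by push_cast; ring
      rw [this]
      exact hz)
  rw [← hcard]
  exact hmain.trans (Nat.pow_le_pow_left (by omega) 2)

/-- PART I (few repeated keys, near rational case). -/
theorem old_near (m n0 D B Λ Z R k N L1 : ℕ) (p : ℕ → ℕ) (hm : 1 ≤ m) (hp : ∀ i < n0, (p i).Prime)
    (hinj : ∀ i < n0, ∀ j < n0, p i = p j → i = j) (hB : B = ∏ i ∈ range n0, p i)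
    (hD : m + n0 ≤ D) (hC0 : ∀ i < n0, CC D k < p i) (hC1 : ∀ i < n0, p i * CC D k < R)
    (F F' : (i : ℕ) → (Fin m → ZMod (p i)) → ZMod (p i))
    (hF : ∀ i < n0, IsForm (p i) m (m + i) (F i)) (hF' : ∀ i < n0, IsForm (p i) m (m + i + 1) (F' i))
    (hZ : 201 * L1 ^ 2 ≤ Z) (hL1 : 1 ≤ L1) (hΛ : 1 ≤ Λ) (hk : 30 * (L1 ^ m * Z ^ m * D ^ 2) ≤ k)
    (hN : L1 ^ m * (Λ * N) < B ^ m) (a d : ℕ) (hd : 1 ≤ d) (hd' : d ≤ N) (r : ℕ → ℚ)
    (hr : ∀ l < m, (r l).den < L1 ∧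
      |((Λ * d : ℕ) : ℝ) / (B : ℝ) ^ l - r l| < 200 * (L1 : ℝ) / (Z * k)) :
    30 * (old k (fun j => (cell R (QQ m n0 p F B Λ Z (a + j * d)),
      cell R (QQ m n0 p F' B Λ Z (a + j * d)), zone m B Λ Z (a + j * d)))).card ≤ k := by
  classical
  have hB1 : 1 ≤ B := by
    rw [hB]; exact Finset.prod_pos fun i hi => (hp i (mem_range.1 hi)).pos
  have hL1sq : 1 ≤ L1 ^ 2 := Nat.one_le_pow _ _ hL1
  have hZ1 : 1 ≤ Z := by omega
  haveI : NeZero Z := ⟨by omega⟩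
  -- T
  obtain ⟨T, hTdef⟩ : ∃ T : ℕ, T = (range m).lcm (fun l => (r l).den) := ⟨_, rfl⟩
  have hTdvd : ∀ l < m, (r l).den ∣ T := by
    intro l hl
    rw [hTdef]
    exact Finset.dvd_lcm (mem_range.2 hl)
  have hT : ∀ n : ℕ, (∀ l < m, (r l).den ∣ n) → T ∣ n := by
    intro n hn
    rw [hTdef]
    exact Finset.lcm_dvd fun l hl => hn l (mem_range.1 hl)
  have hprod : ∏ l ∈ range m, (r l).den ≤ L1 ^ m := by
    calc ∏ l ∈ range m, (r l).den ≤ ∏ _l ∈ range m, L1 :=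
          Finset.prod_le_prod' fun l hl => (hr l (mem_range.1 hl)).1.le
      _ = L1 ^ m := by simp
  have hprodpos : 0 < ∏ l ∈ range m, (r l).den := Finset.prod_pos fun l _ => (r l).den_pos
  have hTle : T ≤ L1 ^ m := by
    have h1 : T ∣ ∏ l ∈ range m, (r l).den :=
      hT _ fun l hl => Finset.dvd_prod_of_mem _ (mem_range.2 hl)
    exact (Nat.le_of_dvd hprodpos h1).trans hprod
  have hT1 : 1 ≤ T := by
    have h1 : T ∣ ∏ l ∈ range m, (r l).den :=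
      hT _ fun l hl => Finset.dvd_prod_of_mem _ (mem_range.2 hl)
    exact Nat.pos_of_dvd_of_pos h1 hprodpos
  -- V
  obtain ⟨V, hVdef⟩ : ∃ V : ℕ → ℤ, ∀ l, V l = ((T / (r l).den : ℕ) : ℤ) * (r l).num :=
    ⟨_, fun l => rfl⟩
  have hV : ∀ l < m, (V l : ℚ) = T * r l := by
    intro l hl
    obtain ⟨c, hc⟩ := hTdvd l hl
    have hden : (r l).den ≠ 0 := (r l).den_nz
    have h1 : T / (r l).den = c := by rw [hc]; exact Nat.mul_div_cancel_left c (r l).den_pos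
    rw [hVdef, h1, hc]
    have h2 : (r l) * ((r l).den : ℚ) = ((r l).num : ℚ) := Rat.mul_den_eq_num (r l)
    push_cast
    rw [← h2]
    ring
  have hZr : (201 : ℝ) * (L1 : ℝ) ^ 2 ≤ Z := by exact_mod_cast hZ
  have hL1r : (1 : ℝ) ≤ L1 := by exact_mod_cast hL1
  have hZ0 : (0 : ℝ) < Z := by exact_mod_cast hZ1
  have hLmk : L1 ^ m ≤ k := by
    have h1 : 1 ≤ Z ^ m := Nat.one_le_pow _ _ hZ1
    have h2 : 1 ≤ D ^ 2 := Nat.one_le_pow _ _ (by omega)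
    calc L1 ^ m = 1 * (L1 ^ m * 1 * 1) := by ring
      _ ≤ 30 * (L1 ^ m * Z ^ m * D ^ 2) := by gcongr; norm_num
      _ ≤ k := hk
  have hk1 : 1 ≤ k := (Nat.one_le_pow _ _ hL1).trans hLmk
  have hk0 : (0 : ℝ) < k := by exact_mod_cast hk1
  -- Y
  obtain ⟨i1, hi1, l1, hl1, hpl1⟩ := nondeg m n0 p hp hinj B hB (T * (Λ * d))
    (Nat.mul_pos hT1 (Nat.mul_pos hΛ hd))
    (lt_of_le_of_lt (Nat.mul_le_mul hTle (Nat.mul_le_mul_left _ hd')) hN) V (by
      intro l hl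
      have h1 : ((T * (Λ * d) : ℕ) : ℝ) / (B : ℝ) ^ l - V l =
          T * (((Λ * d : ℕ) : ℝ) / (B : ℝ) ^ l - r l) := by
        have h2 : (V l : ℝ) = T * (r l : ℝ) := by exact_mod_cast hV l hl
        rw [h2]; push_cast; ring
      rw [h1, abs_mul, Nat.abs_cast]
      have hTk : (T : ℝ) ≤ k := by exact_mod_cast hTle.trans hLmk
      have h3 : (200 * (L1 : ℝ) / (Z * k)) * k < 1 := by
        have : (200 * (L1 : ℝ) / (Z * k)) * k = 200 * L1 / Z := by field_simp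
        rw [this, div_lt_one hZ0]
        nlinarith
      calc (T : ℝ) * |((Λ * d : ℕ) : ℝ) / (B : ℝ) ^ l - r l|
          ≤ k * |((Λ * d : ℕ) : ℝ) / (B : ℝ) ^ l - r l| :=
            mul_le_mul_of_nonneg_right hTk (abs_nonneg _)
        _ ≤ k * (200 * (L1 : ℝ) / (Z * k)) := mul_le_mul_of_nonneg_left (hr l hl).2.le hk0.le
        _ = (200 * (L1 : ℝ) / (Z * k)) * k := mul_comm _ _
        _ < 1 := h3)
  -- the top level
  obtain ⟨S, hS⟩ : ∃ S : Finset ℕ, S = (range n0).filter (fun i => ∃ l < m, ¬ (p i : ℤ) ∣ V l) :=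
    ⟨_, rfl⟩
  have hSne : S.Nonempty := ⟨i1, by
    rw [hS]; exact mem_filter.2 ⟨mem_range.2 hi1, l1, hl1, hpl1⟩⟩
  obtain ⟨i0, hi0def⟩ : ∃ i0, i0 = S.max' hSne := ⟨_, rfl⟩
  have hi0S : i0 ∈ S := by rw [hi0def]; exact Finset.max'_mem _ _
  have hi0' : i0 < n0 ∧ ∃ l < m, ¬ (p i0 : ℤ) ∣ V l := by
    rw [hS] at hi0S
    exact ⟨mem_range.1 (mem_filter.1 hi0S).1, (mem_filter.1 hi0S).2⟩
  have hV1 : ∀ i, i0 < i → i < n0 → ∀ l < m, (p i : ℤ) ∣ V l := by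
    intro i hi hin l hl
    by_contra hcon
    have : i ∈ S := by
      rw [hS]; exact mem_filter.2 ⟨mem_range.2 hin, l, hl, hcon⟩
    have h2 := Finset.le_max' S i this
    rw [← hi0def] at h2
    omega
  -- counting
  set O : Finset ℕ := old k (fun j => (cell R (QQ m n0 p F B Λ Z (a + j * d)),
      cell R (QQ m n0 p F' B Λ Z (a + j * d)), zone m B Λ Z (a + j * d))) with hO
  have hcount : O.card ≤ D ^ 2 * ((range T) ×ˢ (univ : Finset (Fin m → ZMod Z))).card := by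
    apply Finset.card_le_mul_card_image_of_maps_to
      (f := fun j => (j % T, zone m B Λ Z (a + j * d)))
    · intro j _
      exact mem_product.2 ⟨mem_range.2 (Nat.mod_lt _ hT1), mem_univ _⟩
    · rintro ⟨ρ, ζ⟩ -
      apply I_cluster m n0 D B Λ Z R k L1 T p hm hp hB1 hD hC0 hC1 F F' hF hF' hZ hL1 a d r hr V hV
        hT1 hT i0 hi0'.1 hi0'.2 hV1 ρ ζ
      intro j hj
      obtain ⟨hjO, hjf⟩ := mem_filter.1 hj
      obtain ⟨hjk, i, hij, hkey⟩ := I_mem_old hjO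
      rw [Prod.mk.injEq] at hjf
      simp only [Prod.mk.injEq] at hkey
      exact ⟨hjk, hjf.1, hjf.2, i, hij, hkey.2.2.trans hjf.2, hkey.1, hkey.2.1⟩
  have hcard : ((range T) ×ˢ (univ : Finset (Fin m → ZMod Z))).card = T * Z ^ m := by
    rw [card_product, card_range, card_univ, Fintype.card_fun, ZMod.card, Fintype.card_fin]
  rw [hcard] at hcount
  calc 30 * O.card ≤ 30 * (D ^ 2 * (T * Z ^ m)) := Nat.mul_le_mul_left _ hcount
    _ ≤ 30 * (D ^ 2 * (L1 ^ m * Z ^ m)) := by gcongr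
    _ = 30 * (L1 ^ m * Z ^ m * D ^ 2) := by ring
    _ ≤ k := hk

end Vale.Agent.VdWF
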