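import Mathlib
import Vale.Agent.VdWF.Defs

/-!
# P053 (full answer), Part J: choice of the multipliers
-/

namespace Vale.Agent.VdWF

open Finset Vale.Agent.VdW

open Classical in
/-- number of multipliers for which one difference is bad -/
theorem J_one (P0 R Δ : ℕ) (hP : P0.Prime) (hR : 1 ≤ R) (hRP : R ≤ P0) (h1 : 1 ≤ Δ)
    (h2 : Δ < P0) (x y : ℕ) (hxy : y = x + Δ) :
    (((univ : Finset (Fin P0)).filter (fun h : Fin P0 => ∃ t : ℤ,
      |((h : ℕ) : ℝ) / P0 * (y : ℝ) - ((h : ℕ) : ℝ) / P0 * (x : ℝ) - t| < 1 / (R : ℝ))).card : ℝ)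
      ≤ 3 * P0 / R := by
  have hP0 : (0 : ℝ) < P0 := by exact_mod_cast hP.pos
  have hR0 : (0 : ℝ) < R := by exact_mod_cast hR
  set w : ℕ := P0 / R with hw
  have hsub : (((univ : Finset (Fin P0)).filter (fun h : Fin P0 => ∃ t : ℤ,
      |((h : ℕ) : ℝ) / P0 * (y : ℝ) - ((h : ℕ) : ℝ) / P0 * (x : ℝ) - t| < 1 / (R : ℝ))).image
      (fun h : Fin P0 => ((((h : ℕ) * Δ : ℕ)) : ZMod P0))) ⊆
      (Icc (-(w : ℤ)) (w : ℤ)).image (fun r : ℤ => (r : ZMod P0)) := by
    intro c hc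
    rw [Finset.mem_image] at hc
    obtain ⟨h, hh, rfl⟩ := hc
    rw [Finset.mem_filter] at hh
    obtain ⟨_, t, ht⟩ := hh
    rw [Finset.mem_image]
    refine ⟨((h : ℕ) : ℤ) * (Δ : ℤ) - t * P0, ?_, ?_⟩
    · have e1 : ((h : ℕ) : ℝ) / P0 * (y : ℝ) - ((h : ℕ) : ℝ) / P0 * (x : ℝ) - t
          = ((((h : ℕ) : ℤ) * (Δ : ℤ) - t * P0 : ℤ) : ℝ) / P0 := by
        rw [hxy]
        push_cast
        field_simp
        ring
      rw [e1, abs_div, abs_of_pos hP0, div_lt_div_iff₀ hP0 hR0] at ht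
      set r : ℤ := ((h : ℕ) : ℤ) * (Δ : ℤ) - t * P0 with hr
      have e2 : |r| * (R : ℤ) < 1 * (P0 : ℤ) := by
        have : ((|r| * (R : ℤ) : ℤ) : ℝ) < ((1 * (P0 : ℤ) : ℤ) : ℝ) := by
          push_cast
          exact ht
        exact_mod_cast this
      have e3 : r.natAbs * R ≤ P0 := by
        have : ((r.natAbs : ℤ)) * (R : ℤ) < (P0 : ℤ) := by
          rw [Int.natCast_natAbs]
          linarith
        have h3 : r.natAbs * R < P0 := by exact_mod_cast this
        exact h3.le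
      have e4 : r.natAbs ≤ w := (Nat.le_div_iff_mul_le (by omega)).mpr e3
      rw [Finset.mem_Icc]
      omega
    · push_cast
      simp
  have hinj : Set.InjOn (fun h : Fin P0 => ((((h : ℕ) * Δ : ℕ)) : ZMod P0))
      (((univ : Finset (Fin P0)).filter (fun h : Fin P0 => ∃ t : ℤ,
      |((h : ℕ) : ℝ) / P0 * (y : ℝ) - ((h : ℕ) : ℝ) / P0 * (x : ℝ) - t| < 1 / (R : ℝ))) :
        Set (Fin P0)) := by
    intro a _ b _ hab
    simp only at hab
    rw [ZMod.natCast_eq_natCast_iff] at hab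
    have hcop : Nat.gcd P0 Δ = 1 := by
      rw [← Nat.coprime_iff_gcd_eq_one]
      exact (Nat.Prime.coprime_iff_not_dvd hP).mpr (fun hd => by
        have := Nat.le_of_dvd (by omega) hd
        omega)
    have h3 := Nat.ModEq.cancel_right_of_coprime hcop hab
    exact Fin.ext (Nat.ModEq.eq_of_lt_of_lt h3 a.2 b.2)
  have hc1 := Finset.card_le_card hsub
  rw [Finset.card_image_of_injOn hinj] at hc1
  have hc2 : ((Icc (-(w : ℤ)) (w : ℤ)).image (fun r : ℤ => (r : ZMod P0))).card ≤ 2 * w + 1 := by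
    refine Finset.card_image_le.trans ?_
    rw [Int.card_Icc]
    omega
  have hc3 : (((univ : Finset (Fin P0)).filter (fun h : Fin P0 => ∃ t : ℤ,
      |((h : ℕ) : ℝ) / P0 * (y : ℝ) - ((h : ℕ) : ℝ) / P0 * (x : ℝ) - t| < 1 / (R : ℝ))).card : ℝ)
      ≤ 2 * (w : ℝ) + 1 := by
    exact_mod_cast hc1.trans hc2
  have hw1 : (w : ℝ) ≤ P0 / R := Nat.cast_div_le
  have hw2 : (1 : ℝ) ≤ P0 / R := by
    rw [le_div_iff₀ hR0, one_mul]
    exact_mod_cast hRP
  have : (3 : ℝ) * P0 / R = 2 * (P0 / R) + P0 / R := by ring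
  rw [this]
  linarith

open Classical in
theorem exists_theta {ι : Type} [Fintype ι] (zn : ℕ → ι) (R k N J : ℕ) (hR : 1 ≤ R) (hk : 2 ≤ k)
    (hcount : (N : ℝ) ^ 2 * ((Fintype.card ι : ℝ)) ^ J * (3 * (k : ℝ) ^ 2 / R) ^ J < 1) :
    ∃ θ : ι → ℝ, ∀ a d : ℕ, 1 ≤ a → 1 ≤ d → a + (k - 1) * d ≤ N →
      (univ.filter (fun z : ι => ∃ i j, i < j ∧ j < k ∧ zn (a + i * d) = z ∧ zn (a + j * d) = z ∧
        ∃ t : ℤ, |θ z * ((a + j * d : ℕ) : ℝ) - θ z * ((a + i * d : ℕ) : ℝ) - t| <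
          1 / (R : ℝ))).card < J := by
  have hR0 : (0 : ℝ) < R := by exact_mod_cast hR
  obtain ⟨P0, hP0a, hP0⟩ := Nat.exists_infinite_primes (N + R + 1)
  have hP0r : (0 : ℝ) < P0 := by exact_mod_cast hP0.pos
  set c : ℝ := 3 * (k : ℝ) ^ 2 / R with hc
  have hc0 : 0 ≤ c := by positivity
  -- bad multipliers for one zone
  let Bad : ℕ → ℕ → ι → Finset (Fin P0) := fun a d z =>
    univ.filter (fun h : Fin P0 => ∃ i j, i < j ∧ j < k ∧ zn (a + i * d) = z ∧ zn (a + j * d) = z ∧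
        ∃ t : ℤ, |((h : ℕ) : ℝ) / P0 * ((a + j * d : ℕ) : ℝ) -
          ((h : ℕ) : ℝ) / P0 * ((a + i * d : ℕ) : ℝ) - t| < 1 / (R : ℝ))
  have hBad : ∀ a d z, 1 ≤ a → 1 ≤ d → a + (k - 1) * d ≤ N → ((Bad a d z).card : ℝ) ≤ c * P0 := by
    intro a d z ha hd hadN
    have hsub : Bad a d z ⊆ ((range k ×ˢ range k).filter (fun q => q.1 < q.2)).biUnion
        (fun q => (univ : Finset (Fin P0)).filter (fun h : Fin P0 => ∃ t : ℤ,
          |((h : ℕ) : ℝ) / P0 * ((a + q.2 * d : ℕ) : ℝ) -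
          ((h : ℕ) : ℝ) / P0 * ((a + q.1 * d : ℕ) : ℝ) - t| < 1 / (R : ℝ))) := by
      intro h hh
      simp only [Bad, Finset.mem_filter, Finset.mem_univ, true_and] at hh
      obtain ⟨i, j, hij, hj, _, _, ht⟩ := hh
      rw [Finset.mem_biUnion]
      refine ⟨(i, j), ?_, ?_⟩
      · simp only [Finset.mem_filter, Finset.mem_product, Finset.mem_range]
        exact ⟨⟨by omega, hj⟩, hij⟩
      · simp only [Finset.mem_filter, Finset.mem_univ, true_and]
        exact ht
    have h1 : ((Bad a d z).card : ℝ) ≤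
        ∑ q ∈ (range k ×ˢ range k).filter (fun q => q.1 < q.2), 3 * (P0 : ℝ) / R := by
      have h2 : ((Bad a d z).card : ℝ) ≤
        ∑ q ∈ (range k ×ˢ range k).filter (fun q => q.1 < q.2),
          (((univ : Finset (Fin P0)).filter (fun h : Fin P0 => ∃ t : ℤ,
          |((h : ℕ) : ℝ) / P0 * ((a + q.2 * d : ℕ) : ℝ) -
          ((h : ℕ) : ℝ) / P0 * ((a + q.1 * d : ℕ) : ℝ) - t| < 1 / (R : ℝ))).card : ℝ) := by
        have := (Finset.card_le_card hsub).trans Finset.card_biUnion_le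
        exact_mod_cast this
      refine h2.trans (Finset.sum_le_sum ?_)
      intro q hq
      simp only [Finset.mem_filter, Finset.mem_product, Finset.mem_range] at hq
      obtain ⟨⟨hq1, hq2⟩, hq3⟩ := hq
      have hle : (q.2 - q.1) * d ≤ (k - 1) * d := Nat.mul_le_mul_right d (by omega)
      have hpos : 1 ≤ (q.2 - q.1) * d := Nat.mul_pos (by omega) hd
      apply J_one P0 R ((q.2 - q.1) * d) hP0 hR (by omega) hpos (by omega)
      have : q.2 = q.1 + (q.2 - q.1) := by omega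
      conv_lhs => rw [this]
      ring
    refine h1.trans ?_
    rw [Finset.sum_const, nsmul_eq_mul]
    have h3 : (((range k ×ˢ range k).filter (fun q => q.1 < q.2)).card : ℝ) ≤ (k : ℝ) ^ 2 := by
      have : ((range k ×ˢ range k).filter (fun q => q.1 < q.2)).card ≤ k * k := by
        refine (Finset.card_filter_le _ _).trans ?_
        rw [Finset.card_product, Finset.card_range]
      have h4 : (((range k ×ˢ range k).filter (fun q => q.1 < q.2)).card : ℝ) ≤ (k : ℝ) * k := by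
        exact_mod_cast this
      rw [pow_two]
      exact h4
    calc _ ≤ (k : ℝ) ^ 2 * (3 * (P0 : ℝ) / R) :=
          mul_le_mul_of_nonneg_right h3 (by positivity)
      _ = c * P0 := by rw [hc]; ring
  -- the pairs
  let Prs : Finset (ℕ × ℕ) := (Icc 1 N ×ˢ Icc 1 N).filter
    (fun q => q.1 + (k - 1) * q.2 ≤ N)
  let Un : Finset (ι → Fin P0) := Prs.biUnion (fun q => ((univ : Finset ι).powersetCard J).biUnion
    (fun S => Fintype.piFinset (fun z => if z ∈ S then Bad q.1 q.2 z else univ)))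
  have hone : ∀ q ∈ Prs, ∀ S ∈ (univ : Finset ι).powersetCard J,
      ((Fintype.piFinset (fun z => if z ∈ S then Bad q.1 q.2 z else univ)).card : ℝ) ≤
        c ^ J * (P0 : ℝ) ^ (Fintype.card ι) := by
    intro q hq S hS
    simp only [Prs, Finset.mem_filter, Finset.mem_product, Finset.mem_Icc] at hq
    obtain ⟨⟨⟨hq1, _⟩, ⟨hq2, _⟩⟩, hq3⟩ := hq
    rw [Fintype.card_piFinset]
    push_cast
    have h1 : ∏ z : ι, (((if z ∈ S then Bad q.1 q.2 z else univ : Finset (Fin P0)).card : ℝ)) ≤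
        ∏ z : ι, ((if z ∈ S then c else 1) * (P0 : ℝ)) := by
      refine Finset.prod_le_prod (fun _ _ => by positivity) ?_
      intro z _
      by_cases hz : z ∈ S
      · rw [if_pos hz, if_pos hz]
        exact hBad q.1 q.2 z hq1 hq2 hq3
      · rw [if_neg hz, if_neg hz, Finset.card_univ, Fintype.card_fin, one_mul]
    refine h1.trans (le_of_eq ?_)
    rw [Finset.prod_mul_distrib, Finset.prod_const, Finset.card_univ, Finset.prod_ite_mem,
      Finset.univ_inter, Finset.prod_const]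
    rw [Finset.mem_powersetCard] at hS
    rw [hS.2]
  have hUn : ((Un.card : ℝ)) ≤ (N : ℝ) ^ 2 * ((Fintype.card ι : ℝ)) ^ J *
      (c ^ J * (P0 : ℝ) ^ (Fintype.card ι)) := by
    have h1 : (Un.card : ℝ) ≤ ∑ q ∈ Prs, ∑ S ∈ (univ : Finset ι).powersetCard J,
        ((Fintype.piFinset (fun z => if z ∈ S then Bad q.1 q.2 z else univ)).card : ℝ) := by
      have : Un.card ≤ ∑ q ∈ Prs, ∑ S ∈ (univ : Finset ι).powersetCard J,
        (Fintype.piFinset (fun z => if z ∈ S then Bad q.1 q.2 z else univ)).card := by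
        refine Finset.card_biUnion_le.trans (Finset.sum_le_sum ?_)
        intro q _
        exact Finset.card_biUnion_le
      exact_mod_cast this
    have h2 : ∑ q ∈ Prs, ∑ S ∈ (univ : Finset ι).powersetCard J,
        ((Fintype.piFinset (fun z => if z ∈ S then Bad q.1 q.2 z else univ)).card : ℝ) ≤
        ∑ q ∈ Prs, ∑ S ∈ (univ : Finset ι).powersetCard J,
          c ^ J * (P0 : ℝ) ^ (Fintype.card ι) := by
      refine Finset.sum_le_sum (fun q hq => Finset.sum_le_sum (fun S hS => hone q hq S hS))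
    refine h1.trans (h2.trans ?_)
    rw [Finset.sum_const, Finset.sum_const, Finset.card_powersetCard, Finset.card_univ,
      nsmul_eq_mul, nsmul_eq_mul, ← mul_assoc]
    have h3 : (Prs.card : ℝ) ≤ (N : ℝ) ^ 2 := by
      have : Prs.card ≤ N * N := by
        refine (Finset.card_filter_le _ _).trans ?_
        rw [Finset.card_product, Nat.card_Icc]
        simp
      rw [pow_two]
      exact_mod_cast this
    have h4 : (((Fintype.card ι).choose J : ℕ) : ℝ) ≤ ((Fintype.card ι : ℝ)) ^ J := by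
      exact_mod_cast Nat.choose_le_pow (Fintype.card ι) J
    refine mul_le_mul_of_nonneg_right ?_ (by positivity)
    exact mul_le_mul h3 h4 (by positivity) (by positivity)
  have hlt : (Un.card : ℝ) < (P0 : ℝ) ^ (Fintype.card ι) := by
    refine lt_of_le_of_lt hUn ?_
    have : (N : ℝ) ^ 2 * ((Fintype.card ι : ℝ)) ^ J * (c ^ J * (P0 : ℝ) ^ (Fintype.card ι)) =
        ((N : ℝ) ^ 2 * ((Fintype.card ι : ℝ)) ^ J * c ^ J) * (P0 : ℝ) ^ (Fintype.card ι) := by
      ring
    rw [this]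
    have hpow : (0 : ℝ) < (P0 : ℝ) ^ (Fintype.card ι) := by positivity
    calc _ < 1 * (P0 : ℝ) ^ (Fintype.card ι) := mul_lt_mul_of_pos_right hcount hpow
      _ = _ := one_mul _
  obtain ⟨h, hh⟩ : ∃ h : ι → Fin P0, h ∉ Un := by
    by_contra hall
    push Not at hall
    have : Un = univ := Finset.eq_univ_iff_forall.mpr hall
    rw [this, Finset.card_univ, Fintype.card_fun, Fintype.card_fin] at hlt
    push_cast at hlt
    exact lt_irrefl _ hlt
  refine ⟨fun z => ((h z : ℕ) : ℝ) / P0, ?_⟩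
  intro a d ha hd hadN
  by_contra hcard
  rw [not_lt] at hcard
  obtain ⟨S, hS1, hS2⟩ := Finset.exists_subset_card_eq hcard
  apply hh
  simp only [Un]
  rw [Finset.mem_biUnion]
  refine ⟨(a, d), ?_, ?_⟩
  · simp only [Prs, Finset.mem_filter, Finset.mem_product, Finset.mem_Icc]
    have hk1 : d ≤ (k - 1) * d := Nat.le_mul_of_pos_left d (by omega)
    exact ⟨⟨⟨ha, by omega⟩, ⟨hd, by omega⟩⟩, hadN⟩
  · rw [Finset.mem_biUnion]
    refine ⟨S, Finset.mem_powersetCard.mpr ⟨Finset.subset_univ _, hS2⟩, ?_⟩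
    rw [Fintype.mem_piFinset]
    intro z
    by_cases hz : z ∈ S
    · rw [if_pos hz]
      have := hS1 hz
      simp only [Finset.mem_filter, Finset.mem_univ, true_and] at this
      simp only [Bad, Finset.mem_filter, Finset.mem_univ, true_and]
      exact this
    · rw [if_neg hz]
      exact Finset.mem_univ _

end Vale.Agent.VdWF
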