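import Vale.Agent.VdWF.Defs

/-!
# P053 (full answer), part K: points in one zone
-/

namespace Vale.Agent.VdWF

open Finset Vale.Agent.VdW

open Classical in
theorem zone_card_le (k L T : ℕ) (hT : 1 ≤ T) (hL : 1 ≤ L) (hk : 100 * L * T ≤ k) {ι : Type}
    (zn : ℕ → ι) (z : ι) (h : ∀ j i, 1 ≤ i → i < L → j + i * T < k → zn (j + i * T) ≠ zn j) :
    L * ((range k).filter (fun j => zn j = z)).card ≤ 2 * k := by
  have hTL : 0 < T * L := Nat.mul_pos hT hL
  -- the basic step
  have key : ∀ j j' : ℕ, j < j' → j' < k → zn j = z → zn j' = z → j / (T * L) = j' / (T * L) →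
      j % T = j' % T → False := by
    intro j j' hlt hk' hz hz' h1 h2
    have hmod : j ≡ j' [MOD T] := h2
    obtain ⟨i, hi⟩ := (Nat.modEq_iff_dvd' hlt.le).1 hmod
    have hji : j' = j + i * T := by rw [mul_comm] at hi; omega
    have hi1 : 1 ≤ i := by
      rcases Nat.eq_zero_or_pos i with h0 | h0
      · rw [h0] at hji; omega
      · exact h0
    have hdiff : i * T < L * T := by
      have e1 := Nat.div_add_mod j (T * L)
      have e2 := Nat.div_add_mod j' (T * L)
      have e3 := Nat.mod_lt j' hTL
      rw [← h1] at e2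
      have e4 : L * T = T * L := mul_comm _ _
      rw [e4]
      omega
    have hiL : i < L := lt_of_mul_lt_mul_right hdiff (Nat.zero_le T)
    exact h j i hi1 hiL (by omega) (by rw [← hji, hz, hz'])
  have hinj : Set.InjOn (fun j : ℕ => (j / (T * L), j % T))
      (((range k).filter (fun j => zn j = z) : Finset ℕ) : Set ℕ) := by
    intro j hj j' hj' hjj
    simp only [coe_filter, mem_range, Set.mem_setOf_eq] at hj hj'
    simp only [Prod.mk.injEq] at hjj
    rcases lt_trichotomy j j' with hlt | heq | hlt
    · exact (key j j' hlt hj'.1 hj.2 hj'.2 hjj.1 hjj.2).elim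
    · exact heq
    · exact (key j' j hlt hj.1 hj'.2 hj.2 hjj.1.symm hjj.2.symm).elim
  have hmaps : Set.MapsTo (fun j : ℕ => (j / (T * L), j % T))
      (((range k).filter (fun j => zn j = z) : Finset ℕ) : Set ℕ)
      (((range (k / (T * L) + 1)) ×ˢ (range T) : Finset (ℕ × ℕ)) : Set (ℕ × ℕ)) := by
    intro j hj
    simp only [coe_filter, mem_range, Set.mem_setOf_eq] at hj
    simp only [coe_product, Set.mem_prod, mem_coe, mem_range]
    refine ⟨?_, Nat.mod_lt _ hT⟩
    have := Nat.div_le_div_right (c := T * L) hj.1.le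
    omega
  have hcard := Finset.card_le_card_of_injOn _ hmaps hinj
  rw [card_product, card_range, card_range] at hcard
  calc L * ((range k).filter (fun j => zn j = z)).card
      ≤ L * ((k / (T * L) + 1) * T) := Nat.mul_le_mul_left _ hcard
    _ = k / (T * L) * (T * L) + L * T := by ring
    _ ≤ k + L * T := Nat.add_le_add_right (Nat.div_mul_le_self _ _) _
    _ ≤ 2 * k := by
        have : 100 * L * T = 100 * (L * T) := by ring
        omega

end Vale.Agent.VdWF
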