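import Vale.Agent.VdWF.Defs
import Vale.Agent.VdW.PartC

/-!
# P053 (full answer), part P: pattern count with offset
-/

namespace Vale.Agent.VdWF

open Finset Vale.Agent.VdW

/-- the integral part of an offset pattern -/
noncomputable def zO (R k D W : ℕ) (φ : Fin k → ℝ) (α : Fin (D + 1) → ZMod W) (t : Fin k) : ℤ :=
  ⌊(R : ℝ) * (((nz D (exz α) t : ℤ) : ℝ) / W + φ t)⌋

/-- the offset pattern coming from a residue vector and a set -/
noncomputable def patO (R k D W : ℕ) (φ : Fin k → ℝ) (α : Fin (D + 1) → ZMod W)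
    (S : Finset (Fin k)) : Fin k → ZMod R :=
  fun t => ((zO R k D W φ α t + (if t ∈ S then 1 else 0) : ℤ) : ZMod R)

/-- the thresholds of a residue vector, with offset -/
noncomputable def thrO (R k D W : ℕ) (φ : Fin k → ℝ) (α : Fin (D + 1) → ZMod W) : Fin k → ℝ :=
  fun t => ((zO R k D W φ α t : ℝ) + 1 - (R : ℝ) * (((nz D (exz α) t : ℤ) : ℝ) / W + φ t)) * W / R

theorem newt_lt' (k D : ℕ) (f : ℕ → ℝ) (hf0 : ∀ j, 0 ≤ f j) (hf1 : ∀ j, f j < 1) (t : ℕ)
    (ht : t < k) : 0 ≤ newt D f t ∧ newt D f t < (((D + 1) * k ^ D : ℕ) : ℝ) := by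
  have hk : 1 ≤ k := by omega
  constructor
  · unfold newt
    exact sum_nonneg fun j _ => mul_nonneg (Nat.cast_nonneg _) (hf0 j)
  · unfold newt
    have h1 : ∑ j ∈ range (D + 1), (t.choose j : ℝ) * f j < ∑ j ∈ range (D + 1), (t.choose j : ℝ) := by
      refine sum_lt_sum (fun j _ => ?_) ⟨0, by simp, ?_⟩
      · exact mul_le_of_le_one_right (Nat.cast_nonneg _) (hf1 j).le
      · simpa using hf1 0
    have h2 : ∑ j ∈ range (D + 1), (t.choose j : ℝ) ≤ (((D + 1) * k ^ D : ℕ) : ℝ) := by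
      rw [← Nat.cast_sum]
      apply Nat.cast_le.mpr
      calc ∑ j ∈ range (D + 1), t.choose j ≤ ∑ j ∈ range (D + 1), k ^ D := by
            refine sum_le_sum fun j hj => ?_
            rw [mem_range] at hj
            calc t.choose j ≤ t ^ j := Nat.choose_le_pow t j
              _ ≤ k ^ j := Nat.pow_le_pow_left (by omega) j
              _ ≤ k ^ D := Nat.pow_le_pow_right hk (by omega)
        _ = (D + 1) * k ^ D := by simp
    linarith

/-- normalised form of an offset pattern -/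
theorem exists_residuesO (R k D : ℕ) [NeZero R] (φ : Fin k → ℝ) (W : ℕ) [NeZero W]
    (π : Fin k → ZMod R) (hπ : ∃ e : ℕ → ℝ, ∀ t : Fin k, π t = cell R (newt D e t + φ t)) :
    ∃ (e f : ℕ → ℝ) (α : Fin (D + 1) → ZMod W),
      (∀ t : Fin k, π t = cell R (newt D e t + φ t)) ∧
      (∀ t : ℕ, (W : ℝ) * newt D e t = (nz D (exz α) t : ℤ) + newt D f t) ∧
      (∀ j, 0 ≤ f j) ∧ (∀ j, f j < 1) := by
  have hW0 : 0 < W := NeZero.pos W
  obtain ⟨e0, he0⟩ := hπ
  refine ⟨fun j => Int.fract (e0 j), fun j => Int.fract ((W : ℝ) * Int.fract (e0 j)),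
    fun j => ((⌊(W : ℝ) * Int.fract (e0 j)⌋.toNat : ℕ) : ZMod W), ?_, ?_, ?_, ?_⟩
  · intro t
    rw [he0 t]
    unfold cell
    have h1 : newt D (fun j => Int.fract (e0 j)) t =
        newt D e0 t - ((∑ j ∈ range (D + 1), ((t : ℕ).choose j : ℤ) * ⌊e0 j⌋ : ℤ) : ℝ) := by
      unfold newt
      push_cast
      rw [← sum_sub_distrib]
      refine sum_congr rfl fun j _ => ?_
      rw [← Int.self_sub_floor]
      ring
    rw [h1]
    rw [show (R : ℝ) * (newt D e0 t -
        ((∑ j ∈ range (D + 1), ((t : ℕ).choose j : ℤ) * ⌊e0 j⌋ : ℤ) : ℝ) + φ t) =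
      (R : ℝ) * (newt D e0 t + φ t) -
      (((R : ℤ) * ∑ j ∈ range (D + 1), ((t : ℕ).choose j : ℤ) * ⌊e0 j⌋ : ℤ) : ℝ) by push_cast; ring]
    rw [Int.floor_sub_intCast]
    push_cast
    simp
  · intro t
    unfold newt nz
    push_cast
    rw [mul_sum, ← sum_add_distrib]
    refine sum_congr rfl fun j hj => ?_
    have hj' := mem_range.mp hj
    have h2 : exz (fun j : Fin (D + 1) => ((⌊(W : ℝ) * Int.fract (e0 j)⌋.toNat : ℕ) : ZMod W)) j =
        ⌊(W : ℝ) * Int.fract (e0 j)⌋ := by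
      unfold exz
      rw [dif_pos hj']
      have h3 : 0 ≤ ⌊(W : ℝ) * Int.fract (e0 j)⌋ :=
        Int.floor_nonneg.mpr (mul_nonneg (Nat.cast_nonneg _) (Int.fract_nonneg _))
      have h4 : ⌊(W : ℝ) * Int.fract (e0 j)⌋ < W := by
        rw [Int.floor_lt]
        have := Int.fract_lt_one (e0 j)
        have hW' : (0 : ℝ) < W := by exact_mod_cast hW0
        push_cast
        nlinarith
      simp only
      rw [ZMod.val_natCast_of_lt (by omega)]
      exact Int.toNat_of_nonneg h3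
    rw [h2, ← mul_add, Int.floor_add_fract]
    ring
  · intro j; exact Int.fract_nonneg _
  · intro j; exact Int.fract_lt_one _

theorem patO_eq (R k D : ℕ) [NeZero R] (hk : 1 ≤ k) (φ : Fin k → ℝ) (W : ℕ)
    (hW : W = R * ((D + 1) * k ^ D))
    (e f : ℕ → ℝ) (α : Fin (D + 1) → ZMod W)
    (h2 : ∀ t : ℕ, (W : ℝ) * newt D e t = (nz D (exz α) t : ℤ) + newt D f t)
    (h3 : ∀ j, 0 ≤ f j) (h4 : ∀ j, f j < 1) (S : Finset (Fin k))
    (hS : ∀ t, t ∈ S ↔ thrO R k D W φ α t ≤ newt D f t) (t : Fin k) :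
    cell R (newt D e t + φ t) = patO R k D W φ α S t := by
  have hRn : 0 < R := NeZero.pos R
  have hR0 : (0 : ℝ) < R := by exact_mod_cast hRn
  have hc0 : 0 < (D + 1) * k ^ D := Nat.mul_pos (Nat.succ_pos _) (Nat.pow_pos (by omega))
  have hWn : 0 < W := by rw [hW]; exact Nat.mul_pos hRn hc0
  have hW0 : (0 : ℝ) < W := by exact_mod_cast hWn
  have hWc : (W : ℝ) = R * (((D + 1) * k ^ D : ℕ) : ℝ) := by exact_mod_cast hW
  obtain ⟨hE0, hE1⟩ := newt_lt' k D f h3 h4 t t.2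
  unfold cell patO
  congr 1
  have hthr := hS t
  unfold thrO at hthr
  unfold zO at hthr ⊢
  set A : ℝ := ((nz D (exz α) t : ℤ) : ℝ) with hA
  set E : ℝ := newt D f t with hE
  have hq : newt D e t = (A + E) / W := by
    rw [eq_div_iff hW0.ne']; linarith [h2 t]
  rw [hq]
  set x : ℝ := (R : ℝ) * (A / W + φ t) with hx
  have hsum : (R : ℝ) * ((A + E) / W + φ t) = x + R * E / W := by rw [hx]; ring
  rw [hsum]
  set z : ℤ := ⌊x⌋ with hz
  have hz1 : (z : ℝ) ≤ x := Int.floor_le _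
  have hz2 : x < z + 1 := Int.lt_floor_add_one _
  have hRE : (R : ℝ) * E / W < 1 := by
    rw [div_lt_one hW0, hWc]
    exact mul_lt_mul_of_pos_left hE1 hR0
  have hRE0 : 0 ≤ (R : ℝ) * E / W := by positivity
  have hiff : (((z : ℝ) + 1 - x) * W / R ≤ E) ↔ (z : ℝ) + 1 ≤ x + R * E / W := by
    rw [div_le_iff₀ hR0, ← sub_le_iff_le_add', le_div_iff₀ hW0, mul_comm E (R : ℝ)]
  rw [hiff] at hthr
  by_cases htS : t ∈ S
  · rw [if_pos htS]
    have h6 := hthr.mp htS
    rw [Int.floor_eq_iff]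
    push_cast
    constructor
    · linarith
    · linarith
  · rw [if_neg htS, add_zero]
    have h6 : ¬ ((z : ℝ) + 1 ≤ x + R * E / W) := fun h => htS (hthr.mpr h)
    push Not at h6
    rw [Int.floor_eq_iff]
    constructor
    · linarith
    · linarith

open Classical in
/-- PART P (pattern count with offset). -/
theorem pat_offset (R k D : ℕ) [NeZero R] (hk : 1 ≤ k) (φ : Fin k → ℝ) :
    (univ.filter (fun π : Fin k → ZMod R => ∃ e : ℕ → ℝ, ∀ t : Fin k,
      π t = cell R (newt D e t + φ t))).card ≤ (R * ((D + 1) * k ^ D) * (k + 1)) ^ (D + 1) := by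
  have hRn : 0 < R := NeZero.pos R
  have hc0 : 0 < (D + 1) * k ^ D := Nat.mul_pos (Nat.succ_pos _) (Nat.pow_pos (by omega))
  obtain ⟨W, hW⟩ : ∃ W : ℕ, W = R * ((D + 1) * k ^ D) := ⟨_, rfl⟩
  have hWn : 0 < W := by rw [hW]; exact Nat.mul_pos hRn hc0
  have : NeZero W := ⟨by omega⟩
  have hsub : (univ.filter (fun π : Fin k → ZMod R => ∃ e : ℕ → ℝ, ∀ t : Fin k,
      π t = cell R (newt D e t + φ t))) ⊆
      (univ : Finset (Fin (D + 1) → ZMod W)).biUnion
        (fun α => (univ.filter (fun S : Finset (Fin k) =>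
        ∃ e : ℕ → ℝ, ∀ t, t ∈ S ↔ thrO R k D W φ α t ≤ newt D e t)).image (patO R k D W φ α)) := by
    intro π hπ
    rw [mem_filter] at hπ
    obtain ⟨e, f, α, h1, h2, h3, h4⟩ := exists_residuesO R k D φ W π hπ.2
    rw [mem_biUnion]
    refine ⟨α, mem_univ _, ?_⟩
    rw [mem_image]
    refine ⟨univ.filter (fun t => thrO R k D W φ α t ≤ newt D f t), ?_, ?_⟩
    · rw [mem_filter]
      exact ⟨mem_univ _, f, fun t => by simp⟩
    · funext t
      rw [h1 t]
      exact (patO_eq R k D hk φ W hW e f α h2 h3 h4 _ (fun t => by simp) t).symm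
  rw [← hW]
  calc _ ≤ ((univ : Finset (Fin (D + 1) → ZMod W)).biUnion
        (fun α => (univ.filter (fun S : Finset (Fin k) =>
        ∃ e : ℕ → ℝ, ∀ t, t ∈ S ↔ thrO R k D W φ α t ≤ newt D e t)).image
          (patO R k D W φ α))).card := card_le_card hsub
    _ ≤ ∑ α : Fin (D + 1) → ZMod W, ((univ.filter (fun S : Finset (Fin k) =>
        ∃ e : ℕ → ℝ, ∀ t, t ∈ S ↔ thrO R k D W φ α t ≤ newt D e t)).image
          (patO R k D W φ α)).card := card_biUnion_le
    _ ≤ ∑ α : Fin (D + 1) → ZMod W, (k + 1) ^ (D + 1) := by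
        refine sum_le_sum fun α _ => card_image_le.trans ?_
        exact threshold_count k D (thrO R k D W φ α)
    _ = W ^ (D + 1) * (k + 1) ^ (D + 1) := by simp [ZMod.card]
    _ = (W * (k + 1)) ^ (D + 1) := by rw [mul_pow]

end Vale.Agent.VdWF
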