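import Vale.Agent.VdWF.Defs

/-!
# P053 (full answer), part S: a function balanced on blocks
-/

namespace Vale.Agent.VdWF

open Finset Vale.Agent.VdW

/-- weight -/
noncomputable def wS (b c : Bool) : ℝ := if c = b then 27 / 64 else 4 / 3

theorem wS_pos (b c : Bool) : 0 < wS b c := by
  unfold wS; split <;> norm_num

theorem sum_wS (b : Bool) : ∑ c : Bool, wS b c = 337 / 192 := by
  cases b <;> simp [wS] <;> norm_num

open Classical in
theorem sum_prod_wS {V : Type} [Fintype V] (L : ℕ) (β : Fin L → V) (hβ : Function.Injective β)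
    (b : Bool) :
    ∑ G : V → Bool, ∏ i : Fin L, wS b (G (β i)) = (337 / 384 : ℝ) ^ L * 2 ^ Fintype.card V := by
  set w : V → Bool → ℝ := fun v c => if v ∈ univ.image β then wS b c else 1 with hw
  have h1 : ∀ G : V → Bool, ∏ i : Fin L, wS b (G (β i)) = ∏ v, w v (G v) := by
    intro G
    have h2 : ∏ i : Fin L, wS b (G (β i)) = ∏ v ∈ univ.image β, wS b (G v) :=
      (Finset.prod_image (f := fun v => wS b (G v)) (fun i _ j _ h => hβ h)).symm
    rw [h2]
    simp only [hw]
    rw [Finset.prod_ite_mem, Finset.univ_inter]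
  have h3 : ∏ v : V, ∑ c : Bool, w v c = ∑ G : V → Bool, ∏ v, w v (G v) := by
    rw [Finset.prod_univ_sum, Fintype.piFinset_univ]
  have h4 : ∀ v, ∑ c : Bool, w v c = if v ∈ univ.image β then (337 / 384 : ℝ) * 2 else 2 := by
    intro v
    simp only [hw]
    split
    · rw [sum_wS]; norm_num
    · simp
  have h5 : ∀ v, (if v ∈ univ.image β then (337 / 384 : ℝ) * 2 else 2) =
      (if v ∈ univ.image β then (337 / 384 : ℝ) else 1) * 2 := by
    intro v; split <;> ring
  simp only [h1]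
  rw [← h3]
  simp only [h4, h5]
  rw [Finset.prod_mul_distrib, Finset.prod_const, Finset.prod_ite_mem, Finset.univ_inter,
    Finset.prod_const, Finset.card_image_of_injective _ hβ, Finset.card_univ, Fintype.card_fin,
    Finset.card_univ]

theorem one_le_prod_wS (L : ℕ) (f : Fin L → Bool) (b : Bool)
    (h : 4 * (univ.filter (fun i => f i = b)).card < L) : 1 ≤ ∏ i : Fin L, wS b (f i) := by
  set s := (univ.filter (fun i => f i = b)).card with hs
  have h1 : ∏ i : Fin L, wS b (f i) = (27 / 64) ^ s * (4 / 3) ^ (L - s) := by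
    unfold wS
    rw [Finset.prod_ite, Finset.prod_const, Finset.prod_const, Finset.filter_not,
      Finset.card_sdiff_of_subset (Finset.filter_subset _ _), Finset.card_univ, Fintype.card_fin]
  rw [h1]
  have h2 : L - s = 3 * s + (L - 4 * s) := by omega
  rw [h2, pow_add, pow_mul, ← mul_assoc, ← mul_pow]
  have h3 : ((27 / 64 : ℝ) * (4 / 3) ^ 3) = 1 := by norm_num
  rw [h3, one_pow, one_mul]
  exact one_le_pow₀ (by norm_num)

open Classical in
theorem exists_G {V : Type} [Fintype V] (L : ℕ) (T : Finset (Fin L → V))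
    (hT : ∀ β ∈ T, Function.Injective β) (hc : 2 * (T.card : ℝ) * (9 / 10) ^ L < 1) :
    ∃ G : V → Bool, ∀ β ∈ T, ∀ b : Bool, L ≤ 4 * (univ.filter (fun i => G (β i) = b)).card := by
  by_contra hcon
  push Not at hcon
  have h1 : ∀ G : V → Bool, 1 ≤ ∑ β ∈ T, ∑ b : Bool, ∏ i : Fin L, wS b (G (β i)) := by
    intro G
    obtain ⟨β, hβ, b, hb⟩ := hcon G
    have h2 := one_le_prod_wS L (fun i => G (β i)) b hb
    have h3 : ∏ i : Fin L, wS b (G (β i)) ≤ ∑ b : Bool, ∏ i : Fin L, wS b (G (β i)) :=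
      Finset.single_le_sum (f := fun b => ∏ i : Fin L, wS b (G (β i)))
        (fun b _ => Finset.prod_nonneg fun i _ => (wS_pos _ _).le) (Finset.mem_univ b)
    have h4 : ∑ b : Bool, ∏ i : Fin L, wS b (G (β i)) ≤
        ∑ β ∈ T, ∑ b : Bool, ∏ i : Fin L, wS b (G (β i)) :=
      Finset.single_le_sum (f := fun β => ∑ b : Bool, ∏ i : Fin L, wS b (G (β i)))
        (fun β _ => Finset.sum_nonneg fun b _ => Finset.prod_nonneg fun i _ => (wS_pos _ _).le) hβ
    exact h2.trans (h3.trans h4)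
  have h5 : ∑ _G : V → Bool, (1 : ℝ) ≤
      ∑ G : V → Bool, ∑ β ∈ T, ∑ b : Bool, ∏ i : Fin L, wS b (G (β i)) :=
    Finset.sum_le_sum fun G _ => h1 G
  rw [Finset.sum_comm] at h5
  have h6 : ∑ β ∈ T, ∑ G : V → Bool, ∑ b : Bool, ∏ i : Fin L, wS b (G (β i)) =
      ∑ β ∈ T, 2 * ((337 / 384 : ℝ) ^ L * 2 ^ Fintype.card V) := by
    refine Finset.sum_congr rfl fun β hβ => ?_
    rw [Finset.sum_comm]
    simp only [sum_prod_wS L β (hT β hβ)]
    simp
  rw [h6, Finset.sum_const, Finset.sum_const, Finset.card_univ, Fintype.card_fun,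
    Fintype.card_bool] at h5
  simp only [nsmul_eq_mul, mul_one, Nat.cast_pow, Nat.cast_ofNat] at h5
  have h7 : (0 : ℝ) < 2 ^ Fintype.card V := by positivity
  have h8 : (337 / 384 : ℝ) ^ L ≤ (9 / 10) ^ L := pow_le_pow_left₀ (by norm_num) (by norm_num) _
  have h9 : (T.card : ℝ) * (2 * ((337 / 384 : ℝ) ^ L * 2 ^ Fintype.card V)) ≤
      (2 * (T.card : ℝ) * (9 / 10) ^ L) * 2 ^ Fintype.card V := by
    have : (T.card : ℝ) * (2 * ((337 / 384 : ℝ) ^ L * 2 ^ Fintype.card V)) =
      (2 * (T.card : ℝ) * (337 / 384 : ℝ) ^ L) * 2 ^ Fintype.card V := by ring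
    rw [this]
    gcongr
  have h10 : (2 * (T.card : ℝ) * (9 / 10) ^ L) * 2 ^ Fintype.card V < 1 * 2 ^ Fintype.card V :=
    mul_lt_mul_of_pos_right hc h7
  linarith

end Vale.Agent.VdWF
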