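import Vale.Agent.VdWF.PartA
import Vale.Agent.VdWF.PartS
import Vale.Agent.VdWF.PartP

/-!
# P053 (full answer), part T: the balanced function
-/

namespace Vale.Agent.VdWF

open Finset Vale.Agent.VdW

theorem cell_eq_near {H : ℕ} (hH : 1 ≤ H) {y y' : ℝ} (h : cell H y = cell H y') :
    ∃ z : ℤ, |y' - y - z| < 1 / (H : ℝ) := by
  unfold cell at h
  rw [ZMod.intCast_eq_intCast_iff_dvd_sub] at h
  obtain ⟨z, hz⟩ := h
  refine ⟨z, ?_⟩
  have hH0 : (0 : ℝ) < H := by exact_mod_cast hH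
  have e : ((⌊(H : ℝ) * y'⌋ : ℤ) : ℝ) - ((⌊(H : ℝ) * y⌋ : ℤ) : ℝ) = (H : ℝ) * (z : ℝ) := by
    exact_mod_cast hz
  have f1 := Int.floor_le ((H : ℝ) * y')
  have f2 := Int.lt_floor_add_one ((H : ℝ) * y')
  have f3 := Int.floor_le ((H : ℝ) * y)
  have f4 := Int.lt_floor_add_one ((H : ℝ) * y)
  have h1 : |(H : ℝ) * (y' - y - z)| < 1 := by
    rw [abs_lt]
    have e2 : (H : ℝ) * (y' - y - z) = H * y' - H * y - H * z := by ring
    rw [e2]
    constructor <;> linarith
  rw [abs_mul, abs_of_pos hH0] at h1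
  rwa [lt_div_iff₀ hH0, mul_comm]

theorem gcell_inj (m B Λ H a d : ℕ) (hH : 1 ≤ H) (l : Fin m) (x : ℝ)
    (hx : x = (d : ℝ) / (B : ℝ) ^ (l : ℕ) ∨ x = ((Λ * d : ℕ) : ℝ) / (B : ℝ) ^ (l : ℕ)) (T L0 : ℕ)
    (hsep : ∀ i : ℕ, 1 ≤ i → i < L0 → ∀ z : ℤ, 1 / (H : ℝ) ≤ |(i : ℝ) * T * x - z|) (j0 : ℕ) :
    Function.Injective (fun i : Fin L0 => gcell m B Λ H (a + (j0 + i * T) * d)) := by
  have key : ∀ i i' : Fin L0, i < i' →
      gcell m B Λ H (a + (j0 + i * T) * d) = gcell m B Λ H (a + (j0 + i' * T) * d) → False := by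
    intro i i' hlt heq
    have hlt' : (i : ℕ) < (i' : ℕ) := hlt
    have h1 := congrFun heq l
    have hsub : (((i' : ℕ) - (i : ℕ) : ℕ) : ℝ) = (i' : ℝ) - (i : ℝ) := by
      rw [Nat.cast_sub hlt'.le]
    have hcase : ∃ z : ℤ, |((i' : ℝ) - (i : ℝ)) * T * x - z| < 1 / (H : ℝ) := by
      rcases hx with hx | hx
      · have h2 : cell H (((a + (j0 + i * T) * d : ℕ) : ℝ) / (B : ℝ) ^ (l : ℕ)) =
            cell H (((a + (j0 + i' * T) * d : ℕ) : ℝ) / (B : ℝ) ^ (l : ℕ)) := congrArg Prod.fst h1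
        obtain ⟨z, hz⟩ := cell_eq_near hH h2
        refine ⟨z, ?_⟩
        rw [hx]
        convert! hz using 2
        push_cast
        ring
      · have h2 : cell H (((Λ * (a + (j0 + i * T) * d) : ℕ) : ℝ) / (B : ℝ) ^ (l : ℕ)) =
            cell H (((Λ * (a + (j0 + i' * T) * d) : ℕ) : ℝ) / (B : ℝ) ^ (l : ℕ)) :=
          congrArg Prod.snd h1
        obtain ⟨z, hz⟩ := cell_eq_near hH h2
        refine ⟨z, ?_⟩
        rw [hx]
        convert! hz using 2
        push_cast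
        ring
    obtain ⟨z, hz⟩ := hcase
    have h3 := hsep ((i' : ℕ) - (i : ℕ)) (by omega) (by have := i'.2; omega) z
    rw [hsub] at h3
    linarith
  intro i i' heq
  rcases lt_trichotomy i i' with h | h | h
  · exact (key i i' h heq).elim
  · exact h
  · exact (key i' i h heq.symm).elim

/-- the dichotomy for a difference which is not slow -/
theorem exists_sep (Z L0 H Λ k : ℕ) (hZ : 1 ≤ Z) (hL0 : 2 ≤ L0) (hH : H = 800 * L0 * Z)
    (hΛ : Λ = L0.factorial) (hk : 100 * L0 * (Λ + 1) ≤ k) (x : ℝ)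
    (hx : ∀ V : ℤ, 1 / (4 * (Z : ℝ) * k) < |(Λ : ℝ) * x - V|) :
    ∃ T : ℕ, 1 ≤ T ∧ 100 * L0 * T ≤ k ∧
      ((∀ i : ℕ, 1 ≤ i → i < L0 → ∀ z : ℤ, 1 / (H : ℝ) ≤ |(i : ℝ) * T * x - z|) ∨
       (∀ i : ℕ, 1 ≤ i → i < L0 → ∀ z : ℤ, 1 / (H : ℝ) ≤ |(i : ℝ) * T * (Λ * x) - z|)) := by
  have hΛ1 : 1 ≤ Λ := by rw [hΛ]; exact Nat.factorial_pos _
  have h4 : 4 * L0 ≤ H := by
    rw [hH]
    nlinarith
  have hk1 : 100 * L0 ≤ k := by
    have : 100 * L0 * 1 ≤ 100 * L0 * (Λ + 1) := Nat.mul_le_mul_left _ (by omega)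
    omega
  have hk0 : (0 : ℝ) < k := by
    have : 0 < k := by omega
    exact_mod_cast this
  have hZ0 : (1 : ℝ) ≤ Z := by exact_mod_cast hZ
  have hL00 : (0 : ℝ) < L0 := by
    have : 0 < L0 := by omega
    exact_mod_cast this
  have hHk : 200 * (L0 : ℝ) / (H * k) = 1 / (4 * (Z : ℝ) * k) := by
    rw [hH]
    push_cast
    field_simp
    norm_num
  rcases dich x L0 H k (by omega) h4 hk1 with ⟨r, hr1, hr2⟩ | ⟨T, hT1, hT2, hT3⟩
  · rcases dich (Λ * x) L0 H k (by omega) h4 hk1 with ⟨r', hr1', hr2'⟩ | ⟨T, hT1, hT2, hT3⟩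
    · exfalso
      rw [hHk] at hr2 hr2'
      -- `Λ r` is an integer
      obtain ⟨c, hc⟩ : r.den ∣ Λ := by
        rw [hΛ]
        exact Nat.dvd_factorial r.den_pos hr1.le
      have hw : (Λ : ℝ) * r = ((c * r.num : ℤ) : ℝ) := by
        have h1 : (r : ℚ) * r.den = r.num := Rat.mul_den_eq_num r
        have h2 : (r : ℝ) * r.den = r.num := by exact_mod_cast congrArg (fun q : ℚ => (q : ℝ)) h1
        rw [hc]
        push_cast
        rw [← h2]
        ring
      set w : ℤ := c * r.num with hwdef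
      have hden' : (0 : ℝ) < r'.den := by exact_mod_cast r'.den_pos
      have hr'num : (r' : ℝ) * r'.den = r'.num := by
        have h1 : (r' : ℚ) * r'.den = r'.num := Rat.mul_den_eq_num r'
        exact_mod_cast congrArg (fun q : ℚ => (q : ℝ)) h1
      -- distance
      have hΛr : (1 : ℝ) ≤ Λ := by exact_mod_cast hΛ1
      have hd1 : |(w : ℝ) - r'| < ((Λ : ℝ) + 1) * (1 / (4 * (Z : ℝ) * k)) := by
        have e : (w : ℝ) - r' = ((Λ : ℝ) * x - r') - (Λ : ℝ) * (x - r) := by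
          rw [← hw]; ring
        rw [e]
        calc |((Λ : ℝ) * x - r') - (Λ : ℝ) * (x - r)|
            ≤ |(Λ : ℝ) * x - r'| + |(Λ : ℝ) * (x - r)| := abs_sub _ _
          _ = |(Λ : ℝ) * x - r'| + (Λ : ℝ) * |x - r| := by
              rw [abs_mul, abs_of_pos (by linarith : (0 : ℝ) < Λ)]
          _ < 1 / (4 * (Z : ℝ) * k) + (Λ : ℝ) * (1 / (4 * (Z : ℝ) * k)) :=
              add_lt_add hr2' (mul_lt_mul_of_pos_left hr2 (by linarith))
          _ = _ := by ring
      have hkr : 100 * (L0 : ℝ) * (Λ + 1) ≤ k := by exact_mod_cast hk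
      have hd2 : ((Λ : ℝ) + 1) * (1 / (4 * (Z : ℝ) * k)) * L0 < 1 := by
        have e : ((Λ : ℝ) + 1) * (1 / (4 * (Z : ℝ) * k)) * L0 = (L0 : ℝ) * (Λ + 1) / (4 * Z * k) := by
          ring
        rw [e, div_lt_one (by positivity)]
        nlinarith
      have hne : (w : ℝ) ≠ r' := by
        intro heq
        have h1 := hx w
        rw [heq] at h1
        linarith
      have hint : w * r'.den - r'.num ≠ 0 := by
        intro h0
        apply hne
        have h1 : (w : ℝ) * r'.den - r'.num = 0 := by exact_mod_cast h0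
        rw [← hr'num] at h1
        have h2 : ((w : ℝ) - r') * r'.den = 0 := by linarith
        rcases mul_eq_zero.1 h2 with h3 | h3
        · linarith
        · exact absurd h3 hden'.ne'
      have hone : (1 : ℝ) ≤ |(w : ℝ) * r'.den - r'.num| := by
        have := Int.one_le_abs hint
        exact_mod_cast this
      have hone' : (1 : ℝ) ≤ |(w : ℝ) - r'| * r'.den := by
        rw [← hr'num] at hone
        have e : (w : ℝ) * r'.den - r' * r'.den = (w - r') * r'.den := by ring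
        rw [e, abs_mul, abs_of_pos hden'] at hone
        exact hone
      have hdenL : (r'.den : ℝ) ≤ L0 := by exact_mod_cast hr1'.le
      have : |(w : ℝ) - r'| * r'.den ≤ ((Λ : ℝ) + 1) * (1 / (4 * (Z : ℝ) * k)) * L0 :=
        mul_le_mul hd1.le hdenL hden'.le (by positivity)
      linarith
    · exact ⟨T, hT1, hT2, Or.inr hT3⟩
  · exact ⟨T, hT1, hT2, Or.inl hT3⟩

/-- counting with blocks -/
theorem block_count (k T L0 : ℕ) (hT : 1 ≤ T) (hL0 : 1 ≤ L0) (hk : 100 * L0 * T ≤ k)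
    (Pr : ℕ → Prop) [DecidablePred Pr]
    (h : ∀ j0 : ℕ, L0 ≤ 4 * (univ.filter (fun i : Fin L0 => Pr (j0 + i * T))).card) :
    k ≤ 5 * ((range k).filter Pr).card := by
  set Q := k / (T * L0) with hQ
  have hTL : 0 < T * L0 := Nat.mul_pos hT hL0
  -- the injection
  have hle : ((range Q ×ˢ range T).sigma
      fun p => univ.filter (fun i : Fin L0 => Pr ((p.1 * (T * L0) + p.2) + i * T))).card ≤
      ((range k).filter Pr).card := by
    refine Finset.card_le_card_of_injOn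
      (fun z => (z.1.1 * (T * L0) + z.1.2) + (z.2 : ℕ) * T) ?_ ?_
    · rintro ⟨⟨q, s⟩, i⟩ hz
      simp only [coe_sigma, Set.mem_sigma_iff, mem_coe, mem_product, mem_range, mem_filter,
        mem_univ, true_and] at hz
      simp only [coe_filter, mem_range, Set.mem_setOf_eq]
      obtain ⟨⟨hq, hs⟩, hP⟩ := hz
      refine ⟨?_, hP⟩
      have hi := i.2
      have h1 : (i : ℕ) * T + T ≤ T * L0 := by
        have : ((i : ℕ) + 1) * T ≤ L0 * T := Nat.mul_le_mul_right _ hi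
        nlinarith
      have h2 : (q + 1) * (T * L0) ≤ Q * (T * L0) := Nat.mul_le_mul_right _ hq
      have h3 : Q * (T * L0) ≤ k := Nat.div_mul_le_self _ _
      nlinarith
    · rintro ⟨⟨q, s⟩, i⟩ hz ⟨⟨q', s'⟩, i'⟩ hz' heq
      simp only [coe_sigma, Set.mem_sigma_iff, mem_coe, mem_product, mem_range, mem_filter,
        mem_univ, true_and] at hz hz'
      obtain ⟨⟨hq, hs⟩, -⟩ := hz
      obtain ⟨⟨hq', hs'⟩, -⟩ := hz'
      simp only at heq
      have hi := i.2
      have hi' := i'.2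
      have e1 : q * (T * L0) + s + (i : ℕ) * T = s + T * (i + L0 * q) := by ring
      have e2 : q' * (T * L0) + s' + (i' : ℕ) * T = s' + T * (i' + L0 * q') := by ring
      rw [e1, e2] at heq
      have hs_eq : s = s' := by
        have := congrArg (fun n => n % T) heq
        simpa [Nat.add_mul_mod_self_left, Nat.mod_eq_of_lt hs, Nat.mod_eq_of_lt hs'] using this
      subst hs_eq
      have h2 : (i : ℕ) + L0 * q = i' + L0 * q' := by
        have : T * ((i : ℕ) + L0 * q) = T * (i' + L0 * q') := by omega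
        exact Nat.eq_of_mul_eq_mul_left hT this
      have hi_eq : (i : ℕ) = i' := by
        have := congrArg (fun n => n % L0) h2
        simpa [Nat.add_mul_mod_self_left, Nat.mod_eq_of_lt hi, Nat.mod_eq_of_lt hi'] using this
      have hq_eq : q = q' := by
        rw [hi_eq] at h2
        have : L0 * q = L0 * q' := by omega
        exact Nat.eq_of_mul_eq_mul_left hL0 this
      subst hq_eq
      have : i = i' := Fin.ext hi_eq
      subst this
      rfl
  rw [Finset.card_sigma] at hle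
  have h1 : ∑ p ∈ range Q ×ˢ range T, L0 ≤ ∑ p ∈ range Q ×ˢ range T,
      4 * (univ.filter (fun i : Fin L0 => Pr ((p.1 * (T * L0) + p.2) + i * T))).card :=
    Finset.sum_le_sum fun p _ => h _
  rw [← Finset.mul_sum, Finset.sum_const, card_product, card_range, card_range, smul_eq_mul] at h1
  have h2 : k < Q * (T * L0) + T * L0 := by
    rw [hQ]
    have := Nat.lt_div_mul_add (a := k) hTL
    exact this
  have h3 : 100 * (T * L0) ≤ k := by
    have : 100 * L0 * T = 100 * (T * L0) := by ring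
    omega
  have h4 : Q * T * L0 = Q * (T * L0) := by ring
  rw [h4] at h1
  omega

open Classical in
theorem balanced (m Z L0 H Λ k : ℕ) (hZ : 1 ≤ Z) (hL0 : 2 ≤ L0) (hH : H = 800 * L0 * Z)
    (hΛ : Λ = L0.factorial)
    (hL : 2 * (((H * (2 * L0) * (L0 + 1)) ^ 2) ^ (2 * m) : ℝ) * (9 / 10) ^ L0 < 1)
    (hk : 100 * L0 * (Λ + 1) ≤ k) :
    ∃ G : (Fin m → ZMod H × ZMod H) → Bool, ∀ B a d : ℕ, 1 ≤ B → ¬ Slow m B Λ Z k d →
      ∀ b : Bool, k ≤ 5 * ((range k).filter (fun j => G (gcell m B Λ H (a + j * d)) = b)).card := by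
  have hH1 : 1 ≤ H := by
    rw [hH]
    have := Nat.mul_pos (Nat.mul_pos (by norm_num : 0 < 800) (by omega : 0 < L0)) hZ
    omega
  haveI : NeZero H := ⟨by omega⟩
  -- linear patterns
  set P : Finset (Fin L0 → ZMod H) := univ.filter (fun π : Fin L0 → ZMod H => ∃ e : ℕ → ℝ,
    ∀ t : Fin L0, π t = cell H (newt 1 e t + (fun _ => (0 : ℝ)) t)) with hP
  have hPcard : P.card ≤ (H * (2 * L0) * (L0 + 1)) ^ 2 := by
    have h := pat_offset H L0 1 (by omega) (fun _ => (0 : ℝ))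
    have e : (H * ((1 + 1) * L0 ^ 1) * (L0 + 1)) ^ (1 + 1) = (H * (2 * L0) * (L0 + 1)) ^ 2 := by
      norm_num
    rw [e] at h
    exact h
  set TT : Finset (Fin L0 → (Fin m → ZMod H × ZMod H)) :=
    univ.filter (fun β => Function.Injective β ∧
      ∀ l, (fun i => (β i l).1) ∈ P ∧ (fun i => (β i l).2) ∈ P) with hTT
  have hTTcard : TT.card ≤ ((H * (2 * L0) * (L0 + 1)) ^ 2) ^ (2 * m) := by
    have h1 : TT.card ≤ (Fintype.piFinset (fun _ : Fin m => P ×ˢ P)).card := by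
      refine Finset.card_le_card_of_injOn
        (fun β => fun l => ((fun i => (β i l).1), (fun i => (β i l).2))) ?_ ?_
      · intro β hβ
        rw [hTT] at hβ
        simp only [coe_filter, mem_univ, true_and, Set.mem_setOf_eq] at hβ
        simp only [mem_coe, Fintype.mem_piFinset, mem_product]
        exact hβ.2
      · intro β _ β' _ heq
        funext i l
        have h2 := congrFun heq l
        simp only [Prod.mk.injEq] at h2
        exact Prod.ext (congrFun h2.1 i) (congrFun h2.2 i)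
    rw [Fintype.card_piFinset_const, card_product] at h1
    calc TT.card ≤ (P.card * P.card) ^ m := h1
      _ ≤ (((H * (2 * L0) * (L0 + 1)) ^ 2) * ((H * (2 * L0) * (L0 + 1)) ^ 2)) ^ m :=
          Nat.pow_le_pow_left (Nat.mul_le_mul hPcard hPcard) m
      _ = ((H * (2 * L0) * (L0 + 1)) ^ 2) ^ (2 * m) := by
          rw [pow_mul, sq ((H * (2 * L0) * (L0 + 1)) ^ 2)]
  obtain ⟨G, hG⟩ := exists_G L0 TT (fun β hβ => by
      rw [hTT] at hβ
      simp only [mem_filter, mem_univ, true_and] at hβ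
      exact hβ.1) (by
      refine lt_of_le_of_lt ?_ hL
      have h1 : (TT.card : ℝ) ≤ (((H * (2 * L0) * (L0 + 1)) ^ 2) ^ (2 * m) : ℝ) := by
        exact_mod_cast hTTcard
      gcongr)
  refine ⟨G, ?_⟩
  intro B a d hB hslow b
  -- choose the level
  have hlev : ∃ l : Fin m, ∀ V : ℤ, 1 / (4 * (Z : ℝ) * k) <
      |((Λ * d : ℕ) : ℝ) / (B : ℝ) ^ (l : ℕ) - V| := by
    unfold Slow at hslow
    push Not at hslow
    obtain ⟨l, hl, hV⟩ := hslow
    exact ⟨⟨l, hl⟩, hV⟩
  obtain ⟨l, hl⟩ := hlev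
  have hxe : ∀ V : ℤ, 1 / (4 * (Z : ℝ) * k) < |(Λ : ℝ) * ((d : ℝ) / (B : ℝ) ^ (l : ℕ)) - V| := by
    intro V
    have h1 := hl V
    have e : ((Λ * d : ℕ) : ℝ) / (B : ℝ) ^ (l : ℕ) = (Λ : ℝ) * ((d : ℝ) / (B : ℝ) ^ (l : ℕ)) := by
      push_cast
      ring
    rw [e] at h1
    exact h1
  obtain ⟨T, hT1, hT2, hT3⟩ := exists_sep Z L0 H Λ k hZ hL0 hH hΛ hk _ hxe
  have hinj : ∀ j0 : ℕ, Function.Injective
      (fun i : Fin L0 => gcell m B Λ H (a + (j0 + i * T) * d)) := by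
    intro j0
    rcases hT3 with h | h
    · exact gcell_inj m B Λ H a d hH1 l _ (Or.inl rfl) T L0 h j0
    · refine gcell_inj m B Λ H a d hH1 l _ (Or.inr ?_) T L0 h j0
      push_cast
      ring
  refine block_count k T L0 hT1 (by omega) hT2 (fun j => G (gcell m B Λ H (a + j * d)) = b) ?_
  intro j0
  refine hG (fun i : Fin L0 => gcell m B Λ H (a + (j0 + i * T) * d)) ?_ b
  rw [hTT]
  simp only [mem_filter, mem_univ, true_and]
  refine ⟨hinj j0, fun l' => ⟨?_, ?_⟩⟩
  · rw [hP]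
    simp only [mem_filter, mem_univ, true_and]
    refine ⟨fun j => if j = 0 then ((a + j0 * d : ℕ) : ℝ) / (B : ℝ) ^ (l' : ℕ) else
      ((T * d : ℕ) : ℝ) / (B : ℝ) ^ (l' : ℕ), fun t => ?_⟩
    unfold gcell newt
    simp only [Finset.sum_range_succ, Finset.sum_range_zero]
    norm_num
    congr 1
    push_cast
    ring
  · rw [hP]
    simp only [mem_filter, mem_univ, true_and]
    refine ⟨fun j => if j = 0 then ((Λ * (a + j0 * d) : ℕ) : ℝ) / (B : ℝ) ^ (l' : ℕ) else
      ((Λ * (T * d) : ℕ) : ℝ) / (B : ℝ) ^ (l' : ℕ), fun t => ?_⟩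
    unfold gcell newt
    simp only [Finset.sum_range_succ, Finset.sum_range_zero]
    norm_num
    congr 1
    push_cast
    ring

end Vale.Agent.VdWF
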