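import Vale.Agent.VdWF.PartA
import Vale.Agent.VdWF.PartK
import Vale.Agent.VdWF.PartT
import Vale.Agent.VdWF.PartJ
import Vale.Agent.VdWF.PartI

/-!
# P053 (full answer), part L: few repeated keys for every progression
-/

namespace Vale.Agent.VdWF

open Finset Vale.Agent.VdW

theorem zc_eq_near {B Λ Z l n n' : ℕ} (hB : 1 ≤ B) (hZ : 1 ≤ Z)
    (h : ((zc B Λ Z l n : ℤ) : ZMod Z) = ((zc B Λ Z l n' : ℤ) : ZMod Z)) :
    ∃ t : ℤ, |((Λ * n' : ℕ) : ℝ) / (B : ℝ) ^ l - ((Λ * n : ℕ) : ℝ) / (B : ℝ) ^ l - t| <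
      1 / (Z : ℝ) := by
  rw [ZMod.intCast_eq_intCast_iff_dvd_sub] at h
  obtain ⟨t, ht⟩ := h
  refine ⟨t, ?_⟩
  unfold zc at ht
  have hZ0 : (0 : ℝ) < Z := by exact_mod_cast hZ
  have hb : 0 < B ^ l := Nat.pow_pos (by omega)
  have hbr : (0 : ℝ) < (B : ℝ) ^ l := by exact_mod_cast hb
  have ht' : ((Z * Λ * n' / B ^ l : ℕ) : ℝ) - ((Z * Λ * n / B ^ l : ℕ) : ℝ) = (Z : ℝ) * (t : ℝ) := by
    exact_mod_cast ht
  have key : ∀ n : ℕ, ((Z * Λ * n / B ^ l : ℕ) : ℝ) ≤ (Z : ℝ) * (((Λ * n : ℕ) : ℝ) / (B : ℝ) ^ l) ∧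
      (Z : ℝ) * (((Λ * n : ℕ) : ℝ) / (B : ℝ) ^ l) < ((Z * Λ * n / B ^ l : ℕ) : ℝ) + 1 := by
    intro n
    have e : (Z : ℝ) * (((Λ * n : ℕ) : ℝ) / (B : ℝ) ^ l) = ((Z * Λ * n : ℕ) : ℝ) / (B : ℝ) ^ l := by
      push_cast
      ring
    rw [e, le_div_iff₀ hbr, div_lt_iff₀ hbr]
    have h1 := Nat.div_mul_le_self (Z * Λ * n) (B ^ l)
    have h2 := Nat.lt_div_mul_add (a := Z * Λ * n) hb
    constructor
    · exact_mod_cast h1
    · have h3 : ((Z * Λ * n : ℕ) : ℝ) < (((Z * Λ * n / B ^ l * B ^ l + B ^ l : ℕ)) : ℝ) := by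
        exact_mod_cast h2
      push_cast at h3 ⊢
      linarith
  have k1 := key n
  have k2 := key n'
  have h1 : |(Z : ℝ) * (((Λ * n' : ℕ) : ℝ) / (B : ℝ) ^ l - ((Λ * n : ℕ) : ℝ) / (B : ℝ) ^ l - t)| < 1 := by
    rw [abs_lt]
    have e : (Z : ℝ) * (((Λ * n' : ℕ) : ℝ) / (B : ℝ) ^ l - ((Λ * n : ℕ) : ℝ) / (B : ℝ) ^ l - t) =
      (Z : ℝ) * (((Λ * n' : ℕ) : ℝ) / (B : ℝ) ^ l) - (Z : ℝ) * (((Λ * n : ℕ) : ℝ) / (B : ℝ) ^ l) -
        (Z : ℝ) * t := by ring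
    rw [e]
    constructor <;> linarith [k1.1, k1.2, k2.1, k2.2]
  rw [abs_mul, abs_of_pos hZ0] at h1
  rwa [lt_div_iff₀ hZ0, mul_comm]

theorem mem_old {κ : Type} (k : ℕ) (key : ℕ → κ) (j : ℕ) :
    j ∈ old k key ↔ j < k ∧ ∃ i < j, key i = key j := by
  unfold old
  simp only [mem_filter, mem_range]

/-- repeated keys lie in the bad zones -/
theorem old_le_aux {κ ι : Type} [Fintype ι] [DecidableEq ι] (k L1 J : ℕ) (key : ℕ → κ) (zn : ℕ → ι)
    (hJ : 60 * J ≤ L1) (bad : Finset ι) (hbad : bad.card < J)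
    (hz : ∀ z : ι, L1 * ((range k).filter (fun j => zn j = z)).card ≤ 2 * k)
    (hold : ∀ j ∈ old k key, zn j ∈ bad) : 30 * (old k key).card ≤ k := by
  have h1 : old k key ⊆ bad.biUnion (fun z => (range k).filter (fun j => zn j = z)) := by
    intro j hj
    rw [mem_biUnion]
    refine ⟨zn j, hold j hj, ?_⟩
    rw [mem_filter, mem_range]
    exact ⟨((mem_old _ _ _).1 hj).1, rfl⟩
  have h2 : (old k key).card ≤ ∑ z ∈ bad, ((range k).filter (fun j => zn j = z)).card :=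
    (Finset.card_le_card h1).trans Finset.card_biUnion_le
  have h3 : L1 * (old k key).card ≤ bad.card * (2 * k) := by
    calc L1 * (old k key).card ≤ L1 * ∑ z ∈ bad, ((range k).filter (fun j => zn j = z)).card :=
          Nat.mul_le_mul_left _ h2
      _ = ∑ z ∈ bad, L1 * ((range k).filter (fun j => zn j = z)).card := Finset.mul_sum _ _ _
      _ ≤ ∑ _z ∈ bad, 2 * k := Finset.sum_le_sum fun z _ => hz z
      _ = bad.card * (2 * k) := by rw [Finset.sum_const, smul_eq_mul]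
  have h4 : 60 * J * (old k key).card ≤ L1 * (old k key).card := Nat.mul_le_mul_right _ hJ
  have h5 : bad.card * (2 * k) ≤ J * (2 * k) := Nat.mul_le_mul_right _ hbad.le
  have h6 : J * (60 * (old k key).card) ≤ J * (2 * k) := by
    calc J * (60 * (old k key).card) = 60 * J * (old k key).card := by ring
      _ ≤ _ := h4.trans (h3.trans h5)
  have h7 : 60 * (old k key).card ≤ 2 * k := Nat.le_of_mul_le_mul_left h6 (by omega)
  omega

open Classical in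
theorem old_le (m n0 D B Λ Z R k N L1 J : ℕ) (p : ℕ → ℕ) (hm : 1 ≤ m) (hp : ∀ i < n0, (p i).Prime)
    (hinj : ∀ i < n0, ∀ j < n0, p i = p j → i = j) (hB : B = ∏ i ∈ range n0, p i)
    (hD : m + n0 ≤ D) (hC0 : ∀ i < n0, CC D k < p i) (hC1 : ∀ i < n0, p i * CC D k < R)
    (F F' : (i : ℕ) → (Fin m → ZMod (p i)) → ZMod (p i))
    (hF : ∀ i < n0, IsForm (p i) m (m + i) (F i)) (hF' : ∀ i < n0, IsForm (p i) m (m + i + 1) (F' i))
    (hZ : 201 * L1 ^ 2 ≤ Z) (hL1 : 1 ≤ L1) (hJ : 60 * J ≤ L1) (hΛ : 1 ≤ Λ)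
    (hk : 30 * (L1 ^ m * Z ^ m * D ^ 2) ≤ k) (hk2 : 100 * L1 ≤ k) (hR : 1 ≤ R)
    (hN : L1 ^ m * (Λ * N) < B ^ m)
    (hcount : (N : ℝ) ^ 2 * ((Z : ℝ) ^ m) ^ J * (3 * (k : ℝ) ^ 2 / R) ^ J < 1) :
    ∃ θ : (Fin m → ZMod Z) → ℝ, ∀ a d : ℕ, 1 ≤ a → 1 ≤ d → a + (k - 1) * d ≤ N →
      30 * (old k (fun j => ((cell R (QQ m n0 p F B Λ Z (a + j * d)),
        cell R (QQ m n0 p F' B Λ Z (a + j * d))), (zone m B Λ Z (a + j * d),
        cell R (θ (zone m B Λ Z (a + j * d)) * ((a + j * d : ℕ) : ℝ)))))).card ≤ k := by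
  have hLL : L1 ≤ L1 ^ 2 := by nlinarith
  have hZ1 : 1 ≤ Z := by omega
  haveI : NeZero Z := ⟨by omega⟩
  have hB1 : 1 ≤ B := by
    rw [hB]
    exact Finset.prod_pos fun i hi => (hp i (mem_range.1 hi)).pos
  have hcard : (Fintype.card (Fin m → ZMod Z) : ℝ) = (Z : ℝ) ^ m := by
    rw [Fintype.card_fun, ZMod.card, Fintype.card_fin]
    push_cast
    rfl
  obtain ⟨θ, hθ⟩ := exists_theta (zone m B Λ Z) R k N J hR (by omega) (by rw [hcard]; exact hcount)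
  refine ⟨θ, ?_⟩
  intro a d ha hd hN'
  have hdN : d ≤ N := by
    have h1 : 1 * d ≤ (k - 1) * d := Nat.mul_le_mul_right _ (by omega)
    omega
  by_cases hcase : ∀ l < m, ∃ r : ℚ, r.den < L1 ∧
      |((Λ * d : ℕ) : ℝ) / (B : ℝ) ^ l - r| < 200 * (L1 : ℝ) / (Z * k)
  · -- near rational
    choose r hr using hcase
    have h1 := old_near m n0 D B Λ Z R k N L1 p hm hp hinj hB hD hC0 hC1 F F' hF hF' hZ hL1 hΛ hk hN
      a d hd hdN (fun l => if h : l < m then r l h else 0) (fun l hl => by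
        simp only [dif_pos hl]
        exact hr l hl)
    refine le_trans (Nat.mul_le_mul_left _ (Finset.card_le_card ?_)) h1
    intro j hj
    rw [mem_old] at hj ⊢
    refine ⟨hj.1, ?_⟩
    obtain ⟨i, hij, heq⟩ := hj.2
    refine ⟨i, hij, ?_⟩
    simp only [Prod.mk.injEq] at heq ⊢
    exact ⟨heq.1.1, heq.1.2, heq.2.1⟩
  · push Not at hcase
    obtain ⟨l, hl, hl2⟩ := hcase
    rcases dich (((Λ * d : ℕ) : ℝ) / (B : ℝ) ^ l) L1 Z k hL1 (by omega) hk2 with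
      ⟨r, hr1, hr2⟩ | ⟨T, hT1, hT2, hT3⟩
    · exact absurd hr2 (not_lt.2 (hl2 r hr1))
    · -- zones are separated
      have hsep : ∀ j i, 1 ≤ i → i < L1 → j + i * T < k →
          zone m B Λ Z (a + (j + i * T) * d) ≠ zone m B Λ Z (a + j * d) := by
        intro j i hi1 hi2 _ heq
        have h1 : ((zc B Λ Z l (a + (j + i * T) * d) : ℤ) : ZMod Z) =
            ((zc B Λ Z l (a + j * d) : ℤ) : ZMod Z) := congrFun heq ⟨l, hl⟩
        obtain ⟨t, ht⟩ := zc_eq_near hB1 hZ1 h1.symm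
        have h2 := hT3 i hi1 hi2 t
        have e : ((Λ * (a + (j + i * T) * d) : ℕ) : ℝ) / (B : ℝ) ^ l -
            ((Λ * (a + j * d) : ℕ) : ℝ) / (B : ℝ) ^ l =
            (i : ℝ) * T * (((Λ * d : ℕ) : ℝ) / (B : ℝ) ^ l) := by
          push_cast
          ring
        rw [e] at ht
        linarith
      have hzc : ∀ z : Fin m → ZMod Z, L1 * ((range k).filter
          (fun j => zone m B Λ Z (a + j * d) = z)).card ≤ 2 * k := fun z => by
        have h4 := zone_card_le k L1 T hT1 hL1 hT2 (fun j => zone m B Λ Z (a + j * d)) z hsep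
        convert! h4
      have hbad := hθ a d ha hd hN'
      refine old_le_aux k L1 J _ (fun j => zone m B Λ Z (a + j * d)) hJ _ hbad ?_ ?_
      · intro z
        convert! hzc z
      · intro j hj
        rw [mem_old] at hj
        obtain ⟨hjk, i, hij, heq⟩ := hj
        simp only [Prod.mk.injEq] at heq
        rw [mem_filter]
        refine ⟨mem_univ _, i, j, hij, hjk, heq.2.1, rfl, ?_⟩
        have h3 := heq.2.2
        rw [heq.2.1] at h3
        exact cell_eq_near hR h3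

end Vale.Agent.VdWF
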