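import Vale.Agent.VdWF.PartP
import Vale.Agent.VdW.PartN
import Vale.Agent.VdW.PartG

/-!
# P053 (full answer), part Q: patterns of the phase along slow progressions
-/

namespace Vale.Agent.VdWF

open Finset Vale.Agent.VdW

/-- one rounding jump -/
theorem floor_jump (x e : ℝ) (k : ℕ) (he : |e| * k ≤ 1 / 4) :
    ∃ (σ : ℤ) (τ : ℕ), (σ = 1 ∨ σ = -1) ∧ τ ≤ k ∧
      ∀ j < k, ⌊x + j * e⌋ = ⌊x⌋ + (if τ ≤ j then σ else 0) := by
  classical
  have hz1 : (⌊x⌋ : ℝ) ≤ x := Int.floor_le _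
  have hz2 : x < ⌊x⌋ + 1 := Int.lt_floor_add_one _
  have hb : ∀ j < k, |(j : ℝ) * e| ≤ 1 / 4 := by
    intro j hj
    rw [abs_mul, Nat.abs_cast]
    have : (j : ℝ) ≤ k := by exact_mod_cast hj.le
    nlinarith [abs_nonneg e]
  rcases le_or_gt 0 e with h0 | h0
  · have hex : ∃ j, j = k ∨ (⌊x⌋ : ℝ) + 1 ≤ x + j * e := ⟨k, Or.inl rfl⟩
    refine ⟨1, Nat.find hex, Or.inl rfl, Nat.find_min' hex (Or.inl rfl), ?_⟩
    intro j hj
    have hbj := hb j hj
    rw [abs_le] at hbj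
    have hj0 : 0 ≤ (j : ℝ) * e := by positivity
    by_cases h : Nat.find hex ≤ j
    · rw [if_pos h]
      have hsp := Nat.find_spec hex
      rcases hsp with h1 | h1
      · omega
      · have h2 : ((Nat.find hex : ℕ) : ℝ) * e ≤ j * e :=
          mul_le_mul_of_nonneg_right (by exact_mod_cast h) h0
        rw [Int.floor_eq_iff]
        push_cast
        constructor <;> linarith
    · rw [if_neg h, add_zero]
      have hm := Nat.find_min hex (not_le.mp h)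
      push Not at hm
      rw [Int.floor_eq_iff]
      constructor
      · linarith
      · exact hm.2
  · have hex : ∃ j, j = k ∨ x + j * e < (⌊x⌋ : ℝ) := ⟨k, Or.inl rfl⟩
    refine ⟨-1, Nat.find hex, Or.inr rfl, Nat.find_min' hex (Or.inl rfl), ?_⟩
    intro j hj
    have hbj := hb j hj
    rw [abs_le] at hbj
    have hj0 : (j : ℝ) * e ≤ 0 := mul_nonpos_of_nonneg_of_nonpos (Nat.cast_nonneg _) h0.le
    by_cases h : Nat.find hex ≤ j
    · rw [if_pos h]
      have hsp := Nat.find_spec hex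
      rcases hsp with h1 | h1
      · omega
      · have h2 : (j : ℝ) * e ≤ ((Nat.find hex : ℕ) : ℝ) * e :=
          mul_le_mul_of_nonpos_right (by exact_mod_cast h) h0.le
        rw [Int.floor_eq_iff]
        push_cast
        constructor <;> linarith
    · rw [if_neg h, add_zero]
      have hm := Nat.find_min hex (not_le.mp h)
      push Not at hm
      rw [Int.floor_eq_iff]
      constructor
      · exact hm.2
      · linarith

theorem zc_eq_floor (B Λ Z l n : ℕ) (hB : 1 ≤ B) :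
    zc B Λ Z l n = ⌊(Z : ℝ) * (((Λ * n : ℕ) : ℝ) / (B : ℝ) ^ l)⌋ := by
  unfold zc
  have hb : (0 : ℝ) < (B : ℝ) ^ l := by
    have : (0 : ℝ) < B := by exact_mod_cast hB
    positivity
  have h1 : (Z : ℝ) * (((Λ * n : ℕ) : ℝ) / (B : ℝ) ^ l) = ((Z * Λ * n : ℕ) : ℝ) / ((B ^ l : ℕ) : ℝ) := by
    push_cast
    ring
  rw [h1, ← Nat.floor_div_eq_div (K := ℝ), Int.natCast_floor_eq_floor]
  positivity

/-- `zc` along a slow progression -/
theorem zc_slow (m B Λ Z k : ℕ) (hk : 1 ≤ k) (hB : 1 ≤ B) (hZ : 1 ≤ Z) (a d : ℕ)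
    (hs : Slow m B Λ Z k d) (l : ℕ) (hl : l < m) :
    ∃ (V σ : ℤ) (τ : ℕ), (σ = 1 ∨ σ = -1) ∧ τ ≤ k ∧
      ∀ j < k, zc B Λ Z l (a + j * d) =
        zc B Λ Z l a + Z * (j * V) + (if τ ≤ j then σ else 0) := by
  obtain ⟨V, hV⟩ := hs l hl
  have hk0 : (0 : ℝ) < k := by exact_mod_cast hk
  have hZ0 : (0 : ℝ) < Z := by exact_mod_cast hZ
  set w : ℝ := ((Λ * d : ℕ) : ℝ) / (B : ℝ) ^ l with hw
  have he : |(Z : ℝ) * (w - V)| * k ≤ 1 / 4 := by
    rw [abs_mul, Nat.abs_cast]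
    calc (Z : ℝ) * |w - V| * k ≤ Z * (1 / (4 * (Z : ℝ) * k)) * k := by gcongr
      _ = 1 / 4 := by field_simp
  obtain ⟨σ, τ, h1, h2, h3⟩ := floor_jump ((Z : ℝ) * (((Λ * a : ℕ) : ℝ) / (B : ℝ) ^ l)) _ k he
  refine ⟨V, σ, τ, h1, h2, fun j hj => ?_⟩
  rw [zc_eq_floor _ _ _ _ _ hB, zc_eq_floor _ _ _ _ _ hB]
  have h4 : (Z : ℝ) * (((Λ * (a + j * d) : ℕ) : ℝ) / (B : ℝ) ^ l) =
      ((Z : ℝ) * (((Λ * a : ℕ) : ℝ) / (B : ℝ) ^ l) + j * ((Z : ℝ) * (w - V))) +
        ((Z * (j * V) : ℤ) : ℝ) := by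
    rw [hw]
    push_cast
    ring
  rw [h4, Int.floor_add_intCast, h3 j hj]
  ring

theorem divjump (c σ : ℤ) (Z : ℕ) (hZ : 1 ≤ Z) (hσ : σ = 1 ∨ σ = -1) :
    (c + σ) / (Z : ℤ) = c / Z +
      (if (σ = 1 ∧ (Z : ℤ) ∣ c + 1) ∨ (σ = -1 ∧ (Z : ℤ) ∣ c) then σ else 0) := by
  have hZ0 : (0 : ℤ) < Z := by exact_mod_cast hZ
  have e1 := Int.emod_add_mul_ediv c Z
  have e2 := Int.emod_nonneg c hZ0.ne'
  have e3 := Int.emod_lt_of_pos c hZ0
  set q := c / (Z : ℤ) with hq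
  set r := c % (Z : ℤ) with hr
  rcases hσ with rfl | rfl
  · by_cases h : (Z : ℤ) ∣ c + 1
    · rw [if_pos (Or.inl ⟨rfl, h⟩)]
      obtain ⟨t, ht⟩ := h
      rw [ht, Int.mul_ediv_cancel_left _ hZ0.ne']
      -- Z t = r + Z q + 1
      have h1 : (Z : ℤ) * (t - q) = r + 1 := by rw [mul_sub]; linarith
      have h2 : 0 < t - q := by
        by_contra hcon
        push Not at hcon
        nlinarith
      have h3 : t - q < 2 := by
        by_contra hcon
        push Not at hcon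
        nlinarith
      omega
    · rw [if_neg (by rintro (⟨-, h'⟩ | ⟨h', -⟩); exacts [h h', by norm_num at h']), add_zero]
      have h1 : r + 1 ≠ Z := by
        intro h1
        apply h
        refine ⟨q + 1, ?_⟩
        rw [mul_add]; linarith
      exact ((Int.ediv_emod_unique hZ0).mpr ⟨by linarith, by linarith, by omega⟩ :
        (c + 1) / (Z : ℤ) = q ∧ (c + 1) % (Z : ℤ) = r + 1).1
  · by_cases h : (Z : ℤ) ∣ c
    · rw [if_pos (Or.inr ⟨rfl, h⟩)]
      have hr0 : r = 0 := Int.emod_eq_zero_of_dvd h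
      exact ((Int.ediv_emod_unique hZ0).mpr ⟨by rw [mul_add]; linarith, by linarith, by omega⟩ :
        (c + -1) / (Z : ℤ) = q + -1 ∧ (c + -1) % (Z : ℤ) = Z - 1).1
    · rw [if_neg (by rintro (⟨h', -⟩ | ⟨-, h'⟩); exacts [by norm_num at h', h h']), add_zero]
      have h1 : r ≠ 0 := by
        intro h1
        exact h (Int.dvd_of_emod_eq_zero h1)
      exact ((Int.ediv_emod_unique hZ0).mpr ⟨by linarith, by omega, by linarith⟩ :
        (c + -1) / (Z : ℤ) = q ∧ (c + -1) % (Z : ℤ) = r - 1).1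

/-- sign -/
def sgn (b : Bool) : ℤ := if b then 1 else -1

/-- digits along a slow progression: every position jumps in at most one level -/
theorem dig_slow (m n0 B Λ Z k : ℕ) (hk : 1 ≤ k) (hB : 1 ≤ B) (hZ : n0 + 1 ≤ Z) (a d : ℕ)
    (hs : Slow m B Λ Z k d) (l : Fin m) :
    ∃ (V : ℤ) (σ : Bool) (τ : Fin (k + 1)) (lam : Fin (n0 + 1)),
      ∀ i < n0, ∀ j < k, dig B Λ Z i l (a + j * d) =
        dig B Λ Z i l a + j * V + (if (lam : ℕ) = i ∧ (τ : ℕ) ≤ j then sgn σ else 0) := by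
  classical
  obtain ⟨V, σ, τ, h1, h2, h3⟩ := zc_slow m B Λ Z k hk hB (by omega) a d hs l l.2
  have hZ0 : (0 : ℤ) < Z := by exact_mod_cast (show 0 < Z by omega)
  let P : ℕ → Prop := fun i => (σ = 1 ∧ (Z : ℤ) ∣ zc B Λ Z l a - ((i : ℤ) + 1) + 1) ∨
    (σ = -1 ∧ (Z : ℤ) ∣ zc B Λ Z l a - ((i : ℤ) + 1))
  have huniq : ∀ i i' : ℕ, i < n0 → i' < n0 → P i → P i' → i = i' := by
    intro i i' hi hi' hP hP'
    have hdvd : (Z : ℤ) ∣ (i' : ℤ) - i := by
      rcases hP with ⟨a1, a2⟩ | ⟨a1, a2⟩ <;> rcases hP' with ⟨b1, b2⟩ | ⟨b1, b2⟩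
      · have h9 : (i' : ℤ) - i = (zc B Λ Z l a - ((i : ℤ) + 1) + 1) -
            (zc B Λ Z l a - ((i' : ℤ) + 1) + 1) := by ring
        rw [h9]; exact dvd_sub a2 b2
      · exact absurd (a1.symm.trans b1) (by norm_num)
      · exact absurd (a1.symm.trans b1) (by norm_num)
      · have h9 : (i' : ℤ) - i = (zc B Λ Z l a - ((i : ℤ) + 1)) -
            (zc B Λ Z l a - ((i' : ℤ) + 1)) := by ring
        rw [h9]; exact dvd_sub a2 b2
    have h4 : |(i' : ℤ) - i| < Z := by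
      rw [abs_lt]; constructor <;> omega
    have := Int.eq_zero_of_abs_lt_dvd hdvd h4
    omega
  have hlam : ∃ lam : Fin (n0 + 1), ∀ i < n0, ((lam : ℕ) = i ↔ P i) := by
    by_cases hex : ∃ i < n0, P i
    · obtain ⟨i, hi, hP⟩ := hex
      refine ⟨⟨i, by omega⟩, fun i' hi' => ?_⟩
      constructor
      · rintro rfl; exact hP
      · intro hP'; exact huniq i i' hi hi' hP hP'
    · refine ⟨⟨n0, by omega⟩, fun i' hi' => ?_⟩
      constructor
      · intro h; simp only at h; omega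
      · intro hP'; exact absurd ⟨i', hi', hP'⟩ hex
  obtain ⟨lam, hlam⟩ := hlam
  refine ⟨V, decide (σ = 1), ⟨τ, by omega⟩, lam, fun i hi j hj => ?_⟩
  have hsg : sgn (decide (σ = 1)) = σ := by
    rcases h1 with rfl | rfl <;> simp [sgn]
  rw [hsg]
  unfold dig
  rw [h3 j hj]
  have h5 : zc B Λ Z l a + Z * (j * V) + (if τ ≤ j then σ else 0) - ((i : ℤ) + 1) =
      (zc B Λ Z l a - ((i : ℤ) + 1) + (if τ ≤ j then σ else 0)) + Z * (j * V) := by ring
  rw [h5, Int.add_mul_ediv_left _ _ hZ0.ne']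
  by_cases ht : τ ≤ j
  · rw [if_pos ht, divjump _ σ Z (by omega) h1]
    have h6 : ((lam : ℕ) = i ∧ ((⟨τ, by omega⟩ : Fin (k + 1)) : ℕ) ≤ j) ↔
        ((σ = 1 ∧ (Z : ℤ) ∣ zc B Λ Z l a - ((i : ℤ) + 1) + 1) ∨
          (σ = -1 ∧ (Z : ℤ) ∣ zc B Λ Z l a - ((i : ℤ) + 1))) := by
      rw [hlam i hi]
      simp [ht, P]
    simp only [h6]
    ring
  · rw [if_neg ht, add_zero, if_neg (by simp [ht])]
    ring

/-- a form along a line, divided by the prime: a real polynomial modulo integers -/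
theorem form_real (p m e D : ℕ) (hp : p.Prime) (heD : e ≤ D) (F : (Fin m → ZMod p) → ZMod p)
    (hF : IsForm p m e F) (u v : Fin m → ZMod p) :
    ∃ c : ℕ → ℝ, ∀ j : ℕ, ∃ z : ℤ,
      ((F (fun l => u l + (j : ZMod p) * v l)).val : ℝ) / p = newt D c j + z := by
  have : Fact p.Prime := ⟨hp⟩
  obtain ⟨P, hdeg, -, hev⟩ := hF.2 u v
  set f : Polynomial ℝ := ∑ s ∈ range (e + 1),
    Polynomial.C (((P.coeff s).val : ℝ) / p) * Polynomial.X ^ s with hf
  have hfd : f.natDegree ≤ D := by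
    refine Polynomial.natDegree_sum_le_of_forall_le _ _ fun s hs => ?_
    refine (Polynomial.natDegree_C_mul_X_pow_le _ _).trans ?_
    have := mem_range.mp hs
    omega
  obtain ⟨c, hc⟩ := exists_newt D f hfd
  refine ⟨c, fun j => ?_⟩
  have hp0 : (p : ℝ) ≠ 0 := by exact_mod_cast hp.ne_zero
  have h1 : f.eval (j : ℝ) = ((∑ s ∈ range (e + 1), (P.coeff s).val * j ^ s : ℕ) : ℝ) / p := by
    rw [hf, Polynomial.eval_finsetSum]
    push_cast
    rw [sum_div]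
    refine sum_congr rfl fun s _ => ?_
    simp only [Polynomial.eval_mul, Polynomial.eval_C, Polynomial.eval_pow, Polynomial.eval_X]
    ring
  have h2 : ((∑ s ∈ range (e + 1), (P.coeff s).val * j ^ s : ℕ) : ZMod p) =
      F (fun l => u l + (j : ZMod p) * v l) := by
    have h3 := hev (j : ZMod p)
    have h4 : u + (j : ZMod p) • v = fun l => u l + (j : ZMod p) * v l := by
      funext l; simp
    rw [h4] at h3
    rw [← h3, Polynomial.eval_eq_sum_range' (n := e + 1) (by omega)]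
    push_cast
    refine sum_congr rfl fun s _ => ?_
    rw [ZMod.natCast_zmod_val]
  set Y : ℕ := ∑ s ∈ range (e + 1), (P.coeff s).val * j ^ s with hY
  have h5 : (F (fun l => u l + (j : ZMod p) * v l)).val = Y % p := by
    rw [← h2, ZMod.val_natCast]
  refine ⟨-((Y / p : ℕ) : ℤ), ?_⟩
  rw [h5, ← hc, h1]
  have h6 : (Y : ℝ) = p * ((Y / p : ℕ) : ℝ) + ((Y % p : ℕ) : ℝ) := by
    exact_mod_cast (Nat.div_add_mod Y p).symm
  rw [h6, Int.cast_neg, Int.cast_natCast]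
  field_simp
  ring

theorem cast_emod_toNat (x : ℤ) (p R : ℕ) (hp : 1 ≤ p) (hpR : p ≤ R) :
    ((((x % (p : ℤ)).toNat % R : ℕ)) : ZMod p) = ((x : ℤ) : ZMod p) := by
  have hp0 : (0 : ℤ) < p := by exact_mod_cast hp
  have h1 := Int.emod_nonneg x hp0.ne'
  have h2 := Int.emod_lt_of_pos x hp0
  rw [Nat.mod_eq_of_lt (by omega)]
  have h3 : (((x % (p : ℤ)).toNat : ℕ) : ZMod p) = (((x % (p : ℤ)).toNat : ℤ) : ZMod p) := by
    push_cast; rfl
  rw [h3, Int.toNat_of_nonneg h1, ZMod.intCast_mod]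

open Classical in
/-- the contribution of the jumping levels -/
noncomputable def phiJ (m n0 k R : ℕ) (p : ℕ → ℕ)
    (F : (i : ℕ) → (Fin m → ZMod (p i)) → ZMod (p i))
    (dt : (Fin m → Fin (n0 + 1)) × (Fin m → (Fin m → Fin R) × (Fin m → Fin R)) ×
      (Fin m → Bool × Fin (k + 1))) (t : ℕ) : ℝ :=
  ∑ i ∈ range n0, if h : ∃ l, (dt.1 l : ℕ) = i then
    ((F i (fun l' => ((((dt.2.1 h.choose).1 l' : Fin R) : ℕ) : ZMod (p i)) +
      (t : ZMod (p i)) * ((((dt.2.1 h.choose).2 l' : Fin R) : ℕ) : ZMod (p i)) +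
      ((if (dt.1 l' : ℕ) = i ∧ ((dt.2.2 l').2 : ℕ) ≤ t then sgn (dt.2.2 l').1 else 0 : ℤ) :
        ZMod (p i)))).val : ℝ) / (p i : ℝ) else 0

theorem newt_sum {ι : Type*} (s : Finset ι) (D : ℕ) (c : ι → ℕ → ℝ) (t : ℕ) :
    newt D (fun j => ∑ i ∈ s, c i j) t = ∑ i ∈ s, newt D (c i) t := by
  unfold newt
  rw [sum_comm]
  refine sum_congr rfl fun j _ => ?_
  rw [mul_sum]

/-- decomposition of the phase along a slow progression -/
theorem QQ_slow (m n0 D B Λ Z R k : ℕ) [NeZero R] (hk : 1 ≤ k) (p : ℕ → ℕ) (hB : 1 ≤ B)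
    (hn0 : n0 + 1 ≤ Z) (hp : ∀ i < n0, (p i).Prime) (hpR : ∀ i < n0, p i ≤ R)
    (F : (i : ℕ) → (Fin m → ZMod (p i)) → ZMod (p i)) (e : ℕ → ℕ) (heD : ∀ i < n0, e i ≤ D)
    (hF : ∀ i < n0, IsForm (p i) m (e i) (F i)) (a d : ℕ) (hs : Slow m B Λ Z k d) :
    ∃ (dt : (Fin m → Fin (n0 + 1)) × (Fin m → (Fin m → Fin R) × (Fin m → Fin R)) ×
      (Fin m → Bool × Fin (k + 1))) (c : ℕ → ℝ), ∀ j < k, ∃ z : ℤ,
      QQ m n0 p F B Λ Z (a + j * d) = newt D c j + phiJ m n0 k R p F dt j + z := by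
  classical
  have hR : 0 < R := NeZero.pos R
  choose V σ τ lam hdig using fun l : Fin m => dig_slow m n0 B Λ Z k hk hB hn0 a d hs l
  -- the data
  let uv : Fin m → (Fin m → Fin R) × (Fin m → Fin R) := fun l =>
    (fun l' => ⟨(dig B Λ Z (lam l) l' a % ((p (lam l) : ℕ) : ℤ)).toNat % R, Nat.mod_lt _ hR⟩,
     fun l' => ⟨(V l' % ((p (lam l) : ℕ) : ℤ)).toNat % R, Nat.mod_lt _ hR⟩)
  let dt : (Fin m → Fin (n0 + 1)) × (Fin m → (Fin m → Fin R) × (Fin m → Fin R)) ×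
      (Fin m → Bool × Fin (k + 1)) := (lam, uv, fun l => (σ l, τ l))
  -- polynomials of the levels without jump
  have hpoly : ∀ i : ℕ, ∃ c : ℕ → ℝ, i < n0 → ∀ j : ℕ, ∃ z : ℤ,
      ((F i (fun l => ((dig B Λ Z i l a : ℤ) : ZMod (p i)) +
        (j : ZMod (p i)) * ((V l : ℤ) : ZMod (p i)))).val : ℝ) / (p i : ℝ) = newt D c j + z := by
    intro i
    by_cases hi : i < n0
    · obtain ⟨c, hc⟩ := form_real (p i) m (e i) D (hp i hi) (heD i hi) (F i) (hF i hi)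
        (fun l => ((dig B Λ Z i l a : ℤ) : ZMod (p i))) (fun l => ((V l : ℤ) : ZMod (p i)))
      exact ⟨c, fun _ => hc⟩
    · exact ⟨0, fun h => absurd h hi⟩
  choose c hc using hpoly
  refine ⟨dt, fun s => ∑ i ∈ (range n0).filter (fun i => ¬ ∃ l, (lam l : ℕ) = i), c i s,
    fun j hj => ?_⟩
  have hz : ∀ i : ℕ, ∃ z : ℤ, i < n0 → (¬ ∃ l, (lam l : ℕ) = i) →
      ((F i (fun l => ((dig B Λ Z i l (a + j * d) : ℤ) : ZMod (p i)))).val : ℝ) / (p i : ℝ) =
        newt D (c i) j + z := by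
    intro i
    by_cases hi : i < n0
    · obtain ⟨z, hz⟩ := hc i hi j
      refine ⟨z, fun _ hno => ?_⟩
      rw [← hz]
      congr 3
      congr 1
      funext l
      rw [hdig l i hi j hj, if_neg (fun h => hno ⟨l, h.1⟩)]
      push_cast
      ring
    · exact ⟨0, fun h => absurd h hi⟩
  choose z hz using hz
  refine ⟨∑ i ∈ (range n0).filter (fun i => ¬ ∃ l, (lam l : ℕ) = i), z i, ?_⟩
  unfold QQ phiJ
  rw [newt_sum]
  rw [← sum_filter_add_sum_filter_not (range n0) (fun i => ∃ l, (lam l : ℕ) = i)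
    (fun i => ((F i (fun l => ((dig B Λ Z i l (a + j * d) : ℤ) : ZMod (p i)))).val : ℝ) / (p i : ℝ))]
  have h1 : ∑ i ∈ (range n0).filter (fun i => ¬ ∃ l, (lam l : ℕ) = i),
      ((F i (fun l => ((dig B Λ Z i l (a + j * d) : ℤ) : ZMod (p i)))).val : ℝ) / (p i : ℝ) =
      ∑ i ∈ (range n0).filter (fun i => ¬ ∃ l, (lam l : ℕ) = i), newt D (c i) j +
      ((∑ i ∈ (range n0).filter (fun i => ¬ ∃ l, (lam l : ℕ) = i), z i : ℤ) : ℝ) := by
    push_cast
    rw [← sum_add_distrib]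
    refine sum_congr rfl fun i hi => ?_
    rw [mem_filter, mem_range] at hi
    exact hz i hi.1 hi.2
  rw [h1, sum_filter]
  have h2 : ∀ i ∈ range n0, (if (∃ l, (lam l : ℕ) = i) then
      ((F i (fun l => ((dig B Λ Z i l (a + j * d) : ℤ) : ZMod (p i)))).val : ℝ) / (p i : ℝ) else 0) =
      (if h : ∃ l, (dt.1 l : ℕ) = i then
    ((F i (fun l' => ((((dt.2.1 h.choose).1 l' : Fin R) : ℕ) : ZMod (p i)) +
      (j : ZMod (p i)) * ((((dt.2.1 h.choose).2 l' : Fin R) : ℕ) : ZMod (p i)) +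
      ((if (dt.1 l' : ℕ) = i ∧ ((dt.2.2 l').2 : ℕ) ≤ j then sgn (dt.2.2 l').1 else 0 : ℤ) :
        ZMod (p i)))).val : ℝ) / (p i : ℝ) else 0) := by
    intro i hi
    rw [mem_range] at hi
    by_cases h : ∃ l, (lam l : ℕ) = i
    · rw [if_pos h]
      have h' : ∃ l, (dt.1 l : ℕ) = i := h
      rw [dif_pos h']
      have hsp : (lam h'.choose : ℕ) = i := h'.choose_spec
      congr 3
      congr 1
      funext l'
      rw [hdig l' i hi j hj]
      have hu : ((((dt.2.1 h'.choose).1 l' : Fin R) : ℕ) : ZMod (p i)) =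
          ((dig B Λ Z i l' a : ℤ) : ZMod (p i)) := by
        simp only [dt, uv, hsp]
        exact cast_emod_toNat _ _ _ (hp i hi).one_le (hpR i hi)
      have hv : ((((dt.2.1 h'.choose).2 l' : Fin R) : ℕ) : ZMod (p i)) =
          ((V l' : ℤ) : ZMod (p i)) := by
        simp only [dt, uv, hsp]
        exact cast_emod_toNat _ _ _ (hp i hi).one_le (hpR i hi)
      rw [hu, hv]
      simp only [dt]
      push_cast
      ring
    · rw [if_neg h]
      have h' : ¬ ∃ l, (dt.1 l : ℕ) = i := h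
      rw [dif_neg h']
  rw [sum_congr rfl h2]
  ring

open Classical in
/-- PART Q (patterns of the phase along slow progressions), uses P. -/
theorem slow_count (m n0 D B Λ Z R k : ℕ) [NeZero R] (hk : 1 ≤ k) (p : ℕ → ℕ) (hB : 1 ≤ B)
    (hn0 : n0 + 1 ≤ Z) (hp : ∀ i < n0, (p i).Prime) (hpR : ∀ i < n0, p i ≤ R)
    (F : (i : ℕ) → (Fin m → ZMod (p i)) → ZMod (p i)) (e : ℕ → ℕ) (heD : ∀ i < n0, e i ≤ D)
    (hF : ∀ i < n0, IsForm (p i) m (e i) (F i)) :
    ∃ S : Finset (Fin k → ZMod R),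
      S.card ≤ (n0 + 2) ^ (n0 + m) * (R ^ (2 * m) * (2 * k + 2) ^ m) ^ m *
        (R * ((D + 1) * k ^ D) * (k + 1)) ^ (D + 1) ∧
      ∀ a d : ℕ, Slow m B Λ Z k d →
        (fun j : Fin k => cell R (QQ m n0 p F B Λ Z (a + j * d))) ∈ S := by
  have hR : 0 < R := NeZero.pos R
  refine ⟨(univ : Finset ((Fin m → Fin (n0 + 1)) × (Fin m → (Fin m → Fin R) × (Fin m → Fin R)) ×
      (Fin m → Bool × Fin (k + 1)))).biUnion (fun dt =>
        univ.filter (fun π : Fin k → ZMod R => ∃ e : ℕ → ℝ, ∀ t : Fin k,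
          π t = cell R (newt D e t + phiJ m n0 k R p F dt t))), ?_, ?_⟩
  · refine card_biUnion_le.trans ?_
    refine (sum_le_sum fun dt _ => pat_offset R k D hk (fun t => phiJ m n0 k R p F dt t)).trans ?_
    rw [sum_const, smul_eq_mul]
    apply Nat.mul_le_mul_right
    rw [card_univ]
    simp only [Fintype.card_prod, Fintype.card_fun, Fintype.card_fin, Fintype.card_bool]
    rw [← mul_assoc, mul_pow (R ^ (2 * m)), ← mul_assoc]
    refine Nat.mul_le_mul (Nat.mul_le_mul ?_ ?_) ?_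
    · exact (Nat.pow_le_pow_left (by omega) m).trans (Nat.pow_le_pow_right (by omega) (by omega))
    · rw [← pow_add, two_mul]
    · rw [show 2 * (k + 1) = 2 * k + 2 by ring, ← pow_mul]
      exact Nat.pow_le_pow_right (by omega) (Nat.le_mul_self m)
  · intro a d hs
    obtain ⟨dt, c, h⟩ := QQ_slow m n0 D B Λ Z R k hk p hB hn0 hp hpR F e heD hF a d hs
    rw [mem_biUnion]
    refine ⟨dt, mem_univ _, ?_⟩
    rw [mem_filter]
    refine ⟨mem_univ _, c, fun t => ?_⟩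
    obtain ⟨z, hz⟩ := h t t.2
    show cell R (QQ m n0 p F B Λ Z (a + (t : ℕ) * d)) = _
    rw [hz, cell_add_int]

end Vale.Agent.VdWF
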