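import Vale.Agent.VdWF.PartQ

/-!
# P053 (full answer), part R: zones and the third component along slow progressions
-/

namespace Vale.Agent.VdWF

open Finset Vale.Agent.VdW

open Classical in
/-- number of coordinates that have jumped -/
noncomputable def sJ {m k Z : ℕ} (zd : Fin m → ZMod Z × ZMod Z × Fin (k + 1)) (j : ℕ) :
    Fin (m + 1) :=
  ⟨(univ.filter (fun l => ((zd l).2.2 : ℕ) ≤ j)).card, by
    have := card_le_univ (univ.filter (fun l : Fin m => ((zd l).2.2 : ℕ) ≤ j))
    simp only [Fintype.card_fin] at this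
    omega⟩

/-- the zone vector given by jump data -/
def zJ {m k Z : ℕ} (zd : Fin m → ZMod Z × ZMod Z × Fin (k + 1)) (j : ℕ) : Fin m → ZMod Z :=
  fun l => if ((zd l).2.2 : ℕ) ≤ j then (zd l).2.1 else (zd l).1

theorem zJ_eq {m k Z : ℕ} (zd : Fin m → ZMod Z × ZMod Z × Fin (k + 1)) (j j' : ℕ)
    (h : sJ zd j = sJ zd j') : zJ zd j = zJ zd j' := by
  classical
  wlog hjj : j ≤ j' generalizing j j'
  · exact (this j' j h.symm (by omega)).symm
  have h1 : (univ.filter (fun l => ((zd l).2.2 : ℕ) ≤ j)) ⊆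
      (univ.filter (fun l => ((zd l).2.2 : ℕ) ≤ j')) := by
    intro l hl
    rw [mem_filter] at hl ⊢
    exact ⟨hl.1, hl.2.trans hjj⟩
  have h2 : (univ.filter (fun l => ((zd l).2.2 : ℕ) ≤ j)) =
      (univ.filter (fun l => ((zd l).2.2 : ℕ) ≤ j')) := by
    refine eq_of_subset_of_card_le h1 (le_of_eq ?_)
    have := congrArg Fin.val h
    unfold sJ at this
    simp only at this
    convert this.symm
  funext l
  unfold zJ
  have h3 : ((zd l).2.2 : ℕ) ≤ j ↔ ((zd l).2.2 : ℕ) ≤ j' := by
    have := Finset.ext_iff.mp h2 l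
    simpa using this
  simp only [h3]

open Classical in
/-- PART R (zones and the third component along slow progressions), uses P with `D = 1`. -/
theorem slow_count_zone (m B Λ Z R k : ℕ) [NeZero R] [NeZero Z] (hk : 1 ≤ k) (hB : 1 ≤ B)
    (θ : (Fin m → ZMod Z) → ℝ) :
    ∃ S : Finset (Fin k → (Fin m → ZMod Z) × ZMod R),
      S.card ≤ (Z ^ 2 * (k + 1)) ^ m * ((R * (2 * k) * (k + 1)) ^ 2) ^ (m + 1) ∧
      ∀ a d : ℕ, Slow m B Λ Z k d →
        (fun j : Fin k => (zone m B Λ Z (a + j * d),
          cell R (θ (zone m B Λ Z (a + j * d)) * ((a + j * d : ℕ) : ℝ)))) ∈ S := by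
  have hZ : 1 ≤ Z := NeZero.pos Z
  set 𝓛 : Finset (Fin k → ZMod R) := univ.filter (fun π : Fin k → ZMod R => ∃ e : ℕ → ℝ,
    ∀ t : Fin k, π t = cell R (newt 1 e t + (fun _ : Fin k => (0 : ℝ)) t)) with h𝓛
  have h𝓛c : 𝓛.card ≤ (R * (2 * k) * (k + 1)) ^ 2 := by
    have := pat_offset R k 1 hk (fun _ => 0)
    rw [← h𝓛] at this
    simpa using this
  refine ⟨((univ : Finset (Fin m → ZMod Z × ZMod Z × Fin (k + 1))) ×ˢ
      Fintype.piFinset (fun _ : Fin (m + 1) => 𝓛)).image
      (fun x => fun j : Fin k => (zJ x.1 j, x.2 (sJ x.1 j) j)), ?_, ?_⟩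
  · refine card_image_le.trans ?_
    rw [card_product, Fintype.card_piFinset]
    refine Nat.mul_le_mul ?_ ?_
    · rw [card_univ]
      simp only [Fintype.card_prod, Fintype.card_fun, Fintype.card_fin, ZMod.card]
      rw [show Z * (Z * (k + 1)) = Z ^ 2 * (k + 1) by ring]
    · rw [prod_const, card_univ, Fintype.card_fin]
      exact Nat.pow_le_pow_left h𝓛c _
  · intro a d hs
    choose V σ τ hσ hτ hzc using fun l : Fin m => zc_slow m B Λ Z k hk hB hZ a d hs l l.2
    let zd : Fin m → ZMod Z × ZMod Z × Fin (k + 1) := fun l =>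
      (((zc B Λ Z l a : ℤ) : ZMod Z), ((zc B Λ Z l a + σ l : ℤ) : ZMod Z),
        ⟨τ l, Nat.lt_succ_of_le (hτ l)⟩)
    have hzone : ∀ j < k, zone m B Λ Z (a + j * d) = zJ zd j := by
      intro j hj
      funext l
      unfold zone zJ
      rw [hzc l j hj]
      simp only [zd]
      by_cases h : τ l ≤ j
      · rw [if_pos h, if_pos h]
        push_cast
        simp
      · rw [if_neg h, if_neg h]
        push_cast
        simp
    let θs : Fin (m + 1) → ℝ := fun s =>
      if h : ∃ j, j < k ∧ sJ zd j = s then θ (zone m B Λ Z (a + h.choose * d)) else 0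
    let ρ : Fin (m + 1) → Fin k → ZMod R := fun s t =>
      cell R (newt 1 (fun i => if i = 0 then θs s * a else θs s * d) t + 0)
    rw [mem_image]
    refine ⟨(zd, ρ), ?_, ?_⟩
    · rw [mem_product]
      refine ⟨mem_univ _, ?_⟩
      rw [Fintype.mem_piFinset]
      intro s
      rw [h𝓛, mem_filter]
      exact ⟨mem_univ _, _, fun t => rfl⟩
    · funext j
      have hj := j.2
      simp only
      rw [hzone j hj]
      congr 1
      have hex : ∃ j', j' < k ∧ sJ zd j' = sJ zd j := ⟨j, hj, rfl⟩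
      have hθ : θs (sJ zd j) = θ (zJ zd j) := by
        simp only [θs]
        rw [dif_pos hex, hzone _ hex.choose_spec.1]
        congr 1
        exact zJ_eq zd _ _ hex.choose_spec.2
      simp only [ρ]
      rw [hθ]
      congr 1
      unfold newt
      rw [sum_range_succ, sum_range_one]
      simp only [Nat.choose_zero_right, Nat.choose_one_right]
      push_cast
      simp
      ring

end Vale.Agent.VdWF
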