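import Vale.Agent.VdWF.Defs

/-!
# P053 (full answer), part U: union bound for the random override
-/

namespace Vale.Agent.VdWF

open Finset Vale.Agent.VdW

theorem card_allowed {V : Type} [Fintype V] [DecidableEq V] (q : ℕ) (hq : 1 ≤ q) (A : Finset V)
    (T : Finset (Fin q)) :
    ((univ.filter (fun ψ : V → Fin q => ∀ v ∈ A, ψ v ∈ T)).card : ℝ) =
      ((T.card : ℝ) / q) ^ A.card * (q : ℝ) ^ Fintype.card V := by
  have h1 : (univ.filter (fun ψ : V → Fin q => ∀ v ∈ A, ψ v ∈ T)) =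
      Fintype.piFinset (fun v => if v ∈ A then T else univ) := by
    ext ψ
    simp only [mem_filter, mem_univ, true_and, Fintype.mem_piFinset]
    constructor
    · intro h v
      by_cases hv : v ∈ A
      · simp [hv, h v hv]
      · simp [hv]
    · intro h v hv
      have := h v
      simpa [hv] using this
  have hq0 : (q : ℝ) ≠ 0 := by positivity
  rw [h1, Fintype.card_piFinset]
  push_cast
  have h2 : ∀ v : V, (((if v ∈ A then T else univ : Finset (Fin q)).card : ℕ) : ℝ) =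
      (if v ∈ A then ((T.card : ℝ) / q) else 1) * q := by
    intro v
    by_cases hv : v ∈ A
    · simp only [hv, if_true]; field_simp
    · simp [hv]
  simp_rw [h2]
  rw [Finset.prod_mul_distrib, Finset.prod_const, Finset.card_univ]
  congr 1
  rw [Finset.prod_ite_mem]
  simp [div_pow]

theorem exists_Psi {V : Type} [Fintype V] [DecidableEq V] (q : ℕ) (hq : 2 ≤ q)
    (S F : Finset (Finset V)) (s0 s1 : ℕ) (hS : ∀ A ∈ S, s0 ≤ A.card) (hF : ∀ A ∈ F, s1 ≤ A.card)
    (h : 2 * (S.card : ℝ) * (1 - 1 / (q : ℝ)) ^ s0 + 2 * (F.card : ℝ) * (1 / (q : ℝ)) ^ s1 < 1) :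
    ∃ Ψ : V → ℕ, (∀ A ∈ S, (∃ v ∈ A, Ψ v = 0) ∧ (∃ v ∈ A, Ψ v = 1)) ∧
      (∀ A ∈ F, (∃ v ∈ A, Ψ v ≠ 0) ∧ (∃ v ∈ A, Ψ v ≠ 1)) := by
  classical
  have hqr : (2 : ℝ) ≤ q := by exact_mod_cast hq
  have hq0 : (0 : ℝ) < q := by linarith
  set Q : ℝ := (q : ℝ) ^ Fintype.card V with hQ
  have hQ0 : 0 < Q := by positivity
  -- events
  let E1 : Finset V → Fin q → Finset (V → Fin q) := fun A c =>
    univ.filter (fun ψ : V → Fin q => ∀ v ∈ A, ψ v ∈ (univ.erase c : Finset (Fin q)))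
  let E2 : Finset V → Fin q → Finset (V → Fin q) := fun A c =>
    univ.filter (fun ψ : V → Fin q => ∀ v ∈ A, ψ v ∈ ({c} : Finset (Fin q)))
  have hE1 : ∀ A ∈ S, ∀ c, ((E1 A c).card : ℝ) ≤ (1 - 1 / (q : ℝ)) ^ s0 * Q := by
    intro A hA c
    have h1 := card_allowed q (by omega) A (univ.erase c : Finset (Fin q))
    have h2 : (((univ.erase c : Finset (Fin q)).card : ℝ) / q) = 1 - 1 / (q : ℝ) := by
      rw [Finset.card_erase_of_mem (mem_univ c), Finset.card_univ, Fintype.card_fin,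
        Nat.cast_sub (by omega)]
      field_simp
      push_cast
      ring
    rw [h2] at h1
    change ((E1 A c).card : ℝ) = _ at h1
    rw [h1]
    have h3 : 0 ≤ 1 - 1 / (q : ℝ) := by
      have : 1 / (q : ℝ) ≤ 1 := by rw [div_le_one hq0]; linarith
      linarith
    have h4 : 1 - 1 / (q : ℝ) ≤ 1 := by
      have : 0 ≤ 1 / (q : ℝ) := by positivity
      linarith
    exact mul_le_mul_of_nonneg_right (pow_le_pow_of_le_one h3 h4 (hS A hA)) hQ0.le
  have hE2 : ∀ A ∈ F, ∀ c, ((E2 A c).card : ℝ) ≤ (1 / (q : ℝ)) ^ s1 * Q := by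
    intro A hA c
    have h1 := card_allowed q (by omega) A ({c} : Finset (Fin q))
    rw [Finset.card_singleton, Nat.cast_one] at h1
    change ((E2 A c).card : ℝ) = _ at h1
    rw [h1]
    have h3 : 0 ≤ 1 / (q : ℝ) := by positivity
    have h4 : 1 / (q : ℝ) ≤ 1 := by rw [div_le_one hq0]; linarith
    exact mul_le_mul_of_nonneg_right (pow_le_pow_of_le_one h3 h4 (hF A hA)) hQ0.le
  let c0 : Fin q := ⟨0, by omega⟩
  let c1 : Fin q := ⟨1, by omega⟩
  let bad : Finset (V → Fin q) :=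
    (S.biUnion fun A => E1 A c0 ∪ E1 A c1) ∪ (F.biUnion fun A => E2 A c0 ∪ E2 A c1)
  have hbad : (bad.card : ℝ) < Q := by
    have b1 : ((S.biUnion fun A => E1 A c0 ∪ E1 A c1).card : ℝ) ≤
        S.card * (2 * ((1 - 1 / (q : ℝ)) ^ s0 * Q)) := by
      have h1 : (S.biUnion fun A => E1 A c0 ∪ E1 A c1).card ≤
          ∑ A ∈ S, (E1 A c0 ∪ E1 A c1).card := Finset.card_biUnion_le
      calc ((S.biUnion fun A => E1 A c0 ∪ E1 A c1).card : ℝ)
          ≤ ∑ A ∈ S, ((E1 A c0 ∪ E1 A c1).card : ℝ) := by exact_mod_cast h1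
        _ ≤ ∑ _A ∈ S, (2 * ((1 - 1 / (q : ℝ)) ^ s0 * Q)) := by
            apply Finset.sum_le_sum
            intro A hA
            have h2 : ((E1 A c0 ∪ E1 A c1).card : ℝ) ≤ (E1 A c0).card + (E1 A c1).card := by
              exact_mod_cast Finset.card_union_le _ _
            linarith [hE1 A hA c0, hE1 A hA c1]
        _ = _ := by rw [Finset.sum_const, nsmul_eq_mul]
    have b2 : ((F.biUnion fun A => E2 A c0 ∪ E2 A c1).card : ℝ) ≤
        F.card * (2 * ((1 / (q : ℝ)) ^ s1 * Q)) := by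
      have h1 : (F.biUnion fun A => E2 A c0 ∪ E2 A c1).card ≤
          ∑ A ∈ F, (E2 A c0 ∪ E2 A c1).card := Finset.card_biUnion_le
      calc ((F.biUnion fun A => E2 A c0 ∪ E2 A c1).card : ℝ)
          ≤ ∑ A ∈ F, ((E2 A c0 ∪ E2 A c1).card : ℝ) := by exact_mod_cast h1
        _ ≤ ∑ _A ∈ F, (2 * ((1 / (q : ℝ)) ^ s1 * Q)) := by
            apply Finset.sum_le_sum
            intro A hA
            have h2 : ((E2 A c0 ∪ E2 A c1).card : ℝ) ≤ (E2 A c0).card + (E2 A c1).card := by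
              exact_mod_cast Finset.card_union_le _ _
            linarith [hE2 A hA c0, hE2 A hA c1]
        _ = _ := by rw [Finset.sum_const, nsmul_eq_mul]
    have b3 : (bad.card : ℝ) ≤ ((S.biUnion fun A => E1 A c0 ∪ E1 A c1).card : ℝ) +
        ((F.biUnion fun A => E2 A c0 ∪ E2 A c1).card : ℝ) := by
      exact_mod_cast Finset.card_union_le _ _
    have b4 := mul_lt_mul_of_pos_right h hQ0
    rw [one_mul] at b4
    nlinarith
  have hex : ∃ ψ : V → Fin q, ψ ∉ bad := by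
    by_contra hcon
    push Not at hcon
    have h1 : bad = univ := Finset.eq_univ_of_forall hcon
    rw [h1, Finset.card_univ, Fintype.card_fun, Fintype.card_fin] at hbad
    push_cast at hbad
    exact lt_irrefl _ hbad
  obtain ⟨ψ, hψ⟩ := hex
  have hψ1 : ∀ A ∈ S, ∀ c, c = c0 ∨ c = c1 → ∃ v ∈ A, ψ v = c := by
    intro A hA c hc
    by_contra hcon
    push Not at hcon
    apply hψ
    refine Finset.mem_union_left _ (Finset.mem_biUnion.2 ⟨A, hA, ?_⟩)
    have h1 : ψ ∈ E1 A c := by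
      simp only [E1, mem_filter, mem_univ, true_and, mem_erase, ne_eq, and_true]
      exact hcon
    rcases hc with rfl | rfl
    · exact Finset.mem_union_left _ h1
    · exact Finset.mem_union_right _ h1
  have hψ2 : ∀ A ∈ F, ∀ c, c = c0 ∨ c = c1 → ∃ v ∈ A, ψ v ≠ c := by
    intro A hA c hc
    by_contra hcon
    push Not at hcon
    apply hψ
    refine Finset.mem_union_right _ (Finset.mem_biUnion.2 ⟨A, hA, ?_⟩)
    have h1 : ψ ∈ E2 A c := by
      simp only [E2, mem_filter, mem_univ, true_and, mem_singleton]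
      exact hcon
    rcases hc with rfl | rfl
    · exact Finset.mem_union_left _ h1
    · exact Finset.mem_union_right _ h1
  refine ⟨fun v => (ψ v : ℕ), ?_, ?_⟩
  · intro A hA
    obtain ⟨v, hv, hv'⟩ := hψ1 A hA c0 (Or.inl rfl)
    obtain ⟨w, hw, hw'⟩ := hψ1 A hA c1 (Or.inr rfl)
    exact ⟨⟨v, hv, by simp [hv', c0]⟩, ⟨w, hw, by simp [hw', c1]⟩⟩
  · intro A hA
    obtain ⟨v, hv, hv'⟩ := hψ2 A hA c0 (Or.inl rfl)
    obtain ⟨w, hw, hw'⟩ := hψ2 A hA c1 (Or.inr rfl)
    refine ⟨⟨v, hv, fun h0 => hv' (Fin.ext h0)⟩, ⟨w, hw, fun h0 => hw' (Fin.ext h0)⟩⟩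

end Vale.Agent.VdWF
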