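import Vale.Agent.VdWF.PartC
import Vale.Agent.VdWF.PartL
import Vale.Agent.VdWF.PartQ
import Vale.Agent.VdWF.PartR
import Vale.Agent.VdWF.PartT
import Vale.Agent.VdWF.PartU

/-!
# P053 (full answer), Part V: the main reduction
-/

namespace Vale.Agent.VdWF

open Finset Vale.Agent.VdW

theorem vmem_old {κ : Type} (k : ℕ) (key : ℕ → κ) (j : ℕ) :
    j ∈ old k key ↔ j < k ∧ ∃ i < j, key i = key j := by
  classical
  unfold old
  rw [Finset.mem_filter, Finset.mem_range]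

/-- number of distinct keys on a set of points -/
theorem vcard_le_image_add_old {κ : Type} [DecidableEq κ] (k : ℕ) (key : ℕ → κ) (X : Finset ℕ)
    (hX : X ⊆ range k) : X.card ≤ (X.image key).card + (old k key).card := by
  classical
  have h1 : (X \ old k key).card ≤ (X.image key).card := by
    apply Finset.card_le_card_of_injOn key
    · intro j hj
      have hj' := Finset.mem_sdiff.1 (Finset.mem_coe.1 hj)
      exact Finset.mem_coe.2 (Finset.mem_image_of_mem _ hj'.1)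
    · intro i hi j hj hij
      have hi' := Finset.mem_sdiff.1 (Finset.mem_coe.1 hi)
      have hj' := Finset.mem_sdiff.1 (Finset.mem_coe.1 hj)
      rcases lt_trichotomy i j with h | h | h
      · exact absurd ((vmem_old k key j).2 ⟨Finset.mem_range.1 (hX hj'.1), i, h, hij⟩) hj'.2
      · exact h
      · exact absurd ((vmem_old k key i).2 ⟨Finset.mem_range.1 (hX hi'.1), j, h, hij.symm⟩) hi'.2
  have h2 : X.card ≤ (X \ old k key).card + (old k key).card := by
    have := Finset.card_le_card_sdiff_add_card (s := X) (t := old k key)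
    omega
  omega

theorem vexists_forms (m n0 : ℕ) (hm : 1 ≤ m) (p : ℕ → ℕ) (hp : ∀ i < n0, (p i).Prime)
    (s : ℕ) : ∃ F : (i : ℕ) → (Fin m → ZMod (p i)) → ZMod (p i),
      ∀ i < n0, IsForm (p i) m (m + i + s) (F i) := by
  classical
  refine ⟨fun i => if h : i < n0 then
    (exists_form (p i) m (m + i + s) (hp i h) (by omega) (by omega)).choose
    else fun _ => 0, ?_⟩
  intro i hi
  have := (exists_form (p i) m (m + i + s) (hp i hi) (by omega) (by omega)).choose_spec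
  simpa [hi] using this

/-- PART V (main reduction) -/
theorem reduction (q m n0 D J L1 Z L0 H Λ B R k N : ℕ) (p : ℕ → ℕ) (hq : 2 ≤ q) (hm : 1 ≤ m)
    (hn0 : 1 ≤ n0) (hR : 1 ≤ R)
    (hp : ∀ i < n0, (p i).Prime)
    (hinj : ∀ i < n0, ∀ j < n0, p i = p j → i = j) (hB : B = ∏ i ∈ range n0, p i)
    (hD : D = m + n0) (hC0 : ∀ i < n0, CC D k < p i) (hC1 : ∀ i < n0, p i * CC D k < R)
    (hZ : 201 * L1 ^ 2 ≤ Z) (hZ2 : n0 + 1 ≤ Z) (hL1 : 1 ≤ L1) (hJ : 60 * J ≤ L1)
    (hL0 : 2 ≤ L0) (hH : H = 800 * L0 * Z) (hΛ : Λ = L0.factorial)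
    (hL : 2 * (((H * (2 * L0) * (L0 + 1)) ^ 2) ^ (2 * m) : ℝ) * (9 / 10) ^ L0 < 1)
    (hk1 : 30 * (L1 ^ m * Z ^ m * D ^ 2) ≤ k) (hk2 : 100 * L1 ≤ k)
    (hk3 : 100 * L0 * (Λ + 1) ≤ k)
    (hN : L1 ^ m * (Λ * N) < B ^ m)
    (hcount : (N : ℝ) ^ 2 * ((Z : ℝ) ^ m) ^ J * (3 * (k : ℝ) ^ 2 / R) ^ J < 1)
    (hslow : 2 * (((((n0 + 2) ^ (n0 + m) * (R ^ (2 * m) * (2 * k + 2) ^ m) ^ m *
        (R * ((D + 1) * k ^ D) * (k + 1)) ^ (D + 1)) ^ 2 *
        ((Z ^ 2 * (k + 1)) ^ m * ((R * (2 * k) * (k + 1)) ^ 2) ^ (m + 1)) : ℕ)) : ℝ) *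
        (1 - 1 / (q : ℝ)) ^ (k / 2) < 1 / 2)
    (hfast : 4 * (N : ℝ) ^ 2 * (1 / (q : ℝ)) ^ (k / 6) < 1 / 2) :
    ¬ VW 2 k N := by
  classical
  have : NeZero R := ⟨by omega⟩
  have hL12 : 1 ≤ L1 ^ 2 := Nat.one_le_pow _ _ hL1
  have hZ1 : 1 ≤ Z := by omega
  have : NeZero Z := ⟨by omega⟩
  have hk : 1 ≤ k := by omega
  have hk100 : 100 ≤ k := by omega
  have hΛ1 : 1 ≤ Λ := by rw [hΛ]; exact Nat.succ_le_of_lt (Nat.factorial_pos _)
  have hB1 : 1 ≤ B := by
    rw [hB]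
    exact Nat.succ_le_of_lt (Finset.prod_pos fun i hi => (hp i (Finset.mem_range.1 hi)).pos)
  have hCC : 1 ≤ CC D k := by
    unfold CC
    have h1 : 1 ≤ D := by omega
    exact Nat.succ_le_of_lt (Nat.mul_pos (Nat.pow_pos (by omega)) (Nat.pow_pos (by omega)))
  have hpR : ∀ i < n0, p i ≤ R := by
    intro i hi
    have h1 := hC1 i hi
    have h2 : p i * 1 ≤ p i * CC D k := Nat.mul_le_mul_left _ hCC
    omega
  obtain ⟨F, hF⟩ := vexists_forms m n0 hm p hp 0
  obtain ⟨F', hF'⟩ := vexists_forms m n0 hm p hp 1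
  have hF0 : ∀ i < n0, IsForm (p i) m (m + i) (F i) := fun i hi => hF i hi
  obtain ⟨θ, hθ⟩ := old_le m n0 D B Λ Z R k N L1 J p hm hp hinj hB (by omega) hC0 hC1 F F' hF0
    hF' hZ hL1 hJ hΛ1 hk1 hk2 hR hN hcount
  obtain ⟨G, hG⟩ := balanced m Z L0 H Λ k hZ1 hL0 hH hΛ hL hk3
  obtain ⟨S1, hS1c, hS1⟩ := slow_count m n0 D B Λ Z R k hk p hB1 hZ2 hp hpR F (fun i => m + i)
    (fun i hi => by show m + i ≤ D; omega) hF0
  obtain ⟨S2, hS2c, hS2⟩ := slow_count m n0 D B Λ Z R k hk p hB1 hZ2 hp hpR F'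
    (fun i => m + i + 1) (fun i hi => by show m + i + 1 ≤ D; omega) hF'
  obtain ⟨S3, hS3c, hS3⟩ := slow_count_zone m B Λ Z R k hk hB1 θ
  set X1 : ℕ := (n0 + 2) ^ (n0 + m) * (R ^ (2 * m) * (2 * k + 2) ^ m) ^ m *
        (R * ((D + 1) * k ^ D) * (k + 1)) ^ (D + 1) with hX1
  set X2 : ℕ := (Z ^ 2 * (k + 1)) ^ m * ((R * (2 * k) * (k + 1)) ^ 2) ^ (m + 1) with hX2
  -- the key
  set key : ℕ → (ZMod R × ZMod R) × ((Fin m → ZMod Z) × ZMod R) := fun n =>
    ((cell R (QQ m n0 p F B Λ Z n), cell R (QQ m n0 p F' B Λ Z n)), (zone m B Λ Z n,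
      cell R (θ (zone m B Λ Z n) * (n : ℝ)))) with hkey
  have hold : ∀ a d : ℕ, 1 ≤ a → 1 ≤ d → a + (k - 1) * d ≤ N →
      30 * (old k (fun j => key (a + j * d))).card ≤ k := hθ
  -- slow edges
  set S : Finset (Finset ((ZMod R × ZMod R) × ((Fin m → ZMod Z) × ZMod R))) :=
    (((S1 ×ˢ S2) ×ˢ S3).image (fun x => (univ : Finset (Fin k)).image
      (fun j => ((x.1.1 j, x.1.2 j), x.2 j)))).filter (fun A => k / 2 ≤ A.card) with hS
  -- fast edges
  set E : Finset (Finset ((ZMod R × ZMod R) × ((Fin m → ZMod Z) × ZMod R))) :=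
    (((Finset.Icc 1 N ×ˢ Finset.Icc 1 N) ×ˢ (univ : Finset Bool)).image (fun x =>
      ((range k).filter (fun j => G (gcell m B Λ H (x.1.1 + j * x.1.2)) = x.2)).image
        (fun j => key (x.1.1 + j * x.1.2)))).filter (fun A => k / 6 ≤ A.card) with hE
  have hScard : S.card ≤ X1 ^ 2 * X2 := by
    calc S.card ≤ ((S1 ×ˢ S2) ×ˢ S3).card := (Finset.card_filter_le _ _).trans
          Finset.card_image_le
      _ = S1.card * S2.card * S3.card := by rw [Finset.card_product, Finset.card_product]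
      _ ≤ X1 * X1 * X2 := Nat.mul_le_mul (Nat.mul_le_mul hS1c hS2c) hS3c
      _ = X1 ^ 2 * X2 := by ring
  have hEcard : E.card ≤ 2 * N ^ 2 := by
    calc E.card ≤ ((Finset.Icc 1 N ×ˢ Finset.Icc 1 N) ×ˢ (univ : Finset Bool)).card :=
          (Finset.card_filter_le _ _).trans Finset.card_image_le
      _ = 2 * N ^ 2 := by
          rw [Finset.card_product, Finset.card_product, Nat.card_Icc, Finset.card_univ,
            Fintype.card_bool, Nat.add_sub_cancel]; ring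
  have hq0 : (0 : ℝ) < q := by exact_mod_cast (by omega : 0 < q)
  have hq1 : (1 : ℝ) / q ≤ 1 := by
    rw [div_le_one hq0]; exact_mod_cast (by omega : 1 ≤ q)
  obtain ⟨Ψ, hΨ0, hΨ1⟩ := exists_Psi q hq S E (k / 2) (k / 6)
    (fun A hA => (Finset.mem_filter.1 hA).2) (fun A hA => (Finset.mem_filter.1 hA).2) (by
      have h1 : (S.card : ℝ) ≤ ((X1 ^ 2 * X2 : ℕ) : ℝ) := by exact_mod_cast hScard
      have h2 : (E.card : ℝ) ≤ 2 * (N : ℝ) ^ 2 := by exact_mod_cast hEcard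
      have h3 : (0 : ℝ) ≤ (1 - 1 / (q : ℝ)) ^ (k / 2) := pow_nonneg (by linarith) _
      have h4 : (0 : ℝ) ≤ (1 / (q : ℝ)) ^ (k / 6) := by positivity
      have h5 := mul_le_mul_of_nonneg_right h1 h3
      have h6 := mul_le_mul_of_nonneg_right h2 h4
      linarith)
  -- the colouring
  intro hVW
  set col : ℕ → Fin 2 := fun n => if Ψ (key n) = 0 then 0 else if Ψ (key n) = 1 then 1 else
    if G (gcell m B Λ H n) = true then 1 else 0 with hcol
  obtain ⟨a, d, ha, hd, had, hmono⟩ := hVW col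
  have hold' := hold a d ha hd had
  have hcol0 : ∀ n, Ψ (key n) = 0 → col n = 0 := fun n h => by simp [hcol, h]
  have hcol1 : ∀ n, Ψ (key n) = 1 → col n = 1 := fun n h => by simp [hcol, h]
  have hcolT : ∀ n, Ψ (key n) ≠ 0 → G (gcell m B Λ H n) = true → col n = 1 := fun n h h' => by
    simp [hcol, h, h']
  have hcolF : ∀ n, Ψ (key n) ≠ 1 → G (gcell m B Λ H n) = false → col n = 0 := fun n h h' => by
    simp [hcol, h, h']
  by_cases hsl : Slow m B Λ Z k d
  · -- slow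
    set A : Finset ((ZMod R × ZMod R) × ((Fin m → ZMod Z) × ZMod R)) :=
      (univ : Finset (Fin k)).image (fun j : Fin k => key (a + (j : ℕ) * d)) with hA
    have hAimg : A = (range k).image (fun j => key (a + j * d)) := by
      ext v
      simp only [hA, Finset.mem_image, Finset.mem_univ, true_and, Finset.mem_range]
      constructor
      · rintro ⟨j, rfl⟩; exact ⟨j, j.2, rfl⟩
      · rintro ⟨j, hj, rfl⟩; exact ⟨⟨j, hj⟩, rfl⟩
    have hAc : k / 2 ≤ A.card := by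
      have := vcard_le_image_add_old k (fun j => key (a + j * d)) (range k) (Finset.Subset.refl _)
      rw [← hAimg, Finset.card_range] at this
      omega
    have hAS : A ∈ S := by
      refine Finset.mem_filter.2 ⟨Finset.mem_image.2 ⟨(((fun j : Fin k =>
        cell R (QQ m n0 p F B Λ Z (a + j * d))), (fun j : Fin k =>
        cell R (QQ m n0 p F' B Λ Z (a + j * d)))), (fun j : Fin k => (zone m B Λ Z (a + j * d),
          cell R (θ (zone m B Λ Z (a + j * d)) * ((a + j * d : ℕ) : ℝ))))), ?_, ?_⟩, hAc⟩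
      · exact Finset.mem_product.2 ⟨Finset.mem_product.2 ⟨hS1 a d hsl, hS2 a d hsl⟩, hS3 a d hsl⟩
      · rfl
    obtain ⟨⟨v, hv, hv0⟩, ⟨w, hw, hw1⟩⟩ := hΨ0 A hAS
    rw [hAimg] at hv hw
    obtain ⟨i, hi, rfl⟩ := Finset.mem_image.1 hv
    obtain ⟨j, hj, rfl⟩ := Finset.mem_image.1 hw
    have e1 := hmono i (Finset.mem_range.1 hi)
    have e2 := hmono j (Finset.mem_range.1 hj)
    rw [hcol0 _ hv0] at e1
    rw [hcol1 _ hw1] at e2
    rw [← e1] at e2
    exact absurd e2 (by decide)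
  · -- fast
    have haN : a ∈ Finset.Icc 1 N := Finset.mem_Icc.2 ⟨ha, by
      have := Nat.zero_le ((k - 1) * d); omega⟩
    have hdN : d ∈ Finset.Icc 1 N := Finset.mem_Icc.2 ⟨hd, by
      have h1 : 1 * d ≤ (k - 1) * d := Nat.mul_le_mul_right _ (by omega)
      omega⟩
    have hmem : ∀ b : Bool, ((range k).filter (fun j => G (gcell m B Λ H (a + j * d)) = b)).image
        (fun j => key (a + j * d)) ∈ E := by
      intro b
      refine Finset.mem_filter.2 ⟨Finset.mem_image.2 ⟨((a, d), b), ?_, rfl⟩, ?_⟩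
      · exact Finset.mem_product.2 ⟨Finset.mem_product.2 ⟨haN, hdN⟩, Finset.mem_univ _⟩
      · have h1 := vcard_le_image_add_old k (fun j => key (a + j * d))
          ((range k).filter (fun j => G (gcell m B Λ H (a + j * d)) = b)) (Finset.filter_subset _ _)
        have h2 : k ≤ 5 * ((range k).filter (fun j => G (gcell m B Λ H (a + j * d)) = b)).card := by
          convert hG B a d hB1 hsl b
        omega
    have hc : col a = 0 ∨ col a = 1 := by
      have : ∀ x : Fin 2, x = 0 ∨ x = 1 := by decide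
      exact this _
    rcases hc with hc | hc
    · obtain ⟨⟨v, hv, hv0⟩, -⟩ := hΨ1 _ (hmem true)
      obtain ⟨j, hj, rfl⟩ := Finset.mem_image.1 hv
      have hj' := Finset.mem_filter.1 hj
      have e1 := hmono j (Finset.mem_range.1 hj'.1)
      rw [hcolT _ hv0 hj'.2, hc] at e1
      exact absurd e1 (by decide)
    · obtain ⟨-, ⟨v, hv, hv0⟩⟩ := hΨ1 _ (hmem false)
      obtain ⟨j, hj, rfl⟩ := Finset.mem_image.1 hv
      have hj' := Finset.mem_filter.1 hj
      have e1 := hmono j (Finset.mem_range.1 hj'.1)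
      rw [hcolF _ hv0 hj'.2, hc] at e1
      exact absurd e1 (by decide)

end Vale.Agent.VdWF
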