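import Vale.Agent.VdWF.PartW0
import Vale.Agent.VdWF.PartV

/-!
# P053 (full answer), part W: choice of the parameters
-/

namespace Vale.Agent.VdWF

open Finset Vale.Agent.VdW Filter

/-- powers of two with natural exponents bounded by real ones -/
theorem two_pow_le {a : ℕ} {b : ℝ} (h : (a : ℝ) ≤ b) : ((2 : ℝ) ^ a) ≤ (2 : ℝ) ^ b := by
  rw [← Real.rpow_natCast]
  exact Real.rpow_le_rpow_of_exponent_le (by norm_num) h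

theorem le_two_pow {a : ℕ} {b : ℝ} (h : b ≤ (a : ℝ)) : ((2 : ℝ) ^ b) ≤ (2 : ℝ) ^ a := by
  rw [← Real.rpow_natCast (2 : ℝ) a]
  exact Real.rpow_le_rpow_of_exponent_le (by norm_num) h

/-- `(1 - 1/q)^n ≤ 2^(-n/q)` -/
theorem one_sub_pow_le (q n : ℕ) (hq : 2 ≤ q) :
    (1 - 1 / (q : ℝ)) ^ n ≤ (2 : ℝ) ^ (-((n : ℝ) / q)) := by
  have hq0 : (2 : ℝ) ≤ q := by exact_mod_cast hq
  have h1 : 0 ≤ 1 - 1 / (q : ℝ) := by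
    have : 1 / (q : ℝ) ≤ 1 := by rw [div_le_one (by linarith)]; linarith
    linarith
  have h2 : 1 - 1 / (q : ℝ) ≤ Real.exp (-(1 / (q : ℝ))) := Real.one_sub_le_exp_neg _
  have h3 : Real.exp (-(1 / (q : ℝ))) ≤ (2 : ℝ) ^ (-(1 / (q : ℝ))) := by
    rw [Real.rpow_def_of_pos (by norm_num)]
    apply Real.exp_le_exp.2
    have := Real.log_two_lt_d9
    have h4 : 0 < 1 / (q : ℝ) := by positivity
    nlinarith
  calc (1 - 1 / (q : ℝ)) ^ n ≤ ((2 : ℝ) ^ (-(1 / (q : ℝ)))) ^ n :=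
        pow_le_pow_left₀ h1 (h2.trans h3) n
    _ = (2 : ℝ) ^ (-((n : ℝ) / q)) := by
        rw [← Real.rpow_natCast, ← Real.rpow_mul (by norm_num)]
        congr 1; ring

/-- primes -/
theorem exists_primes (n0 K R : ℕ) (hK : 1 ≤ K) (hR : 2 ^ (n0 + 3) * K ^ 2 ≤ R) :
    ∃ p : ℕ → ℕ, (∀ i < n0, (p i).Prime) ∧ (∀ i < n0, ∀ j < n0, p i = p j → i = j) ∧
      (∀ i < n0, K < p i) ∧ (∀ i < n0, p i * K < R) ∧
      (∀ i < n0, (R : ℝ) ≤ 2 ^ (n0 + 2) * K * p i) := by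
  have hKr : (1 : ℝ) ≤ K := by exact_mod_cast hK
  have hRr : (2 : ℝ) ^ (n0 + 3) * K ^ 2 ≤ R := by exact_mod_cast hR
  have hR0 : (0 : ℝ) < R := lt_of_lt_of_le (by positivity) hRr
  obtain ⟨P, hP, hPinj⟩ := big_primes n0 ((R : ℝ) / (2 * K)) K hKr (by
    rw [le_div_iff₀ (by positivity)]
    calc 2 ^ (n0 + 2) * (K : ℝ) * (2 * K) = (2 : ℝ) ^ (n0 + 3) * K ^ 2 := by ring
      _ ≤ R := hRr)
  refine ⟨fun i => P (i + 1), ?_, ?_, ?_, ?_, ?_⟩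
  · intro i hi
    exact (hP (i + 1) (mem_Icc.2 ⟨by omega, by omega⟩)).1
  · intro i hi j hj hij
    by_contra hne
    exact hPinj (i + 1) (mem_Icc.2 ⟨by omega, by omega⟩) (j + 1) (mem_Icc.2 ⟨by omega, by omega⟩)
      (by omega) hij
  · intro i hi
    have := (hP (i + 1) (mem_Icc.2 ⟨by omega, by omega⟩)).2.1
    exact_mod_cast this
  · intro i hi
    have := (hP (i + 1) (mem_Icc.2 ⟨by omega, by omega⟩)).2.2.1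
    rw [le_div_iff₀ (by positivity)] at this
    have h2 : (P (i + 1) : ℝ) * K < R := by nlinarith
    exact_mod_cast h2
  · intro i hi
    have h := hP (i + 1) (mem_Icc.2 ⟨by omega, by omega⟩)
    have hp0 : (0 : ℝ) < P (i + 1) := by exact_mod_cast h.1.pos
    have h1 := h.2.2.2
    have h2 : Real.log ((R : ℝ) / (2 * K)) ≤ Real.log (2 ^ (n0 + 1) * P (i + 1)) := by
      rw [Real.log_mul (by positivity) (by positivity), Real.log_pow]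
      push_cast
      linarith
    have h3 := (Real.log_le_log_iff (by positivity) (by positivity)).1 h2
    rw [div_le_iff₀ (by positivity)] at h3
    calc (R : ℝ) ≤ 2 ^ (n0 + 1) * P (i + 1) * (2 * K) := h3
      _ = 2 ^ (n0 + 2) * K * P (i + 1) := by ring



theorem R_low (k c0 : ℕ) (hc01 : 1 ≤ c0) :
    (2 : ℝ) ^ ((1 : ℝ) / c0 * k) ≤ 2 * ((2 ^ (k / c0) : ℕ) : ℝ) := by
  have hc0pos : (0 : ℝ) < c0 := by exact_mod_cast hc01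
  have h1 : (1 : ℝ) / c0 * k ≤ ((k / c0 + 1 : ℕ) : ℝ) := by
    have h2 : k ≤ c0 * (k / c0 + 1) := (Nat.lt_mul_div_succ k hc01).le
    have h3 : (k : ℝ) ≤ c0 * ((k / c0 + 1 : ℕ) : ℝ) := by exact_mod_cast h2
    rw [one_div, inv_mul_le_iff₀ hc0pos]
    exact h3
  calc (2 : ℝ) ^ ((1 : ℝ) / c0 * k) ≤ (2 : ℝ) ^ (k / c0 + 1) := le_two_pow h1
    _ = 2 * ((2 ^ (k / c0) : ℕ) : ℝ) := by push_cast; ring

theorem R_up (k c0 a : ℕ) : (((2 ^ (k / c0) : ℕ) : ℝ)) ^ a ≤ (2 : ℝ) ^ ((a : ℝ) * (k / c0)) := by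
  have h1 : ((k / c0 * a : ℕ) : ℝ) ≤ (a : ℝ) * (k / c0) := by
    have h2 : ((k / c0 : ℕ) : ℝ) ≤ (k : ℝ) / c0 := Nat.cast_div_le
    have h3 := mul_le_mul_of_nonneg_left h2 (Nat.cast_nonneg (α := ℝ) a)
    push_cast
    linarith
  calc (((2 ^ (k / c0) : ℕ) : ℝ)) ^ a = (2 : ℝ) ^ (k / c0 * a) := by push_cast; rw [← pow_mul]
    _ ≤ (2 : ℝ) ^ ((a : ℝ) * (k / c0)) := two_pow_le h1

/-- lower bound for `N` -/
theorem N_low (s k c0 n0 m K B M0 N R D : ℕ)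
    (hRlow : (2 : ℝ) ^ ((1 : ℝ) / c0 * k) ≤ 2 * (R : ℝ))
    (hexp : ((n0 * m : ℕ) : ℝ) * (k / c0) = s * k / 40)
    (hBlow : (R : ℝ) ^ n0 ≤ (2 ^ (n0 + 2) * K) ^ n0 * B) (hK1 : 1 ≤ K) (hM01 : 1 ≤ M0)
    (h1 : B ^ m ≤ M0 * (N + 1))
    (hKr : (K : ℝ) = (D : ℝ) ^ (2 * D + 1) * (k : ℝ) ^ (2 * D ^ 2))
    (d6 : 2 * (2 ^ (n0 + 2) * (D : ℝ) ^ (2 * D + 1)) ^ (n0 * m) * M0 * 2 ^ (n0 * m) *
      (k : ℝ) ^ (2 * D ^ 2 * (n0 * m)) < (2 : ℝ) ^ ((s : ℝ) / 1640 * k)) :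
    (2 : ℝ) ^ ((s : ℝ) * k / 41) ≤ N := by
  have h1r : (B : ℝ) ^ m ≤ M0 * (N + 1) := by exact_mod_cast h1
  have hKr1 : (1 : ℝ) ≤ K := by exact_mod_cast hK1
  have h3 : (R : ℝ) ^ (n0 * m) ≤ (2 ^ (n0 + 2) * K) ^ (n0 * m) * (B : ℝ) ^ m := by
    calc (R : ℝ) ^ (n0 * m) = ((R : ℝ) ^ n0) ^ m := by rw [pow_mul]
      _ ≤ ((2 ^ (n0 + 2) * K) ^ n0 * (B : ℝ)) ^ m := pow_le_pow_left₀ (by positivity) hBlow m
      _ = (2 ^ (n0 + 2) * K) ^ (n0 * m) * (B : ℝ) ^ m := by rw [mul_pow, ← pow_mul]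
  have h4 : (2 : ℝ) ^ ((s : ℝ) * k / 40) ≤ 2 ^ (n0 * m) * (R : ℝ) ^ (n0 * m) := by
    have h5 : ((2 : ℝ) ^ ((1 : ℝ) / c0 * k)) ^ (n0 * m) ≤ (2 * (R : ℝ)) ^ (n0 * m) :=
      pow_le_pow_left₀ (by positivity) hRlow _
    rw [mul_pow, ← Real.rpow_natCast, ← Real.rpow_mul (by norm_num)] at h5
    have h6 : (1 : ℝ) / c0 * k * ((n0 * m : ℕ) : ℝ) = s * k / 40 := by
      rw [← hexp]; ring
    rw [h6] at h5
    exact h5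
  have h7 : (2 : ℝ) ^ ((s : ℝ) * k / 40) = 2 ^ ((s : ℝ) * k / 41) * 2 ^ ((s : ℝ) / 1640 * k) := by
    rw [← Real.rpow_add (by norm_num)]
    congr 1; ring
  have h8 : 2 * (2 ^ (n0 + 2) * (K : ℝ)) ^ (n0 * m) * M0 * 2 ^ (n0 * m) =
      2 * (2 ^ (n0 + 2) * (D : ℝ) ^ (2 * D + 1)) ^ (n0 * m) * M0 * 2 ^ (n0 * m) *
        (k : ℝ) ^ (2 * D ^ 2 * (n0 * m)) := by
    rw [hKr, pow_mul (k : ℝ) (2 * D ^ 2), mul_pow, mul_pow, mul_pow]; ring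
  have h9 : 2 * (2 ^ (n0 + 2) * (K : ℝ)) ^ (n0 * m) * M0 * 2 ^ (n0 * m) <
      2 ^ ((s : ℝ) / 1640 * k) := by rw [h8]; exact d6
  set W : ℝ := (2 : ℝ) ^ ((s : ℝ) * k / 41) with hW
  have hW1 : 1 ≤ W := Real.one_le_rpow (by norm_num) (by positivity)
  set Q : ℝ := (2 ^ (n0 + 2) * (K : ℝ)) ^ (n0 * m) with hQ
  have hQ0 : 0 < Q := by positivity
  have h2m : (0 : ℝ) < 2 ^ (n0 * m) := by positivity
  have hM0r : (1 : ℝ) ≤ M0 := by exact_mod_cast hM01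
  have h10 : W * (2 * Q * M0 * 2 ^ (n0 * m)) ≤ 2 ^ (n0 * m) * (Q * (M0 * (N + 1))) := by
    calc W * (2 * Q * M0 * 2 ^ (n0 * m)) ≤ W * 2 ^ ((s : ℝ) / 1640 * k) :=
          mul_le_mul_of_nonneg_left h9.le (by linarith)
      _ = (2 : ℝ) ^ ((s : ℝ) * k / 40) := h7.symm
      _ ≤ 2 ^ (n0 * m) * (R : ℝ) ^ (n0 * m) := h4
      _ ≤ 2 ^ (n0 * m) * (Q * (B : ℝ) ^ m) := mul_le_mul_of_nonneg_left h3 h2m.le
      _ ≤ 2 ^ (n0 * m) * (Q * (M0 * (N + 1))) := by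
          apply mul_le_mul_of_nonneg_left _ h2m.le
          exact mul_le_mul_of_nonneg_left h1r hQ0.le
  have h11 : (Q * M0 * 2 ^ (n0 * m)) * (2 * W) ≤ (Q * M0 * 2 ^ (n0 * m)) * (N + 1) := by
    calc (Q * M0 * 2 ^ (n0 * m)) * (2 * W) = W * (2 * Q * M0 * 2 ^ (n0 * m)) := by ring
      _ ≤ _ := h10
      _ = _ := by ring
  have h12 : 2 * W ≤ N + 1 := le_of_mul_le_mul_left h11 (by positivity)
  linarith

theorem count_lt (N R m n0 Z J k : ℕ) (hJdef : J = 2 * (n0 * m) + 1) (hR1 : 1 ≤ R)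
    (hN2 : (N : ℝ) ^ 2 ≤ (R : ℝ) ^ (2 * (n0 * m)))
    (e3 : (3 * (Z : ℝ) ^ m) ^ J * (k : ℝ) ^ (2 * J) < R) :
    (N : ℝ) ^ 2 * ((Z : ℝ) ^ m) ^ J * (3 * (k : ℝ) ^ 2 / R) ^ J < 1 := by
  have hR0 : (0 : ℝ) < R := by exact_mod_cast hR1
  have e1 : (3 * (k : ℝ) ^ 2 / R) ^ J = (3 * (k : ℝ) ^ 2) ^ J / ((R : ℝ) ^ (2 * (n0 * m)) * R) := by
    rw [div_pow]; congr 1; rw [hJdef, pow_succ]
  rw [e1]
  have e2 : ((Z : ℝ) ^ m) ^ J * (3 * (k : ℝ) ^ 2) ^ J = (3 * (Z : ℝ) ^ m) ^ J * (k : ℝ) ^ (2 * J) := by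
    rw [← mul_pow, pow_mul (k : ℝ) 2 J, ← mul_pow]; congr 1; ring
  have hRp : (0 : ℝ) < (R : ℝ) ^ (2 * (n0 * m)) := by positivity
  calc (N : ℝ) ^ 2 * ((Z : ℝ) ^ m) ^ J * ((3 * (k : ℝ) ^ 2) ^ J / ((R : ℝ) ^ (2 * (n0 * m)) * R))
      = (N : ℝ) ^ 2 * (((Z : ℝ) ^ m) ^ J * (3 * (k : ℝ) ^ 2) ^ J) /
          ((R : ℝ) ^ (2 * (n0 * m)) * R) := by ring
    _ ≤ (R : ℝ) ^ (2 * (n0 * m)) * ((3 * (Z : ℝ) ^ m) ^ J * (k : ℝ) ^ (2 * J)) /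
          ((R : ℝ) ^ (2 * (n0 * m)) * R) := by
        rw [e2]
        apply div_le_div_of_nonneg_right _ (by positivity)
        exact mul_le_mul_of_nonneg_right hN2 (by positivity)
    _ = ((3 * (Z : ℝ) ^ m) ^ J * (k : ℝ) ^ (2 * J)) / R := by
        field_simp
    _ < 1 := by rw [div_lt_one hR0]; exact e3

theorem X_le (m n0 D Z R k : ℕ) (hk1 : 1 ≤ k) (hR1 : 1 ≤ R) (hm1 : 1 ≤ m) (hn0def : n0 = m * m)
    (hDdef : D = m + n0) :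
    (((n0 + 2) ^ (n0 + m) * (R ^ (2 * m) * (2 * k + 2) ^ m) ^ m *
        (R * ((D + 1) * k ^ D) * (k + 1)) ^ (D + 1)) ^ 2 *
        ((Z ^ 2 * (k + 1)) ^ m * ((R * (2 * k) * (k + 1)) ^ 2) ^ (m + 1))) ≤
      ((((n0 + 2) ^ (n0 + m) * 4 ^ (m * m) * (2 * (D + 1)) ^ (D + 1)) ^ 2 *
        ((2 * Z ^ 2) ^ m * 16 ^ (m + 1))) *
        k ^ (2 * (m * m + (D + 1) * (D + 1)) + (m + 4 * (m + 1)))) * R ^ (14 * (m * m)) := by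
  have x1 := X1_le m n0 D R k hk1
  have x2 := X2_le m Z R k hk1
  set A1 : ℕ := (n0 + 2) ^ (n0 + m) * 4 ^ (m * m) * (2 * (D + 1)) ^ (D + 1) with hA1
  set E1 : ℕ := m * m + (D + 1) * (D + 1) with hE1
  set A2 : ℕ := (2 * Z ^ 2) ^ m * 16 ^ (m + 1) with hA2
  set E2 : ℕ := m + 4 * (m + 1) with hE2
  calc _ ≤ (A1 * k ^ E1 * R ^ (2 * m * m + (D + 1))) ^ 2 * (A2 * k ^ E2 * R ^ (2 * (m + 1))) :=
        Nat.mul_le_mul (Nat.pow_le_pow_left x1 2) x2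
    _ = ((A1 ^ 2 * A2) * k ^ (2 * E1 + E2)) *
          R ^ (2 * (2 * m * m + (D + 1)) + 2 * (m + 1)) := by
        rw [mul_pow, mul_pow, ← pow_mul, ← pow_mul, pow_add, pow_add]; ring
    _ ≤ ((A1 ^ 2 * A2) * k ^ (2 * E1 + E2)) * R ^ (14 * (m * m)) := by
        apply Nat.mul_le_mul_left
        apply Nat.pow_le_pow_right hR1
        rw [hDdef, hn0def]
        nlinarith

theorem slow_lt (q k m : ℕ) (X P4 Rp : ℝ) (hq4 : 4 ≤ q) (hP40 : 0 ≤ P4)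
    (x4 : X ≤ P4 * Rp) (x5 : Rp ≤ (2 : ℝ) ^ (14 / (40 * q) * k : ℝ))
    (x9 : 8 * P4 < (2 : ℝ) ^ (6 / (40 * q) * k : ℝ)) :
    2 * X * (1 - 1 / (q : ℝ)) ^ (k / 2) < 1 / 2 := by
  have hqr : (4 : ℝ) ≤ q := by exact_mod_cast hq4
  have x6 : (1 - 1 / (q : ℝ)) ^ (k / 2) ≤ 2 * (2 : ℝ) ^ (-(k / (2 * q)) : ℝ) := by
    have h1 := one_sub_pow_le q (k / 2) (by omega)
    have h2 : ((k : ℝ) - 1) / 2 ≤ ((k / 2 : ℕ) : ℝ) := by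
      have : k ≤ 2 * (k / 2) + 1 := by omega
      have : (k : ℝ) ≤ 2 * ((k / 2 : ℕ) : ℝ) + 1 := by exact_mod_cast this
      linarith
    have h3 : -(((k / 2 : ℕ) : ℝ) / q) ≤ 1 + -(k / (2 * q) : ℝ) := by
      have h4 : (k : ℝ) / (2 * q) = (k / 2) / q := by field_simp
      rw [h4]
      have h5 : ((k : ℝ) / 2 - 1 / 2) / q ≤ ((k / 2 : ℕ) : ℝ) / q :=
        div_le_div_of_nonneg_right (by linarith) (by linarith)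
      rw [sub_div] at h5
      have h6 : (1 / 2 : ℝ) / q ≤ 1 := by rw [div_le_one (by linarith)]; linarith
      linarith
    calc (1 - 1 / (q : ℝ)) ^ (k / 2) ≤ (2 : ℝ) ^ (-(((k / 2 : ℕ) : ℝ) / q)) := h1
      _ ≤ (2 : ℝ) ^ (1 + -(k / (2 * q) : ℝ)) := Real.rpow_le_rpow_of_exponent_le (by norm_num) h3
      _ = 2 * (2 : ℝ) ^ (-(k / (2 * q)) : ℝ) := by
          rw [Real.rpow_add (by norm_num), Real.rpow_one]
  have x7 : (0 : ℝ) ≤ (1 - 1 / (q : ℝ)) ^ (k / 2) := by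
    apply pow_nonneg
    have : 1 / (q : ℝ) ≤ 1 := by rw [div_le_one (by linarith)]; linarith
    linarith
  have x8 : (2 : ℝ) ^ (14 / (40 * q) * k : ℝ) * (2 : ℝ) ^ (-(k / (2 * q)) : ℝ) =
      ((2 : ℝ) ^ (6 / (40 * q) * k : ℝ))⁻¹ := by
    rw [← Real.rpow_add (by norm_num), ← Real.rpow_neg (by norm_num)]
    congr 1; field_simp; ring
  have x10 : (0 : ℝ) < (2 : ℝ) ^ (6 / (40 * q) * k : ℝ) := by positivity
  calc 2 * X * (1 - 1 / (q : ℝ)) ^ (k / 2)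
      ≤ 2 * (P4 * (2 : ℝ) ^ (14 / (40 * q) * k : ℝ)) * (2 * (2 : ℝ) ^ (-(k / (2 * q)) : ℝ)) := by
        apply mul_le_mul _ x6 x7 (by positivity)
        apply mul_le_mul_of_nonneg_left _ (by norm_num)
        exact x4.trans (mul_le_mul_of_nonneg_left x5 hP40)
    _ = 4 * P4 * ((2 : ℝ) ^ (14 / (40 * q) * k : ℝ) * (2 : ℝ) ^ (-(k / (2 * q)) : ℝ)) := by ring
    _ = 4 * P4 / (2 : ℝ) ^ (6 / (40 * q) * k : ℝ) := by rw [x8]; exact (div_eq_mul_inv _ _).symm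
    _ < 1 / 2 := by
        rw [div_lt_iff₀ x10]; linarith

theorem fast_lt (s q k : ℕ) (N2 : ℝ) (hs : 1 ≤ s) (hqdef : q = 4 ^ s)
    (y1 : N2 ≤ (2 : ℝ) ^ (s * k / 20 : ℝ))
    (d5 : 8 * (2 : ℝ) ^ ((5 * s / 3 : ℝ)) < (2 : ℝ) ^ (17 / 60 * s * k : ℝ)) :
    4 * N2 * (1 / (q : ℝ)) ^ (k / 6) < 1 / 2 := by
  have hsr : (1 : ℝ) ≤ s := by exact_mod_cast hs
  have y2 : (1 / (q : ℝ)) ^ (k / 6) ≤ (2 : ℝ) ^ (-(s * (k - 5) / 3) : ℝ) := by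
    have h1 : (1 / (q : ℝ)) = (2 : ℝ) ^ (-(2 * s) : ℝ) := by
      rw [hqdef, Real.rpow_neg (by norm_num), one_div]
      congr 1
      have : (2 : ℝ) ^ (2 * s : ℝ) = (2 : ℝ) ^ (2 * s) := by
        rw [← Real.rpow_natCast]; push_cast; rfl
      rw [this]; push_cast; rw [pow_mul]; norm_num
    have h2 : (k : ℝ) ≤ 6 * ((k / 6 : ℕ) : ℝ) + 5 := by
      have : k ≤ 6 * (k / 6) + 5 := by omega
      exact_mod_cast this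
    rw [h1, ← Real.rpow_natCast, ← Real.rpow_mul (by norm_num)]
    apply Real.rpow_le_rpow_of_exponent_le (by norm_num)
    have h3 : (s : ℝ) * k ≤ s * (6 * ((k / 6 : ℕ) : ℝ) + 5) :=
      mul_le_mul_of_nonneg_left h2 (by linarith)
    linarith
  have y3 : (2 : ℝ) ^ (s * k / 20 : ℝ) * (2 : ℝ) ^ (-(s * (k - 5) / 3) : ℝ) =
      (2 : ℝ) ^ ((5 * s / 3 : ℝ)) / (2 : ℝ) ^ (17 / 60 * s * k : ℝ) := by
    rw [← Real.rpow_add (by norm_num), ← Real.rpow_sub (by norm_num)]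
    congr 1; ring
  have y4 : (0 : ℝ) < (2 : ℝ) ^ (17 / 60 * s * k : ℝ) := by positivity
  calc 4 * N2 * (1 / (q : ℝ)) ^ (k / 6)
      ≤ 4 * (2 : ℝ) ^ (s * k / 20 : ℝ) * (2 : ℝ) ^ (-(s * (k - 5) / 3) : ℝ) := by
        apply mul_le_mul _ y2 (by positivity) (by positivity)
        exact mul_le_mul_of_nonneg_left y1 (by norm_num)
    _ = 4 * ((2 : ℝ) ^ (s * k / 20 : ℝ) * (2 : ℝ) ^ (-(s * (k - 5) / 3) : ℝ)) := by ring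
    _ = 4 * (2 : ℝ) ^ ((5 * s / 3 : ℝ)) / (2 : ℝ) ^ (17 / 60 * s * k : ℝ) := by
        rw [y3]; ring
    _ < 1 / 2 := by
        rw [div_lt_iff₀ y4]; linarith

/-- the choice of `B`, `N` for given `k`, `R`, `K` -/
theorem exists_B_N (n0 m K R M0 : ℕ) (hK1 : 1 ≤ K) (hM01 : 1 ≤ M0)
    (hRK : 2 ^ (n0 + 3) * K ^ 2 ≤ R) :
    ∃ p : ℕ → ℕ, ∃ B N : ℕ, (∀ i < n0, (p i).Prime) ∧
      (∀ i < n0, ∀ j < n0, p i = p j → i = j) ∧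
      (∀ i < n0, K < p i) ∧ (∀ i < n0, p i * K < R) ∧ B = ∏ i ∈ range n0, p i ∧
      M0 * N < B ^ m ∧ B ^ m ≤ M0 * (N + 1) ∧ (N : ℝ) ^ 2 ≤ (R : ℝ) ^ (2 * (n0 * m)) ∧
      (R : ℝ) ^ n0 ≤ (2 ^ (n0 + 2) * K) ^ n0 * B := by
  obtain ⟨p, hp, hpinj, hpK, hpKR, hplow⟩ := exists_primes n0 K R hK1 hRK
  obtain ⟨B, hBdef⟩ : ∃ B : ℕ, B = ∏ i ∈ range n0, p i := ⟨_, rfl⟩
  have hB1 : 1 ≤ B := by
    rw [hBdef]; exact Finset.prod_pos fun i hi => (hp i (mem_range.1 hi)).pos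
  have hpR : ∀ i < n0, p i ≤ R := by
    intro i hi
    have h1 := hpKR i hi
    have h2 := Nat.mul_le_mul_left (p i) hK1
    omega
  have hBR : B ≤ R ^ n0 := by
    rw [hBdef]
    calc ∏ i ∈ range n0, p i ≤ ∏ _i ∈ range n0, R :=
          Finset.prod_le_prod' fun i hi => hpR i (mem_range.1 hi)
      _ = R ^ n0 := by simp
  have hBlow : (R : ℝ) ^ n0 ≤ (2 ^ (n0 + 2) * K) ^ n0 * B := by
    have : (B : ℝ) = ∏ i ∈ range n0, (p i : ℝ) := by rw [hBdef]; push_cast; rfl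
    rw [this]
    calc (R : ℝ) ^ n0 = ∏ _i ∈ range n0, (R : ℝ) := by simp
      _ ≤ ∏ i ∈ range n0, ((2 ^ (n0 + 2) * K) * (p i : ℝ)) :=
          Finset.prod_le_prod (fun i _ => by positivity) fun i hi => hplow i (mem_range.1 hi)
      _ = (2 ^ (n0 + 2) * K) ^ n0 * ∏ i ∈ range n0, (p i : ℝ) := by
          rw [Finset.prod_mul_distrib]; simp
  have hBm1 : 1 ≤ B ^ m := Nat.one_le_pow _ _ hB1
  obtain ⟨N, hNdef⟩ : ∃ N : ℕ, N = (B ^ m - 1) / M0 := ⟨_, rfl⟩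
  have hNB : M0 * N < B ^ m := by
    rw [hNdef]
    have := Nat.mul_div_le (B ^ m - 1) M0
    omega
  have hNle : N ≤ R ^ (n0 * m) := by
    have h1 : N ≤ B ^ m := by
      have := Nat.mul_le_mul_right N hM01
      omega
    calc N ≤ B ^ m := h1
      _ ≤ (R ^ n0) ^ m := Nat.pow_le_pow_left hBR m
      _ = R ^ (n0 * m) := by rw [pow_mul]
  have hNr : (N : ℝ) ≤ (R : ℝ) ^ (n0 * m) := by exact_mod_cast hNle
  have h1 : B ^ m ≤ M0 * (N + 1) := by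
    have h2 : B ^ m - 1 < M0 * (N + 1) := by
      rw [hNdef]; exact Nat.lt_mul_div_succ _ hM01
    omega
  have hN2 : (N : ℝ) ^ 2 ≤ (R : ℝ) ^ (2 * (n0 * m)) := by
    calc (N : ℝ) ^ 2 ≤ ((R : ℝ) ^ (n0 * m)) ^ 2 := pow_le_pow_left₀ (Nat.cast_nonneg _) hNr 2
      _ = (R : ℝ) ^ (2 * (n0 * m)) := by rw [← pow_mul]; congr 1; ring
  exact ⟨p, B, N, hp, hpinj, hpK, hpKR, hBdef, hNB, h1, hN2, hBlow⟩

/-- the final step: everything for one `k` -/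
theorem step (s q m n0 D J L1 Z L0 H Λ c0 M0 k : ℕ) (hs : 1 ≤ s) (hqdef : q = 4 ^ s)
    (hmdef : m = s * q) (hn0def : n0 = m * m) (hDdef : D = m + n0) (hJdef : J = 2 * (n0 * m) + 1)
    (hL1def : L1 = 60 * J) (hZdef : Z = 201 * L1 ^ 2 + n0 + 1) (hL02 : 2 ≤ L0)
    (hL0 : 2 * (((((800 * L0 * Z : ℕ) : ℝ) * (2 * L0) * (L0 + 1)) ^ 2) ^ (2 * m)) *
      (9 / 10) ^ L0 < 1)
    (hHdef : H = 800 * L0 * Z) (hΛdef : Λ = L0.factorial) (hc0def : c0 = 40 * q * (m * m))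
    (hM0def : M0 = L1 ^ m * Λ) (hk1 : 1 ≤ k)
    (d1 : 2 * 2 ^ (n0 + 3) * ((D : ℝ) ^ (2 * D + 1)) ^ 2 * (k : ℝ) ^ (4 * D ^ 2) <
      (2 : ℝ) ^ ((1 : ℝ) / c0 * k))
    (d3 : 2 * (3 * (Z : ℝ) ^ m) ^ J * (k : ℝ) ^ (2 * J) < (2 : ℝ) ^ ((1 : ℝ) / c0 * k))
    (d4 : 8 * ((((((n0 + 2) ^ (n0 + m) * 4 ^ (m * m) * (2 * (D + 1)) ^ (D + 1)) ^ 2 *
        ((2 * Z ^ 2) ^ m * 16 ^ (m + 1)))) : ℕ) : ℝ) *
        (k : ℝ) ^ (2 * (m * m + (D + 1) * (D + 1)) + (m + 4 * (m + 1))) <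
      (2 : ℝ) ^ (6 / (40 * q) * k : ℝ))
    (d5 : 8 * (2 : ℝ) ^ ((5 * s / 3 : ℝ)) < (2 : ℝ) ^ (17 / 60 * s * k : ℝ))
    (d6 : 2 * (2 ^ (n0 + 2) * (D : ℝ) ^ (2 * D + 1)) ^ (n0 * m) * M0 * 2 ^ (n0 * m) *
      (k : ℝ) ^ (2 * D ^ 2 * (n0 * m)) < (2 : ℝ) ^ ((s : ℝ) / 1640 * k))
    (d2 : 30 * (L1 ^ m * Z ^ m * D ^ 2) ≤ k) (d2' : 100 * L1 ≤ k) (d2'' : 100 * L0 * (Λ + 1) ≤ k) :
    ∃ N : ℕ, (2 : ℝ) ^ ((s : ℝ) * k / 41) ≤ N ∧ ¬ VW 2 k N := by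
  have hq4 : 4 ≤ q := by
    rw [hqdef]
    calc 4 = 4 ^ 1 := by norm_num
      _ ≤ 4 ^ s := Nat.pow_le_pow_right (by norm_num) hs
  have hm1 : 1 ≤ m := by rw [hmdef]; exact Nat.mul_pos hs (by omega)
  have hn01 : 1 ≤ n0 := by rw [hn0def]; exact Nat.mul_pos hm1 hm1
  have hL11 : 1 ≤ L1 := by omega
  have hΛ1 : 1 ≤ Λ := by rw [hΛdef]; exact Nat.factorial_pos _
  have hmm : 1 ≤ m * m := Nat.mul_pos hm1 hm1
  have hc01 : 1 ≤ c0 := by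
    rw [hc0def]
    exact Nat.mul_pos (by omega) hmm
  have hM01 : 1 ≤ M0 := by
    rw [hM0def]; exact Nat.mul_pos (Nat.pow_pos (by omega)) hΛ1
  have hqr : (4 : ℝ) ≤ q := by exact_mod_cast hq4
  have hsr : (1 : ℝ) ≤ s := by exact_mod_cast hs
  have hmr : (1 : ℝ) ≤ m := by exact_mod_cast hm1
  have hc0r : (c0 : ℝ) = 40 * q * (m * m) := by rw [hc0def]; push_cast; ring
  have hmq : (m : ℝ) = s * q := by rw [hmdef]; push_cast; ring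
  obtain ⟨R, hRdef⟩ : ∃ R : ℕ, R = 2 ^ (k / c0) := ⟨_, rfl⟩
  obtain ⟨K, hKdef⟩ : ∃ K : ℕ, K = CC D k := ⟨_, rfl⟩
  have hR1 : 1 ≤ R := by rw [hRdef]; exact Nat.one_le_two_pow
  have hK1 : 1 ≤ K := by
    rw [hKdef, CC]; exact Nat.mul_pos (Nat.pow_pos (by omega)) (Nat.pow_pos (by omega))
  have hKr : (K : ℝ) = (D : ℝ) ^ (2 * D + 1) * (k : ℝ) ^ (2 * D ^ 2) := by
    rw [hKdef, CC]; push_cast; ring
  have hRlow : (2 : ℝ) ^ ((1 : ℝ) / c0 * k) ≤ 2 * (R : ℝ) := by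
    rw [hRdef]; exact R_low k c0 hc01
  have hRup : ∀ a : ℕ, (R : ℝ) ^ a ≤ (2 : ℝ) ^ ((a : ℝ) * (k / c0)) := by
    rw [hRdef]; exact fun a => R_up k c0 a
  have hRK : 2 ^ (n0 + 3) * K ^ 2 ≤ R := by
    have h1 : (2 : ℝ) ^ (n0 + 3) * (K : ℝ) ^ 2 ≤ R := by
      have h2 : 2 * ((2 : ℝ) ^ (n0 + 3) * (K : ℝ) ^ 2) =
          2 * 2 ^ (n0 + 3) * ((D : ℝ) ^ (2 * D + 1)) ^ 2 * (k : ℝ) ^ (4 * D ^ 2) := by
        rw [hKr, mul_pow, ← pow_mul (k : ℝ)]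
        ring
      linarith
    exact_mod_cast h1
  obtain ⟨p, B, N, hp, hpinj, hpK, hpKR, hBdef, hNB, hN1, hN2, hBlow⟩ :=
    exists_B_N n0 m K R M0 hK1 hM01 hRK
  have hexp : ((n0 * m : ℕ) : ℝ) * (k / c0) = s * k / 40 := by
    rw [hc0r, hn0def]; push_cast; rw [hmq]
    have : (q : ℝ) ≠ 0 := by positivity
    have : (s : ℝ) ≠ 0 := by positivity
    field_simp
  refine ⟨N, N_low s k c0 n0 m K B M0 N R D hRlow hexp hBlow hK1 hM01 hN1 hKr d6, ?_⟩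
  apply reduction q m n0 D J L1 Z L0 H Λ B R k N p (by omega) hm1 hn01 hR1 hp hpinj hBdef hDdef
    (by rw [← hKdef]; exact hpK) (by rw [← hKdef]; exact hpKR) (by omega) (by omega) hL11 (by omega)
    hL02 hHdef hΛdef
  · rw [hHdef]; exact hL0
  · exact d2
  · exact d2'
  · exact d2''
  · rw [← mul_assoc, ← hM0def]; exact hNB
  · exact count_lt N R m n0 Z J k hJdef hR1 hN2 (by linarith)
  · have x3 := X_le m n0 D Z R k hk1 hR1 hm1 hn0def hDdef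
    refine slow_lt q k m _
      (((((((n0 + 2) ^ (n0 + m) * 4 ^ (m * m) * (2 * (D + 1)) ^ (D + 1)) ^ 2 *
        ((2 * Z ^ 2) ^ m * 16 ^ (m + 1)))) : ℕ) : ℝ) *
        (k : ℝ) ^ (2 * (m * m + (D + 1) * (D + 1)) + (m + 4 * (m + 1))))
      ((R : ℝ) ^ (14 * (m * m))) hq4 (by positivity) ?_ ?_ ?_
    · exact_mod_cast x3
    · have h := hRup (14 * (m * m))
      have h2 : ((14 * (m * m) : ℕ) : ℝ) * (k / c0) = 14 / (40 * q) * k := by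
        rw [hc0r]; push_cast; field_simp
      rwa [h2] at h
    · rw [← mul_assoc]; exact d4
  · refine fast_lt s q k ((N : ℝ) ^ 2) hs hqdef ?_ d5
    have h := hRup (2 * (n0 * m))
    have h2 : ((2 * (n0 * m) : ℕ) : ℝ) * (k / c0) = s * k / 20 := by
      have := hexp
      push_cast at this ⊢
      linarith
    rw [h2] at h
    exact hN2.trans h

theorem main (s : ℕ) (hs : 1 ≤ s) : ∃ k0 : ℕ, ∀ k : ℕ, k0 ≤ k → ∃ N : ℕ,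
    (2 : ℝ) ^ ((s : ℝ) * k / 41) ≤ N ∧ ¬ VW 2 k N := by
  obtain ⟨q, hqdef⟩ : ∃ q : ℕ, q = 4 ^ s := ⟨_, rfl⟩
  obtain ⟨m, hmdef⟩ : ∃ m : ℕ, m = s * q := ⟨_, rfl⟩
  obtain ⟨n0, hn0def⟩ : ∃ n0 : ℕ, n0 = m * m := ⟨_, rfl⟩
  obtain ⟨D, hDdef⟩ : ∃ D : ℕ, D = m + n0 := ⟨_, rfl⟩
  obtain ⟨J, hJdef⟩ : ∃ J : ℕ, J = 2 * (n0 * m) + 1 := ⟨_, rfl⟩
  obtain ⟨L1, hL1def⟩ : ∃ L1 : ℕ, L1 = 60 * J := ⟨_, rfl⟩
  obtain ⟨Z, hZdef⟩ : ∃ Z : ℕ, Z = 201 * L1 ^ 2 + n0 + 1 := ⟨_, rfl⟩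
  obtain ⟨L0, hL02, hL0⟩ := exists_L0 m Z
  obtain ⟨H, hHdef⟩ : ∃ H : ℕ, H = 800 * L0 * Z := ⟨_, rfl⟩
  obtain ⟨Λ, hΛdef⟩ : ∃ Λ : ℕ, Λ = L0.factorial := ⟨_, rfl⟩
  obtain ⟨c0, hc0def⟩ : ∃ c0 : ℕ, c0 = 40 * q * (m * m) := ⟨_, rfl⟩
  obtain ⟨M0, hM0def⟩ : ∃ M0 : ℕ, M0 = L1 ^ m * Λ := ⟨_, rfl⟩
  have hq1 : 1 ≤ q := by rw [hqdef]; exact Nat.one_le_pow _ _ (by norm_num)
  have hm1 : 1 ≤ m := by rw [hmdef]; exact Nat.mul_pos hs hq1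
  have hmm : 1 ≤ m * m := Nat.mul_pos hm1 hm1
  have hc01 : 1 ≤ c0 := by
    rw [hc0def]
    exact Nat.mul_pos (by omega) hmm
  have hc0pos : (0 : ℝ) < c0 := by exact_mod_cast hc01
  have hqpos : (0 : ℝ) < q := by exact_mod_cast hq1
  have hspos : (0 : ℝ) < s := by exact_mod_cast hs
  have ha0 : (0 : ℝ) < 1 / c0 := by positivity
  have c1 := poly_lt_exp (2 * 2 ^ (n0 + 3) * ((D : ℝ) ^ (2 * D + 1)) ^ 2) (4 * D ^ 2) (1 / c0) ha0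
  have c3 := poly_lt_exp (2 * (3 * (Z : ℝ) ^ m) ^ J) (2 * J) (1 / c0) ha0
  have c4 := poly_lt_exp (8 * ((((((n0 + 2) ^ (n0 + m) * 4 ^ (m * m) *
        (2 * (D + 1)) ^ (D + 1)) ^ 2 * ((2 * Z ^ 2) ^ m * 16 ^ (m + 1)))) : ℕ) : ℝ))
        (2 * (m * m + (D + 1) * (D + 1)) + (m + 4 * (m + 1))) (6 / (40 * q)) (by positivity)
  have c5 := poly_lt_exp (8 * (2 : ℝ) ^ ((5 * s / 3 : ℝ))) 0 (17 / 60 * s) (by positivity)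
  have c6 := poly_lt_exp (2 * (2 ^ (n0 + 2) * (D : ℝ) ^ (2 * D + 1)) ^ (n0 * m) * M0 * 2 ^ (n0 * m))
    (2 * D ^ 2 * (n0 * m)) ((s : ℝ) / 1640) (by positivity)
  have c2 := (eventually_ge_atTop (30 * (L1 ^ m * Z ^ m * D ^ 2))).and
    ((eventually_ge_atTop (100 * L1)).and (eventually_ge_atTop (100 * L0 * (Λ + 1))))
  obtain ⟨k0, hk0⟩ := Filter.eventually_atTop.1 (((((c1.and c3).and c4).and c5).and c6).and c2)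
  refine ⟨k0, fun k hk => ?_⟩
  obtain ⟨⟨⟨⟨⟨d1, d3⟩, d4⟩, d5⟩, d6⟩, d2, d2', d2''⟩ := hk0 k hk
  rw [pow_zero, mul_one] at d5
  exact step s q m n0 D J L1 Z L0 H Λ c0 M0 k hs hqdef hmdef hn0def hDdef hJdef hL1def hZdef hL02
    hL0 hHdef hΛdef hc0def hM0def (by omega) d1 d3 d4 d5 d6 d2 d2' d2''

end Vale.Agent.VdWF
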