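import Vale.Agent.VdWF.Defs
import Vale.Agent.VdW.PartM2

/-!
# P053 (full answer), part W0: auxiliary asymptotic facts
-/

namespace Vale.Agent.VdWF

open Finset Vale.Agent.VdW Filter

theorem poly_lt_exp (C : ℝ) (E : ℕ) (a : ℝ) (ha : 0 < a) :
    ∀ᶠ k : ℕ in atTop, C * (k : ℝ) ^ E < (2 : ℝ) ^ (a * k) := by
  have h1 : |(2 : ℝ) ^ (-a)| < 1 := by
    rw [abs_of_pos (Real.rpow_pos_of_pos (by norm_num) _)]
    exact Real.rpow_lt_one_of_one_lt_of_neg (by norm_num) (by linarith)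
  have h2 := tendsto_pow_const_mul_const_pow_of_abs_lt_one E h1
  have h3 := h2.const_mul C
  rw [mul_zero] at h3
  filter_upwards [h3.eventually (gt_mem_nhds (zero_lt_one' ℝ))] with k hk
  have h4 : ((2 : ℝ) ^ (-a)) ^ k = ((2 : ℝ) ^ (a * k))⁻¹ := by
    rw [← Real.rpow_natCast, ← Real.rpow_mul (by norm_num), ← Real.rpow_neg (by norm_num)]
    congr 1; ring
  rw [h4] at hk
  have h5 : (0 : ℝ) < (2 : ℝ) ^ (a * k) := Real.rpow_pos_of_pos (by norm_num) _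
  have h6 : C * ((k : ℝ) ^ E * ((2 : ℝ) ^ (a * k))⁻¹) = C * (k : ℝ) ^ E / (2 : ℝ) ^ (a * k) := by
    rw [div_eq_mul_inv]; ring
  rw [h6, div_lt_one h5] at hk
  exact hk

theorem exists_L0 (m Z : ℕ) : ∃ L0 : ℕ, 2 ≤ L0 ∧
    2 * (((((800 * L0 * Z : ℕ) : ℝ) * (2 * L0) * (L0 + 1)) ^ 2) ^ (2 * m)) * (9 / 10) ^ L0 < 1 := by
  have h1 : |(9 / 10 : ℝ)| < 1 := by rw [abs_of_pos (by norm_num)]; norm_num
  have h2 := tendsto_pow_const_mul_const_pow_of_abs_lt_one (12 * m) h1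
  have h3 := h2.const_mul (2 * (3200 * (Z : ℝ)) ^ (4 * m))
  rw [mul_zero] at h3
  have h4 := (h3.eventually (gt_mem_nhds (zero_lt_one' ℝ))).and (eventually_ge_atTop 2)
  obtain ⟨L0, hL0, hL2⟩ := h4.exists
  refine ⟨L0, hL2, lt_of_le_of_lt ?_ hL0⟩
  have hLr : (1 : ℝ) ≤ L0 := by exact_mod_cast (by omega : 1 ≤ L0)
  have h5 : (((800 * L0 * Z : ℕ) : ℝ) * (2 * L0) * (L0 + 1)) ≤ 3200 * Z * (L0 : ℝ) ^ 3 := by
    push_cast
    have hZ : (0 : ℝ) ≤ Z := Nat.cast_nonneg _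
    have : (800 * (L0 : ℝ) * Z * (2 * L0) * (L0 + 1)) = 1600 * Z * (L0 : ℝ) ^ 2 * (L0 + 1) := by ring
    rw [this]
    have : 3200 * Z * (L0 : ℝ) ^ 3 = 1600 * Z * (L0 : ℝ) ^ 2 * (2 * L0) := by ring
    rw [this]
    apply mul_le_mul_of_nonneg_left (by linarith) (by positivity)
  have h6 : (((((800 * L0 * Z : ℕ) : ℝ) * (2 * L0) * (L0 + 1)) ^ 2) ^ (2 * m)) ≤
      (3200 * (Z : ℝ)) ^ (4 * m) * (L0 : ℝ) ^ (12 * m) := by
    rw [← pow_mul]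
    calc (((800 * L0 * Z : ℕ) : ℝ) * (2 * L0) * (L0 + 1)) ^ (2 * (2 * m))
        ≤ (3200 * Z * (L0 : ℝ) ^ 3) ^ (2 * (2 * m)) := pow_le_pow_left₀ (by positivity) h5 _
      _ = (3200 * (Z : ℝ)) ^ (4 * m) * (L0 : ℝ) ^ (12 * m) := by
        rw [mul_pow, ← pow_mul]
        congr 1 <;> congr 1 <;> ring
  calc 2 * (((((800 * L0 * Z : ℕ) : ℝ) * (2 * L0) * (L0 + 1)) ^ 2) ^ (2 * m)) * (9 / 10) ^ L0
      ≤ 2 * ((3200 * (Z : ℝ)) ^ (4 * m) * (L0 : ℝ) ^ (12 * m)) * (9 / 10) ^ L0 := by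
        apply mul_le_mul_of_nonneg_right _ (by positivity)
        exact mul_le_mul_of_nonneg_left h6 (by norm_num)
    _ = 2 * (3200 * (Z : ℝ)) ^ (4 * m) * ((L0 : ℝ) ^ (12 * m) * (9 / 10) ^ L0) := by ring

theorem X1_le (m n0 D R k : ℕ) (hk : 1 ≤ k) :
    (n0 + 2) ^ (n0 + m) * (R ^ (2 * m) * (2 * k + 2) ^ m) ^ m *
        (R * ((D + 1) * k ^ D) * (k + 1)) ^ (D + 1) ≤
      ((n0 + 2) ^ (n0 + m) * 4 ^ (m * m) * (2 * (D + 1)) ^ (D + 1)) *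
        k ^ (m * m + (D + 1) * (D + 1)) * R ^ (2 * m * m + (D + 1)) := by
  have h1 : 2 * k + 2 ≤ 4 * k := by omega
  have h2 : k + 1 ≤ 2 * k := by omega
  calc (n0 + 2) ^ (n0 + m) * (R ^ (2 * m) * (2 * k + 2) ^ m) ^ m *
        (R * ((D + 1) * k ^ D) * (k + 1)) ^ (D + 1)
      ≤ (n0 + 2) ^ (n0 + m) * (R ^ (2 * m) * (4 * k) ^ m) ^ m *
        (R * ((D + 1) * k ^ D) * (2 * k)) ^ (D + 1) := by gcongr
    _ = ((n0 + 2) ^ (n0 + m) * 4 ^ (m * m) * (2 * (D + 1)) ^ (D + 1)) *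
        k ^ (m * m + (D + 1) * (D + 1)) * R ^ (2 * m * m + (D + 1)) := by
        have e1 : R * ((D + 1) * k ^ D) * (2 * k) = R * (2 * (D + 1)) * k ^ (D + 1) := by
          rw [pow_succ]; ring
        rw [e1]
        simp only [mul_pow, ← pow_mul, pow_add]
        ring

theorem X2_le (m Z R k : ℕ) (hk : 1 ≤ k) :
    (Z ^ 2 * (k + 1)) ^ m * ((R * (2 * k) * (k + 1)) ^ 2) ^ (m + 1) ≤
      ((2 * Z ^ 2) ^ m * 16 ^ (m + 1)) * k ^ (m + 4 * (m + 1)) * R ^ (2 * (m + 1)) := by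
  have h2 : k + 1 ≤ 2 * k := by omega
  calc (Z ^ 2 * (k + 1)) ^ m * ((R * (2 * k) * (k + 1)) ^ 2) ^ (m + 1)
      ≤ (Z ^ 2 * (2 * k)) ^ m * ((R * (2 * k) * (2 * k)) ^ 2) ^ (m + 1) := by gcongr
    _ = ((2 * Z ^ 2) ^ m * 16 ^ (m + 1)) * k ^ (m + 4 * (m + 1)) * R ^ (2 * (m + 1)) := by
        have e1 : (R * (2 * k) * (2 * k)) ^ 2 = 16 * (k ^ 4 * R ^ 2) := by ring
        have e2 : Z ^ 2 * (2 * k) = 2 * Z ^ 2 * k := by ring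
        rw [e1, e2]
        simp only [mul_pow, ← pow_mul, pow_add]
        ring

end Vale.Agent.VdWF
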